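import Crest.Agent.S0170.Defs

/-!
Module F2: existence of a valid motion plan carrying the source boxes to the target boxes.
Auxiliary declarations go into `namespace Crest.Agent.S0170.PlanAux`.

NOTE (helper87): `Plan 0` is an empty type (field `mover : ℕ → Fin n`), so `exists_plan` needs
`0 < n`; `exists_valid_plan_one` provides a valid plan with one box for the case `n = 0` of the
final theorem.
-/

set_option autoImplicit false
set_option linter.unnecessarySeqFocus false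
open Crest.AnalysisR.BoxFlow

namespace Crest.Agent.S0170

namespace PlanAux

/-! ### Scheduling: which box moves at which stage, and the phase of every box -/

section sched

variable {n : ℕ}

/-- phase (`0..8`) of box `i` before stage `m` -/
def ph (sA sB : Equiv.Perm (Fin n)) (m : ℕ) (i : Fin n) : ℕ :=
  min 5 (m - 5 * (sA.symm i : ℕ)) + min 3 (m - 5 * n - 3 * (sB.symm i : ℕ))

/-- the box moving in stage `m` -/
def mover (hn : 0 < n) (sA sB : Equiv.Perm (Fin n)) (m : ℕ) : Fin n :=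
  if h : m < 5 * n then sA ⟨m / 5, by omega⟩
  else if h' : m < 8 * n then sB ⟨(m - 5 * n) / 3, by omega⟩
  else ⟨0, hn⟩

/-- the phase of the mover of stage `m` before that stage -/
def jOf (n m : ℕ) : ℕ := if m < 5 * n then m % 5 else 5 + (m - 5 * n) % 3

theorem jOf_lt (n m : ℕ) : jOf n m < 8 := by
  unfold jOf
  split_ifs <;> omega

theorem ph_zero (sA sB : Equiv.Perm (Fin n)) (i : Fin n) : ph sA sB 0 i = 0 := by
  unfold ph
  simp

theorem ph_last (sA sB : Equiv.Perm (Fin n)) (i : Fin n) : ph sA sB (8 * n) i = 8 := by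
  unfold ph
  have h1 := (sA.symm i).isLt
  have h2 := (sB.symm i).isLt
  omega

theorem sched_mover (hn : 0 < n) (sA sB : Equiv.Perm (Fin n)) {m : ℕ} (hm : m < 8 * n) :
    ph sA sB m (mover hn sA sB m) = jOf n m ∧
      ph sA sB (m + 1) (mover hn sA sB m) = jOf n m + 1 := by
  unfold ph mover jOf
  by_cases h : m < 5 * n
  · simp only [h, dite_true, if_true, Equiv.symm_apply_apply]
    have hB := (sB.symm (sA ⟨m / 5, by omega⟩)).isLt
    omega
  · simp only [h, hm, dite_true, dite_false, if_false, Equiv.symm_apply_apply]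
    have hA := (sA.symm (sB ⟨(m - 5 * n) / 3, by omega⟩)).isLt
    omega

theorem sched_other (hn : 0 < n) (sA sB : Equiv.Perm (Fin n)) {m : ℕ} (hm : m < 8 * n)
    {i : Fin n} (hi : i ≠ mover hn sA sB m) :
    ph sA sB (m + 1) i = ph sA sB m i ∧
    ((m < 5 * n ∧ jOf n m ≤ 4 ∧ (ph sA sB m i = 5 ∨
        (ph sA sB m i = 0 ∧ (sA.symm (mover hn sA sB m) : ℕ) < (sA.symm i : ℕ)))) ∨
     (5 * n ≤ m ∧ 5 ≤ jOf n m ∧ (ph sA sB m i = 5 ∨
        (ph sA sB m i = 8 ∧ (sB.symm i : ℕ) < (sB.symm (mover hn sA sB m) : ℕ))))) := by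
  have hA := (sA.symm i).isLt
  have hB := (sB.symm i).isLt
  unfold ph
  by_cases h : m < 5 * n
  · have hmv : mover hn sA sB m = sA ⟨m / 5, by omega⟩ := by
      unfold mover; simp only [h, dite_true]
    have hj : jOf n m = m % 5 := by unfold jOf; rw [if_pos h]
    have hne : (sA.symm i : ℕ) ≠ m / 5 := by
      intro he
      apply hi
      rw [hmv]
      have : sA.symm i = ⟨m / 5, by omega⟩ := Fin.ext he
      rw [← this, Equiv.apply_symm_apply]
    rw [hmv, hj]
    simp only [Equiv.symm_apply_apply]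
    refine ⟨by omega, Or.inl ⟨h, by omega, ?_⟩⟩
    rcases lt_or_gt_of_ne hne with h1 | h1
    · left; omega
    · right; exact ⟨by omega, h1⟩
  · have hmv : mover hn sA sB m = sB ⟨(m - 5 * n) / 3, by omega⟩ := by
      unfold mover; simp only [h, hm, dite_true, dite_false]
    have hj : jOf n m = 5 + (m - 5 * n) % 3 := by unfold jOf; rw [if_neg h]
    have hne : (sB.symm i : ℕ) ≠ (m - 5 * n) / 3 := by
      intro he
      apply hi
      rw [hmv]
      have : sB.symm i = ⟨(m - 5 * n) / 3, by omega⟩ := Fin.ext he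
      rw [← this, Equiv.apply_symm_apply]
    rw [hmv, hj]
    simp only [Equiv.symm_apply_apply]
    refine ⟨by omega, Or.inr ⟨by omega, by omega, ?_⟩⟩
    rcases lt_or_gt_of_ne hne with h1 | h1
    · right; exact ⟨by omega, h1⟩
    · left; omega

end sched

/-! ### The nine positions of one box, and the eight stage types -/

/-- the nine positions of a box with source `(a, h)`, target `(b, k)`, parked on the lane `ℓ` -/
def track (Z ℓ : ℚ) (a h b k : Fin 3 → ℚ) : ℕ → Pos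
  | 0 => ⟨a, h⟩
  | 1 => ⟨![Z, a 1, a 2], h⟩
  | 2 => ⟨![Z, ℓ, a 2], h⟩
  | 3 => ⟨![Z, ℓ, ℓ], h⟩
  | 4 => ⟨![Z, ℓ, ℓ], ![k 0, h 0 * h 1 / k 0, h 2]⟩
  | 5 => ⟨![Z, ℓ, ℓ], k⟩
  | 6 => ⟨![Z, ℓ, b 2], k⟩
  | 7 => ⟨![Z, b 1, b 2], k⟩
  | _ => ⟨b, k⟩

/-- the cyclic permutation `0 → 1 → 2 → 0` -/
def rot3 : Equiv.Perm (Fin 3) where
  toFun := ![1, 2, 0]
  invFun := ![2, 0, 1]
  left_inv := by decide
  right_inv := by decide

/-- axes of the stage leaving phase `j` -/
def stσ : ℕ → Equiv.Perm (Fin 3)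
  | 0 => 1
  | 1 => Equiv.swap 0 1
  | 2 => Equiv.swap 0 2
  | 3 => 1
  | 4 => rot3
  | 5 => Equiv.swap 0 2
  | 6 => Equiv.swap 0 1
  | _ => 1

/-- is the stage leaving phase `j` a squeeze? -/
def stsq : ℕ → Bool
  | 3 => true
  | 4 => true
  | _ => false

/-- the data of a single box are admissible -/
structure BoxOK (W A : ℚ) (a h b k : Fin 3 → ℚ) : Prop where
  hh : ∀ c, 0 < h c
  hk : ∀ c, 0 < k c
  hW : ∀ c, h c ≤ W
  kW : ∀ c, k c ≤ W
  mW : h 0 * h 1 / k 0 ≤ W
  aA : ∀ c, |a c| ≤ A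
  bA : ∀ c, |b c| ≤ A

section track
variable {Z ℓ : ℚ} {a h b k : Fin 3 → ℚ}

theorem track_w_cases (Z ℓ : ℚ) (a h b k : Fin 3 → ℚ) (j : ℕ) :
    (track Z ℓ a h b k j).w = h ∨ (track Z ℓ a h b k j).w = ![k 0, h 0 * h 1 / k 0, h 2] ∨
      (track Z ℓ a h b k j).w = k := by
  unfold track
  split <;> simp

theorem track_w_pos {W A : ℚ} (B : BoxOK W A a h b k) (Z ℓ : ℚ) (j : ℕ) (c : Fin 3) :
    0 < (track Z ℓ a h b k j).w c := by
  have hm : 0 < h 0 * h 1 / k 0 := div_pos (mul_pos (B.hh 0) (B.hh 1)) (B.hk 0)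
  rcases track_w_cases Z ℓ a h b k j with e | e | e <;> rw [e]
  · exact B.hh c
  · fin_cases c
    · simpa using B.hk 0
    · simpa using hm
    · simpa using B.hh 2
  · exact B.hk c

theorem track_w_le {W A : ℚ} (B : BoxOK W A a h b k) (Z ℓ : ℚ) (j : ℕ) (c : Fin 3) :
    (track Z ℓ a h b k j).w c ≤ W := by
  rcases track_w_cases Z ℓ a h b k j with e | e | e <;> rw [e]
  · exact B.hW c
  · fin_cases c
    · simpa using B.kW 0
    · simpa using B.mW
    · simpa using B.hW 2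
  · exact B.kW c

theorem track_trans (Z ℓ : ℚ) (a h b k : Fin 3 → ℚ) {j : ℕ} (hj : j < 8) (hsq : stsq j = false) :
    (track Z ℓ a h b k (j + 1)).w = (track Z ℓ a h b k j).w ∧
      ∀ c : Fin 3, c ≠ stσ j 0 →
        (track Z ℓ a h b k (j + 1)).c c = (track Z ℓ a h b k j).c c := by
  interval_cases j
  · refine ⟨rfl, fun c hc => ?_⟩
    fin_cases c <;> simp [track, stσ] at hc ⊢
  · refine ⟨rfl, fun c hc => ?_⟩
    fin_cases c <;> simp [track, stσ] at hc ⊢
  · refine ⟨rfl, fun c hc => ?_⟩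
    fin_cases c <;> simp [track, stσ] at hc ⊢
  · simp [stsq] at hsq
  · simp [stsq] at hsq
  · refine ⟨rfl, fun c hc => ?_⟩
    fin_cases c <;> simp [track, stσ] at hc ⊢
  · refine ⟨rfl, fun c hc => ?_⟩
    fin_cases c <;> simp [track, stσ] at hc ⊢
  · refine ⟨rfl, fun c hc => ?_⟩
    fin_cases c <;> simp [track, stσ] at hc ⊢

theorem track_squeeze (Z ℓ : ℚ) {a h b k : Fin 3 → ℚ} (hh : ∀ c, 0 < h c) (hk : ∀ c, 0 < k c)
    (hvol : ∏ c : Fin 3, k c / h c = 1) {j : ℕ} (hj : j < 8) (hsq : stsq j = true) :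
    (track Z ℓ a h b k (j + 1)).c = (track Z ℓ a h b k j).c ∧
    (track Z ℓ a h b k (j + 1)).w (stσ j 2) = (track Z ℓ a h b k j).w (stσ j 2) ∧
    (track Z ℓ a h b k (j + 1)).w (stσ j 0) * (track Z ℓ a h b k (j + 1)).w (stσ j 1) =
      (track Z ℓ a h b k j).w (stσ j 0) * (track Z ℓ a h b k j).w (stσ j 1) := by
  have h0 := (hh 0).ne'
  have h1 := (hh 1).ne'
  have h2 := (hh 2).ne'
  have k0 := (hk 0).ne'
  have hv : k 0 * k 1 * k 2 = h 0 * h 1 * h 2 := by
    rw [Fin.prod_univ_three] at hvol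
    field_simp at hvol
    linarith
  interval_cases j
  · simp [stsq] at hsq
  · simp [stsq] at hsq
  · simp [stsq] at hsq
  · refine ⟨rfl, ?_, ?_⟩
    · simp [track, stσ]
    · simp [track, stσ]
      field_simp
  · refine ⟨rfl, ?_, ?_⟩
    · simp [track, stσ, rot3]
    · simp [track, stσ, rot3]
      field_simp
      linarith
  · simp [stsq] at hsq
  · simp [stsq] at hsq
  · simp [stsq] at hsq

end track

/-! ### Separation of a bystander from the hull of a moving box -/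

/-- the inflation/margin constants are compatible with the gap `g` and the width bound `W` -/
structure Env (ε δ g W : ℚ) : Prop where
  εpos : 0 < ε
  εle : ε ≤ 1
  εW : ε * W ≤ g / 4
  δeq : δ = g / 2
  gpos : 0 < g

section clear
variable {ε δ g W : ℚ}

theorem clear_lo_crude (E : Env ε δ g W) {B P Q : Pos} {c : Fin 3}
    (hB0 : 0 < B.w c) (hBW : B.w c ≤ W) (hP : P.w c ≤ W) (hQ : Q.w c ≤ W)
    {l : ℚ} (hl : B.c c + 4 * W + g ≤ l) (hlP : l ≤ P.c c) (hlQ : l ≤ Q.c c) :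
    B.c c + (1 + ε) * B.w c ≤ hullLo P Q ε c - δ := by
  unfold hullLo
  have hε := E.εpos
  have hε1 := E.εle
  have hg := E.gpos
  have hδ := E.δeq
  have hW : 0 < W := lt_of_lt_of_le hB0 hBW
  have h1 : (1 + ε) * B.w c ≤ 2 * W := by nlinarith
  have hm : max (P.w c) (Q.w c) ≤ W := max_le hP hQ
  have h2 : (1 + ε) * max (P.w c) (Q.w c) ≤ 2 * W := by nlinarith
  have h3 : l ≤ min (P.c c) (Q.c c) := le_min hlP hlQ
  linarith

theorem clear_hi_crude (E : Env ε δ g W) {B P Q : Pos} {c : Fin 3}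
    (hB0 : 0 < B.w c) (hBW : B.w c ≤ W) (hP : P.w c ≤ W) (hQ : Q.w c ≤ W)
    {u : ℚ} (hu : u + 4 * W + g ≤ B.c c) (huP : P.c c ≤ u) (huQ : Q.c c ≤ u) :
    hullHi P Q ε c + δ ≤ B.c c - (1 + ε) * B.w c := by
  unfold hullHi
  have hε := E.εpos
  have hε1 := E.εle
  have hg := E.gpos
  have hδ := E.δeq
  have hW : 0 < W := lt_of_lt_of_le hB0 hBW
  have h1 : (1 + ε) * B.w c ≤ 2 * W := by nlinarith
  have hm : max (P.w c) (Q.w c) ≤ W := max_le hP hQ
  have h2 : (1 + ε) * max (P.w c) (Q.w c) ≤ 2 * W := by nlinarith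
  have h3 : max (P.c c) (Q.c c) ≤ u := max_le huP huQ
  linarith

theorem clear_lo_fine (E : Env ε δ g W) {B P Q : Pos} {c : Fin 3}
    (hBW : B.w c ≤ W) {w : ℚ} (hwW : w ≤ W)
    (hPw : P.w c = w) (hQw : Q.w c = w)
    {l : ℚ} (hl : B.c c + B.w c + g ≤ l - w) (hlP : l ≤ P.c c) (hlQ : l ≤ Q.c c) :
    B.c c + (1 + ε) * B.w c ≤ hullLo P Q ε c - δ := by
  unfold hullLo
  rw [hPw, hQw, max_self]
  have hε := E.εpos
  have hεW := E.εW
  have hδ := E.δeq
  have h1 : ε * B.w c ≤ ε * W := mul_le_mul_of_nonneg_left hBW hε.le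
  have h2 : ε * w ≤ ε * W := mul_le_mul_of_nonneg_left hwW hε.le
  have h3 : l ≤ min (P.c c) (Q.c c) := le_min hlP hlQ
  linarith

theorem clear_hi_fine (E : Env ε δ g W) {B P Q : Pos} {c : Fin 3}
    (hBW : B.w c ≤ W) {w : ℚ} (hwW : w ≤ W)
    (hPw : P.w c = w) (hQw : Q.w c = w)
    {u : ℚ} (hu : u + w + g ≤ B.c c - B.w c) (huP : P.c c ≤ u) (huQ : Q.c c ≤ u) :
    hullHi P Q ε c + δ ≤ B.c c - (1 + ε) * B.w c := by
  unfold hullHi
  rw [hPw, hQw, max_self]
  have hε := E.εpos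
  have hεW := E.εW
  have hδ := E.δeq
  have h1 : ε * B.w c ≤ ε * W := mul_le_mul_of_nonneg_left hBW hε.le
  have h2 : ε * w ≤ ε * W := mul_le_mul_of_nonneg_left hwW hε.le
  have h3 : max (P.c c) (Q.c c) ≤ u := max_le huP huQ
  linarith

/-- The bystander `(a', h', b', k')` (at home before/after its own trip, or parked) is separated
from the hull of every stage of the box `(a, h, b, k)`. -/
theorem clear_track {A R : ℚ} (E : Env ε δ g W) (hR : R = A + 2 * W + g)
    {a h b k a' h' b' k' : Fin 3 → ℚ} {ℓ ℓ' : ℚ}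
    (B1 : BoxOK W A a h b k) (B2 : BoxOK W A a' h' b' k')
    (hℓ' : 4 * R ≤ ℓ') (hℓℓ : ℓ + 4 * R ≤ ℓ' ∨ ℓ' + 4 * R ≤ ℓ)
    (sepA : ∃ c, h c + h' c + g ≤ |a c - a' c|) (sepB : ∃ c, k c + k' c + g ≤ |b c - b' c|)
    {j q : ℕ}
    (hq : (j ≤ 4 ∧ (q = 5 ∨ (q = 0 ∧ (j = 0 → a' 0 + h' 0 ≤ a 0 + h 0)))) ∨
          (5 ≤ j ∧ j ≤ 7 ∧ (q = 5 ∨ (q = 8 ∧ (j = 7 → b' 0 + k' 0 ≤ b 0 + k 0))))) :
    ∃ c : Fin 3,
      (track (4 * R) ℓ' a' h' b' k' q).c c + (1 + ε) * (track (4 * R) ℓ' a' h' b' k' q).w c ≤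
          hullLo (track (4 * R) ℓ a h b k j) (track (4 * R) ℓ a h b k (j + 1)) ε c - δ ∨
      hullHi (track (4 * R) ℓ a h b k j) (track (4 * R) ℓ a h b k (j + 1)) ε c + δ ≤
          (track (4 * R) ℓ' a' h' b' k' q).c c -
            (1 + ε) * (track (4 * R) ℓ' a' h' b' k' q).w c := by
  have hg := E.gpos
  have hW : 0 < W := lt_of_lt_of_le (B1.hh 0) (B1.hW 0)
  have hA : 0 ≤ A := le_trans (abs_nonneg _) (B1.aA 0)
  have a0 := abs_le.mp (B1.aA 0)
  have a1 := abs_le.mp (B1.aA 1)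
  have a2 := abs_le.mp (B1.aA 2)
  have b0 := abs_le.mp (B1.bA 0)
  have b1 := abs_le.mp (B1.bA 1)
  have b2 := abs_le.mp (B1.bA 2)
  have a0' := abs_le.mp (B2.aA 0)
  have a1' := abs_le.mp (B2.aA 1)
  have a2' := abs_le.mp (B2.aA 2)
  have b0' := abs_le.mp (B2.bA 0)
  have b1' := abs_le.mp (B2.bA 1)
  have b2' := abs_le.mp (B2.bA 2)
  rcases hq with ⟨hj, hq⟩ | ⟨hj5, hj7, hq⟩
  · rcases hq with rfl | ⟨rfl, htop⟩
    · -- bystander parked, mover in its first five stages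
      interval_cases j
      · refine ⟨1, Or.inr (clear_hi_crude E (track_w_pos B2 _ _ _ _) (track_w_le B2 _ _ _ _)
          (track_w_le B1 _ _ _ _) (track_w_le B1 _ _ _ _) (u := a 1) ?_ ?_ ?_)⟩ <;>
          simp [track] <;> linarith
      · refine ⟨2, Or.inr (clear_hi_crude E (track_w_pos B2 _ _ _ _) (track_w_le B2 _ _ _ _)
          (track_w_le B1 _ _ _ _) (track_w_le B1 _ _ _ _) (u := a 2) ?_ ?_ ?_)⟩ <;>
          simp [track] <;> linarith
      · rcases hℓℓ with hl | hl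
        · refine ⟨1, Or.inr (clear_hi_crude E (track_w_pos B2 _ _ _ _) (track_w_le B2 _ _ _ _)
            (track_w_le B1 _ _ _ _) (track_w_le B1 _ _ _ _) (u := ℓ) ?_ ?_ ?_)⟩ <;>
            simp [track] <;> linarith
        · refine ⟨1, Or.inl (clear_lo_crude E (track_w_pos B2 _ _ _ _) (track_w_le B2 _ _ _ _)
            (track_w_le B1 _ _ _ _) (track_w_le B1 _ _ _ _) (l := ℓ) ?_ ?_ ?_)⟩ <;>
            simp [track] <;> linarith
      · rcases hℓℓ with hl | hl
        · refine ⟨1, Or.inr (clear_hi_crude E (track_w_pos B2 _ _ _ _) (track_w_le B2 _ _ _ _)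
            (track_w_le B1 _ _ _ _) (track_w_le B1 _ _ _ _) (u := ℓ) ?_ ?_ ?_)⟩ <;>
            simp [track] <;> linarith
        · refine ⟨1, Or.inl (clear_lo_crude E (track_w_pos B2 _ _ _ _) (track_w_le B2 _ _ _ _)
            (track_w_le B1 _ _ _ _) (track_w_le B1 _ _ _ _) (l := ℓ) ?_ ?_ ?_)⟩ <;>
            simp [track] <;> linarith
      · rcases hℓℓ with hl | hl
        · refine ⟨1, Or.inr (clear_hi_crude E (track_w_pos B2 _ _ _ _) (track_w_le B2 _ _ _ _)
            (track_w_le B1 _ _ _ _) (track_w_le B1 _ _ _ _) (u := ℓ) ?_ ?_ ?_)⟩ <;>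
            simp [track] <;> linarith
        · refine ⟨1, Or.inl (clear_lo_crude E (track_w_pos B2 _ _ _ _) (track_w_le B2 _ _ _ _)
            (track_w_le B1 _ _ _ _) (track_w_le B1 _ _ _ _) (l := ℓ) ?_ ?_ ?_)⟩ <;>
            simp [track] <;> linarith
    · -- bystander still at its source position
      interval_cases j
      · obtain ⟨c, hc⟩ := sepA
        have htop := htop rfl
        rcases le_abs.mp hc with hc | hc
        · refine ⟨c, Or.inl (clear_lo_fine E (track_w_le B2 _ _ _ _) (B1.hW c) (w := h c) rfl rfl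
            (l := a c) ?_ ?_ ?_)⟩
          · simp only [track]; linarith
          · simp [track]
          · fin_cases c <;> simp [track] <;> linarith
        · fin_cases c
          · exfalso
            have := B1.hh 0
            have := B2.hh 0
            simp at hc
            linarith
          · refine ⟨1, Or.inr (clear_hi_fine E (track_w_le B2 _ _ _ _) (B1.hW 1) (w := h 1) rfl rfl
              (u := a 1) ?_ ?_ ?_)⟩ <;> simp [track] at hc ⊢ <;> linarith
          · refine ⟨2, Or.inr (clear_hi_fine E (track_w_le B2 _ _ _ _) (B1.hW 2) (w := h 2) rfl rfl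
              (u := a 2) ?_ ?_ ?_)⟩ <;> simp [track] at hc ⊢ <;> linarith
      all_goals
        refine ⟨0, Or.inl (clear_lo_crude E (track_w_pos B2 _ _ _ _) (track_w_le B2 _ _ _ _)
          (track_w_le B1 _ _ _ _) (track_w_le B1 _ _ _ _) (l := 4 * R) ?_ ?_ ?_)⟩ <;>
          simp [track] <;> linarith
  · rcases hq with rfl | ⟨rfl, htop⟩
    · -- bystander parked, mover in its last three stages
      interval_cases j
      · rcases hℓℓ with hl | hl
        · refine ⟨1, Or.inr (clear_hi_crude E (track_w_pos B2 _ _ _ _) (track_w_le B2 _ _ _ _)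
            (track_w_le B1 _ _ _ _) (track_w_le B1 _ _ _ _) (u := ℓ) ?_ ?_ ?_)⟩ <;>
            simp [track] <;> linarith
        · refine ⟨1, Or.inl (clear_lo_crude E (track_w_pos B2 _ _ _ _) (track_w_le B2 _ _ _ _)
            (track_w_le B1 _ _ _ _) (track_w_le B1 _ _ _ _) (l := ℓ) ?_ ?_ ?_)⟩ <;>
            simp [track] <;> linarith
      · refine ⟨2, Or.inr (clear_hi_crude E (track_w_pos B2 _ _ _ _) (track_w_le B2 _ _ _ _)
          (track_w_le B1 _ _ _ _) (track_w_le B1 _ _ _ _) (u := b 2) ?_ ?_ ?_)⟩ <;>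
          simp [track] <;> linarith
      · refine ⟨1, Or.inr (clear_hi_crude E (track_w_pos B2 _ _ _ _) (track_w_le B2 _ _ _ _)
          (track_w_le B1 _ _ _ _) (track_w_le B1 _ _ _ _) (u := b 1) ?_ ?_ ?_)⟩ <;>
          simp [track] <;> linarith
    · -- bystander already at its target position
      interval_cases j
      · refine ⟨0, Or.inl (clear_lo_crude E (track_w_pos B2 _ _ _ _) (track_w_le B2 _ _ _ _)
          (track_w_le B1 _ _ _ _) (track_w_le B1 _ _ _ _) (l := 4 * R) ?_ ?_ ?_)⟩ <;>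
          simp [track] <;> linarith
      · refine ⟨0, Or.inl (clear_lo_crude E (track_w_pos B2 _ _ _ _) (track_w_le B2 _ _ _ _)
          (track_w_le B1 _ _ _ _) (track_w_le B1 _ _ _ _) (l := 4 * R) ?_ ?_ ?_)⟩ <;>
          simp [track] <;> linarith
      · obtain ⟨c, hc⟩ := sepB
        have htop := htop rfl
        rcases le_abs.mp hc with hc | hc
        · refine ⟨c, Or.inl (clear_lo_fine E (track_w_le B2 _ _ _ _) (B1.kW c) (w := k c) rfl rfl
            (l := b c) ?_ ?_ ?_)⟩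
          · simp only [track]; linarith
          · fin_cases c <;> simp [track] <;> linarith
          · simp [track]
        · fin_cases c
          · exfalso
            have := B1.hk 0
            have := B2.hk 0
            simp at hc
            linarith
          · refine ⟨1, Or.inr (clear_hi_fine E (track_w_le B2 _ _ _ _) (B1.kW 1) (w := k 1) rfl rfl
              (u := b 1) ?_ ?_ ?_)⟩ <;> simp [track] at hc ⊢ <;> linarith
          · refine ⟨2, Or.inr (clear_hi_fine E (track_w_le B2 _ _ _ _) (B1.kW 2) (w := k 2) rfl rfl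
              (u := b 2) ?_ ?_ ?_)⟩ <;> simp [track] at hc ⊢ <;> linarith

end clear

/-! ### The plan and its validity, given the tracks -/

/-- the plan: `5 n` stages bringing the boxes one by one (in the order `sA`) to their parking
positions and reshaping them there, then `3 n` stages bringing them (in the order `sB`) to their
targets. `T i j` is the `j`-th position of box `i`. -/
def thePlan {n : ℕ} (hn : 0 < n) (sA sB : Equiv.Perm (Fin n)) (ε δ : ℚ) (T : Fin n → ℕ → Pos) :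
    Plan n where
  M := 8 * n
  ε := ε
  δ := δ
  pos := fun m i => T i (ph sA sB m i)
  mover := mover hn sA sB
  σ := fun m => stσ (jOf n m)
  sq := fun m => stsq (jOf n m)

theorem thePlan_valid {n : ℕ} (hn : 0 < n) (sA sB : Equiv.Perm (Fin n)) {ε δ : ℚ}
    (T : Fin n → ℕ → Pos) (hε : 0 < ε) (hδ : 0 < δ)
    (hw : ∀ i j c, 0 < (T i j).w c)
    (htr : ∀ i j, j < 8 → stsq j = false →
      (T i (j + 1)).w = (T i j).w ∧ ∀ c : Fin 3, c ≠ stσ j 0 → (T i (j + 1)).c c = (T i j).c c)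
    (hsqz : ∀ i j, j < 8 → stsq j = true →
      (T i (j + 1)).c = (T i j).c ∧ (T i (j + 1)).w (stσ j 2) = (T i j).w (stσ j 2) ∧
        (T i (j + 1)).w (stσ j 0) * (T i (j + 1)).w (stσ j 1) =
          (T i j).w (stσ j 0) * (T i j).w (stσ j 1))
    (hcl : ∀ i i' : Fin n, i' ≠ i → ∀ j q : ℕ,
      ((j ≤ 4 ∧ (q = 5 ∨ (q = 0 ∧ (sA.symm i : ℕ) < (sA.symm i' : ℕ)))) ∨
        (5 ≤ j ∧ j ≤ 7 ∧ (q = 5 ∨ (q = 8 ∧ (sB.symm i' : ℕ) < (sB.symm i : ℕ))))) →
      ∃ c : Fin 3,
        (T i' q).c c + (1 + ε) * (T i' q).w c ≤ hullLo (T i j) (T i (j + 1)) ε c - δ ∨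
        hullHi (T i j) (T i (j + 1)) ε c + δ ≤ (T i' q).c c - (1 + ε) * (T i' q).w c) :
    (thePlan hn sA sB ε δ T).Valid where
  εpos := hε
  δpos := hδ
  wpos := fun m i c => hw i _ c
  stay := by
    intro m hm i hi
    show T i (ph sA sB (m + 1) i) = T i (ph sA sB m i)
    rw [(sched_other hn sA sB hm hi).1]
  trans := by
    intro m hm hsq
    obtain ⟨e1, e2⟩ := sched_mover hn sA sB hm
    show (T (mover hn sA sB m) (ph sA sB (m + 1) (mover hn sA sB m))).w =
        (T (mover hn sA sB m) (ph sA sB m (mover hn sA sB m))).w ∧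
      ∀ c : Fin 3, c ≠ stσ (jOf n m) 0 →
        (T (mover hn sA sB m) (ph sA sB (m + 1) (mover hn sA sB m))).c c =
          (T (mover hn sA sB m) (ph sA sB m (mover hn sA sB m))).c c
    rw [e1, e2]
    exact htr _ _ (jOf_lt n m) hsq
  squeeze := by
    intro m hm hsq
    obtain ⟨e1, e2⟩ := sched_mover hn sA sB hm
    show (T (mover hn sA sB m) (ph sA sB (m + 1) (mover hn sA sB m))).c =
        (T (mover hn sA sB m) (ph sA sB m (mover hn sA sB m))).c ∧
      (T (mover hn sA sB m) (ph sA sB (m + 1) (mover hn sA sB m))).w (stσ (jOf n m) 2) =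
        (T (mover hn sA sB m) (ph sA sB m (mover hn sA sB m))).w (stσ (jOf n m) 2) ∧
      (T (mover hn sA sB m) (ph sA sB (m + 1) (mover hn sA sB m))).w (stσ (jOf n m) 0) *
          (T (mover hn sA sB m) (ph sA sB (m + 1) (mover hn sA sB m))).w (stσ (jOf n m) 1) =
        (T (mover hn sA sB m) (ph sA sB m (mover hn sA sB m))).w (stσ (jOf n m) 0) *
          (T (mover hn sA sB m) (ph sA sB m (mover hn sA sB m))).w (stσ (jOf n m) 1)
    rw [e1, e2]
    exact hsqz _ _ (jOf_lt n m) hsq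
  clear := by
    intro m hm i hi
    obtain ⟨e1, e2⟩ := sched_mover hn sA sB hm
    obtain ⟨-, hcase⟩ := sched_other hn sA sB hm hi
    have hj8 := jOf_lt n m
    show ∃ c : Fin 3,
      (T i (ph sA sB m i)).c c + (1 + ε) * (T i (ph sA sB m i)).w c ≤
          hullLo (T (mover hn sA sB m) (ph sA sB m (mover hn sA sB m)))
            (T (mover hn sA sB m) (ph sA sB (m + 1) (mover hn sA sB m))) ε c - δ ∨
        hullHi (T (mover hn sA sB m) (ph sA sB m (mover hn sA sB m)))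
            (T (mover hn sA sB m) (ph sA sB (m + 1) (mover hn sA sB m))) ε c + δ ≤
          (T i (ph sA sB m i)).c c - (1 + ε) * (T i (ph sA sB m i)).w c
    rw [e1, e2]
    apply hcl _ _ hi
    rcases hcase with ⟨_, hj4, h5 | ⟨h0, hr⟩⟩ | ⟨_, hj5, h5 | ⟨h8, hr⟩⟩
    · exact Or.inl ⟨hj4, Or.inl h5⟩
    · exact Or.inl ⟨hj4, Or.inr ⟨h0, hr⟩⟩
    · exact Or.inr ⟨hj5, by omega, Or.inl h5⟩
    · exact Or.inr ⟨hj5, by omega, Or.inr ⟨h8, hr⟩⟩

/-! ### Constants -/

theorem exists_bound {ι : Type*} [Finite ι] (f : ι → ℚ) : ∃ B : ℚ, ∀ x, f x ≤ B := by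
  obtain ⟨B, hB⟩ := (Set.finite_range f).bddAbove
  exact ⟨B, fun x => hB (Set.mem_range_self x)⟩

theorem exists_pos_le {ι : Type*} [Finite ι] (s : ι → ℚ) (hs : ∀ x, 0 < s x) :
    ∃ g : ℚ, 0 < g ∧ ∀ x, g ≤ s x := by
  cases isEmpty_or_nonempty ι with
  | inl he => exact ⟨1, one_pos, fun x => (he.false x).elim⟩
  | inr hne =>
    obtain ⟨x₀, hx₀⟩ := Finite.exists_min s
    exact ⟨s x₀, hs x₀, hx₀⟩

/-- disjoint closed boxes are separated in some coordinate -/
theorem sep_of_disjoint {c w c' w' : Fin 3 → ℚ} (hw : ∀ j, 0 ≤ w j) (hw' : ∀ j, 0 ≤ w' j)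
    (hd : Disjoint (box c w) (box c' w')) : ∃ j, w j + w' j < |c j - c' j| := by
  by_contra hcon
  push Not at hcon
  have hx : (fun j => max ((c j : ℝ) - w j) ((c' j : ℝ) - w' j)) ∈ box c w := by
    intro j
    have h1 : |(c j : ℝ) - c' j| ≤ w j + w' j := by exact_mod_cast hcon j
    have h2 : (0 : ℝ) ≤ w j := by exact_mod_cast hw j
    have h3 : (0 : ℝ) ≤ w' j := by exact_mod_cast hw' j
    rw [abs_le] at h1
    have h4 := le_max_left ((c j : ℝ) - w j) ((c' j : ℝ) - w' j)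
    have h5 : max ((c j : ℝ) - w j) ((c' j : ℝ) - w' j) ≤ c j + w j :=
      max_le (by linarith) (by linarith)
    show |max ((c j : ℝ) - w j) ((c' j : ℝ) - w' j) - (c j : ℝ)| ≤ (w j : ℝ)
    rw [abs_le]
    constructor <;> linarith
  have hx' : (fun j => max ((c j : ℝ) - w j) ((c' j : ℝ) - w' j)) ∈ box c' w' := by
    intro j
    have h1 : |(c j : ℝ) - c' j| ≤ w j + w' j := by exact_mod_cast hcon j
    have h2 : (0 : ℝ) ≤ w j := by exact_mod_cast hw j
    have h3 : (0 : ℝ) ≤ w' j := by exact_mod_cast hw' j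
    rw [abs_le] at h1
    have h4 := le_max_right ((c j : ℝ) - w j) ((c' j : ℝ) - w' j)
    have h5 : max ((c j : ℝ) - w j) ((c' j : ℝ) - w' j) ≤ c' j + w' j :=
      max_le (by linarith) (by linarith)
    show |max ((c j : ℝ) - w j) ((c' j : ℝ) - w' j) - (c' j : ℝ)| ≤ (w' j : ℝ)
    rw [abs_le]
    constructor <;> linarith
  exact Set.disjoint_left.mp hd hx hx'

/-- a uniform gap between pairwise disjoint boxes -/
theorem exists_gap {n : ℕ} (c w : Fin n → Fin 3 → ℚ) (hw : ∀ i j, 0 < w i j)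
    (hd : Pairwise fun i i' => Disjoint (box (c i) (w i)) (box (c i') (w i'))) :
    ∃ g : ℚ, 0 < g ∧ ∀ i i', i ≠ i' → ∃ j, w i j + w i' j + g ≤ |c i j - c i' j| := by
  have key : ∀ p : Fin n × Fin n, ∃ s : ℚ, 0 < s ∧
      (p.1 ≠ p.2 → ∃ j, w p.1 j + w p.2 j + s ≤ |c p.1 j - c p.2 j|) := by
    intro p
    by_cases hp : p.1 = p.2
    · exact ⟨1, one_pos, fun h => absurd hp h⟩
    · obtain ⟨j, hj⟩ := sep_of_disjoint (fun j => (hw _ j).le) (fun j => (hw _ j).le) (hd hp)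
      exact ⟨|c p.1 j - c p.2 j| - (w p.1 j + w p.2 j), by linarith, fun _ => ⟨j, by linarith⟩⟩
  choose s hs0 hs using key
  obtain ⟨g, hg0, hg⟩ := exists_pos_le s hs0
  refine ⟨g, hg0, fun i i' hne => ?_⟩
  obtain ⟨j, hj⟩ := hs (i, i') hne
  have := hg (i, i')
  exact ⟨j, by linarith⟩

end PlanAux

open PlanAux in
/-- Existence of a valid motion plan (for at least one box; `Plan 0` is an empty type). -/
theorem exists_plan (n : ℕ) (hn : 0 < n) (a b h k : Fin n → Fin 3 → ℚ)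
    (hh : ∀ i j, 0 < h i j) (hk : ∀ i j, 0 < k i j)
    (ha : Pairwise fun i i' => Disjoint (box (a i) (h i)) (box (a i') (h i')))
    (hb : Pairwise fun i i' => Disjoint (box (b i) (k i)) (box (b i') (k i')))
    (hvol : ∀ i, ∏ j : Fin 3, k i j / h i j = 1) :
    ∃ p : Plan n, p.Valid ∧ (∀ i, p.pos 0 i = ⟨a i, h i⟩) ∧ (∀ i, p.pos p.M i = ⟨b i, k i⟩) := by
  obtain ⟨W₁, hW₁⟩ := exists_bound (fun p : Fin n × Fin 3 => h p.1 p.2)
  obtain ⟨W₂, hW₂⟩ := exists_bound (fun p : Fin n × Fin 3 => k p.1 p.2)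
  obtain ⟨W₃, hW₃⟩ := exists_bound (fun i : Fin n => h i 0 * h i 1 / k i 0)
  obtain ⟨A₁, hA₁⟩ := exists_bound (fun p : Fin n × Fin 3 => |a p.1 p.2|)
  obtain ⟨A₂, hA₂⟩ := exists_bound (fun p : Fin n × Fin 3 => |b p.1 p.2|)
  obtain ⟨g₁, hg₁, hsA⟩ := exists_gap a h hh ha
  obtain ⟨g₂, hg₂, hsB⟩ := exists_gap b k hk hb
  obtain ⟨W, hWdef⟩ : ∃ W : ℚ, W = |W₁| + |W₂| + |W₃| + 1 := ⟨_, rfl⟩
  obtain ⟨A, hAdef⟩ : ∃ A : ℚ, A = |A₁| + |A₂| := ⟨_, rfl⟩
  obtain ⟨g, hgdef⟩ : ∃ g : ℚ, g = min g₁ g₂ := ⟨_, rfl⟩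
  have hW0 : 0 < W := by rw [hWdef]; positivity
  have hA0 : 0 ≤ A := by rw [hAdef]; positivity
  have hg0 : 0 < g := by rw [hgdef]; exact lt_min hg₁ hg₂
  have hgg₁ : g ≤ g₁ := by rw [hgdef]; exact min_le_left _ _
  have hgg₂ : g ≤ g₂ := by rw [hgdef]; exact min_le_right _ _
  obtain ⟨ε, hεdef⟩ : ∃ ε : ℚ, ε = min 1 (g / (4 * W)) := ⟨_, rfl⟩
  obtain ⟨R, hRdef⟩ : ∃ R : ℚ, R = A + 2 * W + g := ⟨_, rfl⟩
  have hR0 : 0 < R := by rw [hRdef]; positivity
  have E : Env ε (g / 2) g W :=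
    { εpos := by rw [hεdef]; exact lt_min one_pos (by positivity)
      εle := by rw [hεdef]; exact min_le_left _ _
      εW := by
        have h1 : ε ≤ g / (4 * W) := by rw [hεdef]; exact min_le_right _ _
        have h2 : ε * W ≤ g / (4 * W) * W := mul_le_mul_of_nonneg_right h1 hW0.le
        have h3 : g / (4 * W) * W = g / 4 := by field_simp
        linarith
      δeq := rfl
      gpos := hg0 }
  have BK : ∀ i, BoxOK W A (a i) (h i) (b i) (k i) := fun i =>
    { hh := hh i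
      hk := hk i
      hW := fun c => by
        have h1 : h i c ≤ W₁ := hW₁ (i, c)
        have := le_abs_self W₁
        have := abs_nonneg W₂
        have := abs_nonneg W₃
        linarith
      kW := fun c => by
        have h1 : k i c ≤ W₂ := hW₂ (i, c)
        have := le_abs_self W₂
        have := abs_nonneg W₁
        have := abs_nonneg W₃
        linarith
      mW := by
        have h1 : h i 0 * h i 1 / k i 0 ≤ W₃ := hW₃ i
        have := le_abs_self W₃
        have := abs_nonneg W₁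
        have := abs_nonneg W₂
        linarith
      aA := fun c => by
        have h1 : |a i c| ≤ A₁ := hA₁ (i, c)
        have := le_abs_self A₁
        have := abs_nonneg A₂
        linarith
      bA := fun c => by
        have h1 : |b i c| ≤ A₂ := hA₂ (i, c)
        have := le_abs_self A₂
        have := abs_nonneg A₁
        linarith }
  obtain ⟨sA, hsAdef⟩ : ∃ sA : Equiv.Perm (Fin n), sA = Tuple.sort (fun i => -(a i 0 + h i 0)) :=
    ⟨_, rfl⟩
  obtain ⟨sB, hsBdef⟩ : ∃ sB : Equiv.Perm (Fin n), sB = Tuple.sort (fun i => b i 0 + k i 0) :=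
    ⟨_, rfl⟩
  have hsAm : ∀ i i' : Fin n, (sA.symm i : ℕ) < (sA.symm i' : ℕ) →
      a i' 0 + h i' 0 ≤ a i 0 + h i 0 := by
    intro i i' hlt
    have hm := Tuple.monotone_sort (fun i => -(a i 0 + h i 0))
    rw [← hsAdef] at hm
    have h1 := hm (show sA.symm i ≤ sA.symm i' from le_of_lt hlt)
    simp only [Function.comp_apply, Equiv.apply_symm_apply] at h1
    linarith
  have hsBm : ∀ i i' : Fin n, (sB.symm i : ℕ) < (sB.symm i' : ℕ) →
      b i 0 + k i 0 ≤ b i' 0 + k i' 0 := by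
    intro i i' hlt
    have hm := Tuple.monotone_sort (fun i => b i 0 + k i 0)
    rw [← hsBdef] at hm
    have h1 := hm (show sB.symm i ≤ sB.symm i' from le_of_lt hlt)
    simp only [Function.comp_apply, Equiv.apply_symm_apply] at h1
    exact h1
  have hlane : ∀ i : Fin n, 4 * R ≤ (((i : ℕ) : ℚ) + 1) * (4 * R) := by
    intro i
    have : (0 : ℚ) ≤ ((i : ℕ) : ℚ) := Nat.cast_nonneg _
    nlinarith
  have hlane2 : ∀ i i' : Fin n, i' ≠ i →
      (((i : ℕ) : ℚ) + 1) * (4 * R) + 4 * R ≤ (((i' : ℕ) : ℚ) + 1) * (4 * R) ∨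
      (((i' : ℕ) : ℚ) + 1) * (4 * R) + 4 * R ≤ (((i : ℕ) : ℚ) + 1) * (4 * R) := by
    intro i i' hne
    have hne' : (i' : ℕ) ≠ (i : ℕ) := fun e => hne (Fin.ext e)
    rcases lt_or_gt_of_ne hne' with hlt | hlt
    · right
      have h1 : ((i' : ℕ) : ℚ) + 1 ≤ ((i : ℕ) : ℚ) := by exact_mod_cast hlt
      nlinarith
    · left
      have h1 : ((i : ℕ) : ℚ) + 1 ≤ ((i' : ℕ) : ℚ) := by exact_mod_cast hlt
      nlinarith
  refine ⟨thePlan hn sA sB ε (g / 2)
    (fun i j => track (4 * R) ((((i : ℕ) : ℚ) + 1) * (4 * R)) (a i) (h i) (b i) (k i) j),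
    thePlan_valid hn sA sB _ E.εpos (by positivity) ?_ ?_ ?_ ?_, ?_, ?_⟩
  · intro i j c
    exact track_w_pos (BK i) _ _ _ _
  · intro i j hj hsq
    exact track_trans _ _ _ _ _ _ hj hsq
  · intro i j hj hsq
    exact track_squeeze _ _ (hh i) (hk i) (hvol i) hj hsq
  · intro i i' hne j q hq
    refine clear_track E hRdef (BK i) (BK i') (hlane i') (hlane2 i i' hne) ?_ ?_ ?_
    · obtain ⟨c, hc⟩ := hsA i i' (Ne.symm hne)
      exact ⟨c, by linarith⟩
    · obtain ⟨c, hc⟩ := hsB i i' (Ne.symm hne)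
      exact ⟨c, by linarith⟩
    · rcases hq with ⟨hj, h5 | ⟨h0, hr⟩⟩ | ⟨hj5, hj7, h5 | ⟨h8, hr⟩⟩
      · exact Or.inl ⟨hj, Or.inl h5⟩
      · exact Or.inl ⟨hj, Or.inr ⟨h0, fun _ => hsAm _ _ hr⟩⟩
      · exact Or.inr ⟨hj5, hj7, Or.inl h5⟩
      · exact Or.inr ⟨hj5, hj7, Or.inr ⟨h8, fun _ => hsBm _ _ hr⟩⟩
  · intro i
    show track _ _ _ _ _ _ (ph sA sB 0 i) = _
    rw [ph_zero]
    rfl
  · intro i
    show track _ _ _ _ _ _ (ph sA sB (8 * n) i) = _
    rw [ph_last]
    rfl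

/-- A valid plan with one box (for the degenerate case `n = 0` of the final theorem, where no
plan with zero boxes exists because `Plan 0` is empty). -/
theorem exists_valid_plan_one : ∃ p : Plan 1, p.Valid := by
  obtain ⟨p, hp, -, -⟩ := exists_plan 1 one_pos (fun _ _ => 0) (fun _ _ => 0) (fun _ _ => 1)
    (fun _ _ => 1) (fun _ _ => one_pos) (fun _ _ => one_pos)
    (fun i i' hne => absurd (Subsingleton.elim i i') hne)
    (fun i i' hne => absurd (Subsingleton.elim i i') hne) (fun _ => by simp)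
  exact ⟨p, hp⟩

end Crest.Agent.S0170
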