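import Crest.Agent.S0170.Defs

/-!
Module E: global flows of smooth compactly supported time-dependent vector fields, and
identification of flow lines by uniqueness. Auxiliary declarations go into
`namespace Crest.Agent.S0170.FlowAux`.
-/

set_option autoImplicit false
open scoped ContDiff
open Crest.AnalysisR.BoxFlow

namespace Crest.Agent.S0170

namespace FlowAux

open Set Metric

/-- A smooth compactly supported field is Lipschitz in the space variable, uniformly in time. -/
theorem lipschitz_slice (U : Field) (hU : ContDiff ℝ ∞ U) (hc : HasCompactSupport U) :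
    ∃ K : NNReal, ∀ t : ℝ, LipschitzWith K (fun y : Fin 3 → ℝ => U (t, y)) := by
  obtain ⟨K, hK⟩ := ContDiff.lipschitzWith_of_hasCompactSupport hc hU (by simp)
  refine ⟨K, fun t => ?_⟩
  have h1 : LipschitzWith 1 (fun y : Fin 3 → ℝ => ((t, y) : ℝ × (Fin 3 → ℝ))) :=
    LipschitzWith.prodMk_left t
  have h2 := hK.comp h1
  rw [mul_one] at h2
  exact h2

/-- Integral curve on `[-1, 2]` starting at `x` at time `0`. -/
theorem exists_curve (U : Field) (hU : ContDiff ℝ ∞ U) (hc : HasCompactSupport U)
    (x : Fin 3 → ℝ) :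
    ∃ α : ℝ → (Fin 3 → ℝ), α 0 = x ∧
      ∀ t ∈ Icc (-1 : ℝ) 2, HasDerivWithinAt α (U (t, α t)) (Icc (-1 : ℝ) 2) t := by
  obtain ⟨K, hK⟩ := lipschitz_slice U hU hc
  obtain ⟨C, hC⟩ := hc.exists_bound_of_continuous hU.continuous
  have hC0 : 0 ≤ C := (norm_nonneg _).trans (hC (0, 0))
  have hLC : ((Real.toNNReal C : NNReal) : ℝ) = C := Real.coe_toNNReal C hC0
  have hPL : IsPicardLindelof (fun t y => U (t, y)) (tmin := -1) (tmax := 2)
      ⟨0, by norm_num, by norm_num⟩ x (2 * Real.toNNReal C + 1) 0 (Real.toNNReal C) K := by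
    refine ⟨fun t _ => (hK t).lipschitzOnWith, fun y _ => ?_, fun t _ y _ => ?_, ?_⟩
    · exact (hU.continuous.comp (by fun_prop)).continuousOn
    · rw [hLC]
      exact hC (t, y)
    · have h1 : max ((2 : ℝ) - 0) (0 - -1) = 2 := by norm_num
      show ((Real.toNNReal C : NNReal) : ℝ) * max ((2 : ℝ) - 0) (0 - -1) ≤
        (((2 * Real.toNNReal C + 1 : NNReal) : NNReal) : ℝ) - ((0 : NNReal) : ℝ)
      rw [h1]
      push_cast
      rw [hLC]
      linarith
  exact hPL.exists_eq_forall_mem_Icc_hasDerivWithinAt₀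

end FlowAux

open Set in
/-- A smooth compactly supported field that vanishes for times outside `[1/4, 3/4]` has a flow. -/
theorem exists_isFlow (U : Field) (hU : ContDiff ℝ ∞ U) (hc : HasCompactSupport U)
    (h0 : ∀ p : ℝ × (Fin 3 → ℝ), p.1 ∉ Set.Icc (1 / 4 : ℝ) (3 / 4) → U p = 0) :
    ∃ Φ : ℝ → (Fin 3 → ℝ) → (Fin 3 → ℝ), IsFlow U Φ := by
  choose α hα0 hα using FlowAux.exists_curve U hU hc
  have hcont : ∀ x, ContinuousOn (α x) (Icc (-1 : ℝ) 2) := fun x t ht =>
    (hα x t ht).continuousWithinAt
  -- right derivative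
  have hright : ∀ x, ∀ t ∈ Ico (-1 : ℝ) 2, HasDerivWithinAt (α x) (U (t, α x t)) (Ici t) t :=
    fun x t ht => (hα x t (Ico_subset_Icc_self ht)).mono_of_mem_nhdsWithin
      (Icc_mem_nhdsGE_of_mem ht)
  -- constancy before time 0
  have hpre : ∀ x, ∀ s ∈ Icc (-1 : ℝ) 0, α x s = x := by
    intro x s hs
    have hconst := constant_of_has_deriv_right_zero (f := α x) (a := -1) (b := 0)
      ((hcont x).mono (Icc_subset_Icc_right (by norm_num)))
      (fun t ht => by
        have := hright x t ⟨ht.1, by linarith [ht.2]⟩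
        rwa [h0 (t, α x t) (by simp only [mem_Icc, not_and_or, not_le]; left; linarith [ht.2])]
          at this)
    rw [hconst s hs, ← hconst 0 ⟨by norm_num, le_rfl⟩, hα0]
  -- constancy after time 1
  have hpost : ∀ x, ∀ s ∈ Icc (1 : ℝ) 2, α x s = α x 1 := by
    intro x s hs
    exact constant_of_has_deriv_right_zero (f := α x) (a := 1) (b := 2)
      ((hcont x).mono (Icc_subset_Icc_left (by norm_num)))
      (fun t ht => by
        have := hright x t ⟨by linarith [ht.1], ht.2⟩
        rwa [h0 (t, α x t) (by simp only [mem_Icc, not_and_or, not_le]; right; linarith [ht.1])]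
          at this) s hs
  refine ⟨fun t x => α x (max (-1 / 2) (min (3 / 2) t)), fun x => ?_, fun t x => ?_⟩
  · have : max (-1 / 2 : ℝ) (min (3 / 2) 0) = 0 := by norm_num
    show α x (max (-1 / 2) (min (3 / 2) 0)) = x
    rw [this, hα0]
  · show HasDerivAt (fun s => α x (max (-1 / 2) (min (3 / 2) s)))
      (U (t, α x (max (-1 / 2) (min (3 / 2) t)))) t
    rcases le_or_gt t (-1 / 2) with h1 | h1
    · -- locally constant, equal to `x`
      have hU0 : U (t, α x (max (-1 / 2) (min (3 / 2) t))) = 0 :=
        h0 _ (by simp only [mem_Icc, not_and_or, not_le]; left; linarith)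
      rw [hU0]
      have hev : (fun s => α x (max (-1 / 2) (min (3 / 2) s))) =ᶠ[nhds t] fun _ => x := by
        filter_upwards [Iio_mem_nhds (show t < 0 by linarith)] with s hs
        apply hpre
        constructor
        · exact le_trans (by norm_num) (le_max_left _ _)
        · exact max_le (by norm_num) ((min_le_right _ _).trans (le_of_lt hs))
      exact (hasDerivAt_const t x).congr_of_eventuallyEq hev
    · rcases lt_or_ge t (3 / 2) with h2 | h2
      · -- equals `α x` near `t`
        have hev : (fun s => α x (max (-1 / 2) (min (3 / 2) s))) =ᶠ[nhds t] α x := by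
          filter_upwards [Ioo_mem_nhds h1 h2] with s hs
          rw [min_eq_right hs.2.le, max_eq_right hs.1.le]
        have hval : max (-1 / 2 : ℝ) (min (3 / 2) t) = t := by
          rw [min_eq_right h2.le, max_eq_right h1.le]
        rw [hval]
        have hd : HasDerivAt (α x) (U (t, α x t)) t :=
          (hα x t ⟨by linarith, by linarith⟩).hasDerivAt
            (Icc_mem_nhds (by linarith) (by linarith))
        exact hd.congr_of_eventuallyEq hev
      · have hU0 : U (t, α x (max (-1 / 2) (min (3 / 2) t))) = 0 :=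
          h0 _ (by simp only [mem_Icc, not_and_or, not_le]; right; linarith)
        rw [hU0]
        have hev : (fun s => α x (max (-1 / 2) (min (3 / 2) s))) =ᶠ[nhds t] fun _ => α x 1 := by
          filter_upwards [Ioi_mem_nhds (show (1 : ℝ) < t by linarith)] with s hs
          apply hpost
          constructor
          · exact le_trans (le_min (by norm_num) (le_of_lt hs)) (le_max_right _ _)
          · exact max_le (by norm_num) ((min_le_left _ _).trans (by norm_num))
        exact (hasDerivAt_const t (α x 1)).congr_of_eventuallyEq hev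

/-- Uniqueness: a curve solving the ODE on `[t₀, t₁]` that starts on a flow line stays on it. -/
theorem isFlow_eq_of_curve (U : Field) (hU : ContDiff ℝ ∞ U) (hc : HasCompactSupport U)
    (Φ : ℝ → (Fin 3 → ℝ) → (Fin 3 → ℝ)) (hΦ : IsFlow U Φ) (x : Fin 3 → ℝ) (t₀ t₁ : ℝ)
    (h01 : t₀ ≤ t₁) (γ : ℝ → (Fin 3 → ℝ)) (h0 : γ t₀ = Φ t₀ x)
    (hγ : ∀ t ∈ Set.Icc t₀ t₁, HasDerivAt γ (U (t, γ t)) t) : Φ t₁ x = γ t₁ := by
  obtain ⟨K, hK⟩ := FlowAux.lipschitz_slice U hU hc
  have key := ODE_solution_unique (v := fun t y => U (t, y)) (f := fun s => Φ s x) (g := γ)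
    (a := t₀) (b := t₁) hK
    (HasDerivAt.continuousOn (fun t _ => hΦ.2 t x))
    (fun t _ => (hΦ.2 t x).hasDerivWithinAt)
    (HasDerivAt.continuousOn (fun t ht => hγ t ht))
    (fun t ht => (hγ t (Set.Ico_subset_Icc_self ht)).hasDerivWithinAt)
    h0.symm
  exact key ⟨h01, le_rfl⟩

end Crest.Agent.S0170
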