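import Crest.Agent.S0170.NQ

/-!
Module B2c: from `Gev g` and `Apx g` to `ApxAll g` (all derivatives approximable, uniformly in the
order), by iterated forward differences. Auxiliary declarations go into
`namespace Crest.Agent.S0170.ApxAllAux`.

Proof (helper73): for smooth `g` with `|g^(a+1)| ≤ B` one has
`|Δ_h^a g (x) - h^a g^(a)(x)| ≤ a h^(a+1) B` (induction on `a` over all such `g`); Mathlib's
`fwdDiff_iter_eq_sum_shift` turns `Δ_h^a g (x)` into a binomial sum of values `g (x + i h)`,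
each of which is approximated by the given primitive recursive approximator of `g`, with
`h = 1 / H`, `H = 2 (N+1) a C K^(a+1) ((a+1)!)^2 + 1` and precision `M = 2^(a+1) H^a (N+1)`.
-/

set_option autoImplicit false
open scoped ContDiff

namespace Crest.Agent.S0170

namespace ApxAllAux

open Finset



/-- mean value bound -/
theorem abs_sub_le_of_deriv_bound {G : ℝ → ℝ} (hG : Differentiable ℝ G) {B : ℝ}
    (hB : ∀ y, |deriv G y| ≤ B) (x y : ℝ) : |G y - G x| ≤ B * |y - x| := by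
  have := Convex.norm_image_sub_le_of_norm_deriv_le (f := G) (s := Set.univ) (C := B)
    (fun z _ => hG z) (fun z _ => by simpa [Real.norm_eq_abs] using hB z) convex_univ
    (Set.mem_univ x) (Set.mem_univ y)
  simpa [Real.norm_eq_abs] using this

/-- second order bound -/
theorem abs_sub_sub_le {G : ℝ → ℝ} (hG : Differentiable ℝ G) (hG' : Differentiable ℝ (deriv G))
    {B : ℝ} (hB : ∀ y, |deriv (deriv G) y| ≤ B) (x h : ℝ) (hh : 0 ≤ h) :
    |G (x + h) - G x - h * deriv G x| ≤ B * h ^ 2 := by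
  have hB0 : 0 ≤ B := le_trans (abs_nonneg _) (hB x)
  set φ : ℝ → ℝ := fun y => G y - deriv G x * y with hφ
  have hφd : ∀ y, HasDerivAt φ (deriv G y - deriv G x) y := by
    intro y
    have h1 := (hG y).hasDerivAt
    have h2 : HasDerivAt (fun y : ℝ => deriv G x * y) (deriv G x) y := by
      simpa using (hasDerivAt_id y).const_mul (deriv G x)
    exact h1.sub h2
  have key := Convex.norm_image_sub_le_of_norm_deriv_le (f := φ) (s := Set.Icc x (x + h))
    (C := B * h) (fun z _ => (hφd z).differentiableAt)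
    (fun z hz => by
      rw [(hφd z).deriv, Real.norm_eq_abs]
      have h3 := abs_sub_le_of_deriv_bound hG' hB x z
      have h4 : |z - x| ≤ h := by
        rw [abs_of_nonneg (by linarith [hz.1])]; linarith [hz.2]
      calc |deriv G z - deriv G x| ≤ B * |z - x| := h3
        _ ≤ B * h := mul_le_mul_of_nonneg_left h4 hB0)
    (convex_Icc _ _) (Set.left_mem_Icc.2 (by linarith)) (Set.right_mem_Icc.2 (by linarith))
  rw [Real.norm_eq_abs, Real.norm_eq_abs] at key
  have e1 : φ (x + h) - φ x = G (x + h) - G x - h * deriv G x := by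
    simp only [hφ]; ring
  have e2 : |x + h - x| = h := by
    rw [add_sub_cancel_left, abs_of_nonneg hh]
  rw [e1, e2] at key
  calc |G (x + h) - G x - h * deriv G x| ≤ B * h * h := key
    _ = B * h ^ 2 := by ring

theorem iteratedDeriv_fwdDiff {g : ℝ → ℝ} (hg : ContDiff ℝ ∞ g) (h : ℝ) (k : ℕ) (y : ℝ) :
    iteratedDeriv k (fwdDiff h g) y = iteratedDeriv k g (y + h) - iteratedDeriv k g y := by
  have h1 : ContDiff ℝ ∞ (fun z => g (z + h)) := hg.comp (contDiff_id.add contDiff_const)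
  have e : (fwdDiff h g) = fun z => (fun z => g (z + h)) z - g z := rfl
  rw [e, iteratedDeriv_fun_sub (h1.contDiffAt.of_le (by exact_mod_cast le_top))
    (hg.contDiffAt.of_le (by exact_mod_cast le_top)), iteratedDeriv_comp_add_const]

theorem contDiff_fwdDiff {g : ℝ → ℝ} (hg : ContDiff ℝ ∞ g) (h : ℝ) : ContDiff ℝ ∞ (fwdDiff h g) := by
  have h1 : ContDiff ℝ ∞ (fun z => g (z + h)) := hg.comp (contDiff_id.add contDiff_const)
  exact h1.sub hg

theorem fwdDiff_iter_sub_le (a : ℕ) : ∀ (g : ℝ → ℝ), ContDiff ℝ ∞ g → ∀ (B h : ℝ), 0 ≤ h →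
    (∀ y, |iteratedDeriv (a + 1) g y| ≤ B) → ∀ x,
    |((fwdDiff h)^[a] g) x - h ^ a * iteratedDeriv a g x| ≤ a * h ^ (a + 1) * B := by
  induction a with
  | zero =>
    intro g hg B h hh hB x
    simp
  | succ a ih =>
    intro g hg B h hh hB x
    have hB0 : 0 ≤ B := le_trans (abs_nonneg _) (hB x)
    have hd : ∀ m : ℕ, Differentiable ℝ (iteratedDeriv m g) := fun m =>
      hg.differentiable_iteratedDeriv m (by exact_mod_cast WithTop.coe_lt_top _)
    -- bound on the (a+1)-st derivative of Δ g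
    have hB' : ∀ y, |iteratedDeriv (a + 1) (fwdDiff h g) y| ≤ B * h := by
      intro y
      rw [iteratedDeriv_fwdDiff hg]
      have := abs_sub_le_of_deriv_bound (G := iteratedDeriv (a + 1) g) (hd (a + 1)) (B := B)
        (fun z => by rw [← iteratedDeriv_succ]; exact hB z) y (y + h)
      rwa [add_sub_cancel_left, abs_of_nonneg hh] at this
    have h1 := ih (fwdDiff h g) (contDiff_fwdDiff hg h) (B * h) h hh hB' x
    rw [iteratedDeriv_fwdDiff hg] at h1
    have h2 := abs_sub_sub_le (G := iteratedDeriv a g) (hd a)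
      (by rw [← iteratedDeriv_succ]; exact hd (a + 1)) (B := B)
      (fun z => by rw [← iteratedDeriv_succ, ← iteratedDeriv_succ]; exact hB z) x h hh
    rw [← iteratedDeriv_succ] at h2
    rw [Function.iterate_succ_apply]
    have hha : 0 ≤ h ^ a := pow_nonneg hh a
    have e : ((fwdDiff h)^[a] (fwdDiff h g)) x - h ^ (a + 1) * iteratedDeriv (a + 1) g x
        = (((fwdDiff h)^[a] (fwdDiff h g)) x - h ^ a * (iteratedDeriv a g (x + h) - iteratedDeriv a g x))
          + h ^ a * (iteratedDeriv a g (x + h) - iteratedDeriv a g x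
              - h * iteratedDeriv (a + 1) g x) := by ring
    rw [e]
    calc |(((fwdDiff h)^[a] (fwdDiff h g)) x - h ^ a * (iteratedDeriv a g (x + h) - iteratedDeriv a g x))
          + h ^ a * (iteratedDeriv a g (x + h) - iteratedDeriv a g x
              - h * iteratedDeriv (a + 1) g x)|
        ≤ |((fwdDiff h)^[a] (fwdDiff h g)) x - h ^ a * (iteratedDeriv a g (x + h) - iteratedDeriv a g x)|
          + |h ^ a * (iteratedDeriv a g (x + h) - iteratedDeriv a g x
              - h * iteratedDeriv (a + 1) g x)| := abs_add_le _ _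
      _ ≤ a * h ^ (a + 1) * (B * h) + h ^ a * (B * h ^ 2) := by
          refine add_le_add h1 ?_
          rw [abs_mul, abs_of_nonneg hha]
          exact mul_le_mul_of_nonneg_left h2 hha
      _ = ((a + 1 : ℕ) : ℝ) * h ^ (a + 1 + 1) * B := by push_cast; ring



/-- sum of coded rationals -/
noncomputable def nqSum (F : ℕ → NQ) (n : ℕ) : NQ :=
  Nat.rec (motive := fun _ => NQ) (0, 0, 0) (fun i acc => NQ.add acc (F i)) n

theorem nqVal_nqSum (F : ℕ → NQ) (n : ℕ) :
    nqVal (nqSum F n) = ∑ i ∈ Finset.range n, nqVal (F i) := by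
  induction n with
  | zero => simp [nqSum, nqVal]
  | succ n ih =>
    rw [Finset.sum_range_succ, ← ih]
    exact NQ.nqVal_add _ _

theorem primrec_nqSum {α : Type*} [Primcodable α] {F : α → ℕ → NQ} (hF : Primrec₂ F)
    {n : α → ℕ} (hn : Primrec n) : Primrec fun x => nqSum (F x) (n x) := by
  have hh : Primrec₂ (fun (x : α) (p : ℕ × NQ) => NQ.add p.2 (F x p.1)) :=
    NQ.primrec_add' (Primrec.snd.comp Primrec.snd)
      (hF.comp Primrec.fst (Primrec.fst.comp Primrec.snd))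
  exact Primrec.nat_rec' hn (Primrec.const (0, 0, 0)) hh

/-- the sign `(-1)^k` as a coded rational -/
def sgn (k : ℕ) : NQ := (1 - k % 2, k % 2, 0)

theorem nqVal_sgn (k : ℕ) : nqVal (sgn k) = (-1 : ℚ) ^ k := by
  rcases Nat.even_or_odd k with hk | hk
  · have : k % 2 = 0 := Nat.even_iff.1 hk
    simp [sgn, nqVal, this, hk.neg_one_pow]
  · have : k % 2 = 1 := Nat.odd_iff.1 hk
    simp [sgn, nqVal, this, hk.neg_one_pow]

theorem primrec_sgn' {α : Type*} [Primcodable α] {f : α → ℕ} (hf : Primrec f) :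
    Primrec fun x => sgn (f x) := by
  have hm : Primrec fun x => f x % 2 := Primrec.nat_mod.comp hf (Primrec.const 2)
  exact Primrec.pair (Primrec.nat_sub.comp (Primrec.const 1) hm)
    (Primrec.pair hm (Primrec.const 0))

theorem primrec_pow : Primrec₂ (fun a b : ℕ => a ^ b) := Primrec₂.unpaired'.1 Nat.Primrec.pow

theorem primrec_factorial : Primrec Nat.factorial := by
  have h : Primrec (Nat.rec (motive := fun _ => ℕ) 1 (fun k acc => (k + 1) * acc)) :=
    Primrec.nat_rec₁ 1 (Primrec.nat_mul.comp (Primrec.succ.comp Primrec.fst) Primrec.snd)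
  refine h.of_eq fun n => ?_
  induction n with
  | zero => rfl
  | succ n ih => rw [Nat.factorial_succ, ← ih]

def Bn (C K a : ℕ) : ℕ := C * K ^ (a + 1) * ((a + 1).factorial) ^ 2
def Hn (C K a N : ℕ) : ℕ := 2 * (N + 1) * a * Bn C K a + 1
def Mn (C K a N : ℕ) : ℕ := 2 ^ (a + 1) * (Hn C K a N) ^ a * (N + 1)
def chooseFn (a i : ℕ) : ℕ := a.factorial / (i.factorial * (a - i).factorial)

theorem chooseFn_eq {a i : ℕ} (h : i ≤ a) : chooseFn a i = a.choose i :=
  (Nat.choose_eq_factorial_div_factorial h).symm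

section prim
variable {α : Type*} [Primcodable α]

theorem primrec_Bn' (C K : ℕ) {a : α → ℕ} (ha : Primrec a) : Primrec fun x => Bn C K (a x) := by
  unfold Bn
  exact Primrec.nat_mul.comp (Primrec.nat_mul.comp (Primrec.const C)
      (primrec_pow.comp (Primrec.const K) (Primrec.succ.comp ha)))
    (primrec_pow.comp (primrec_factorial.comp (Primrec.succ.comp ha)) (Primrec.const 2))

theorem primrec_Hn' (C K : ℕ) {a N : α → ℕ} (ha : Primrec a) (hN : Primrec N) :
    Primrec fun x => Hn C K (a x) (N x) := by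
  unfold Hn
  exact Primrec.succ.comp (Primrec.nat_mul.comp (Primrec.nat_mul.comp
    (Primrec.nat_mul.comp (Primrec.const 2) (Primrec.succ.comp hN)) ha) (primrec_Bn' C K ha))

theorem primrec_Mn' (C K : ℕ) {a N : α → ℕ} (ha : Primrec a) (hN : Primrec N) :
    Primrec fun x => Mn C K (a x) (N x) := by
  unfold Mn
  exact Primrec.nat_mul.comp (Primrec.nat_mul.comp
    (primrec_pow.comp (Primrec.const 2) (Primrec.succ.comp ha))
    (primrec_pow.comp (primrec_Hn' C K ha hN) ha)) (Primrec.succ.comp hN)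

theorem primrec_chooseFn' {a i : α → ℕ} (ha : Primrec a) (hi : Primrec i) :
    Primrec fun x => chooseFn (a x) (i x) := by
  unfold chooseFn
  exact Primrec.nat_div.comp (primrec_factorial.comp ha)
    (Primrec.nat_mul.comp (primrec_factorial.comp hi)
      (primrec_factorial.comp (Primrec.nat_sub.comp ha hi)))

end prim

/-- the approximator for all derivatives -/
noncomputable def apxAllFun (A : NQ × ℕ → NQ) (C K : ℕ) (p : ℕ × NQ × ℕ) : NQ :=
  NQ.mul (NQ.ofNat ((Hn C K p.1 p.2.2) ^ p.1))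
    (nqSum (fun i => NQ.mul (sgn (p.1 - i)) (NQ.mul (NQ.ofNat (chooseFn p.1 i))
       (A (NQ.add p.2.1 (NQ.mul (NQ.ofNat i) (NQ.invSucc (Hn C K p.1 p.2.2 - 1))),
          Mn C K p.1 p.2.2))))
     (p.1 + 1))

theorem primrec_apxAllFun {A : NQ × ℕ → NQ} (hA : Primrec A) (C K : ℕ) :
    Primrec (apxAllFun A C K) := by
  have pa : Primrec (fun p : ℕ × NQ × ℕ => p.1) := Primrec.fst
  have pr : Primrec (fun p : ℕ × NQ × ℕ => p.2.1) := Primrec.fst.comp Primrec.snd
  have pN : Primrec (fun p : ℕ × NQ × ℕ => p.2.2) := Primrec.snd.comp Primrec.snd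
  have pH : Primrec (fun p : ℕ × NQ × ℕ => Hn C K p.1 p.2.2) := primrec_Hn' C K pa pN
  have pM : Primrec (fun p : ℕ × NQ × ℕ => Mn C K p.1 p.2.2) := primrec_Mn' C K pa pN
  have qa : Primrec (fun q : (ℕ × NQ × ℕ) × ℕ => q.1.1) := pa.comp Primrec.fst
  have qi : Primrec (fun q : (ℕ × NQ × ℕ) × ℕ => q.2) := Primrec.snd
  have hF : Primrec₂ (fun (p : ℕ × NQ × ℕ) (i : ℕ) =>
      NQ.mul (sgn (p.1 - i)) (NQ.mul (NQ.ofNat (chooseFn p.1 i))
       (A (NQ.add p.2.1 (NQ.mul (NQ.ofNat i) (NQ.invSucc (Hn C K p.1 p.2.2 - 1))),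
          Mn C K p.1 p.2.2)))) := by
    refine NQ.primrec_mul' (primrec_sgn' (Primrec.nat_sub.comp qa qi))
      (NQ.primrec_mul' (NQ.primrec_ofNat' (primrec_chooseFn' qa qi))
        (hA.comp (Primrec.pair (NQ.primrec_add' (pr.comp Primrec.fst)
          (NQ.primrec_mul' (NQ.primrec_ofNat' qi)
            (NQ.primrec_invSucc' (Primrec.nat_sub.comp (pH.comp Primrec.fst) (Primrec.const 1)))))
          (pM.comp Primrec.fst))))
  unfold apxAllFun
  exact NQ.primrec_mul' (NQ.primrec_ofNat' (primrec_pow.comp pH pa))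
    (primrec_nqSum hF (Primrec.succ.comp pa))

theorem nqVal_apxAllFun (A : NQ × ℕ → NQ) (C K : ℕ) (a : ℕ) (r : NQ) (N : ℕ) :
    nqVal (apxAllFun A C K (a, r, N)) = (Hn C K a N : ℚ) ^ a *
      ∑ i ∈ Finset.range (a + 1), (-1 : ℚ) ^ (a - i) * (a.choose i : ℚ) *
        nqVal (A (NQ.add r (NQ.mul (NQ.ofNat i) (NQ.invSucc (Hn C K a N - 1))), Mn C K a N)) := by
  unfold apxAllFun
  rw [NQ.nqVal_mul, NQ.nqVal_ofNat, nqVal_nqSum]
  push_cast
  congr 1
  refine Finset.sum_congr rfl fun i hi => ?_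
  have hi' : i ≤ a := Nat.lt_succ_iff.1 (Finset.mem_range.1 hi)
  rw [NQ.nqVal_mul, nqVal_sgn, NQ.nqVal_mul, NQ.nqVal_ofNat, chooseFn_eq hi']
  ring

theorem nqVal_point (r : NQ) (i H : ℕ) (hH : 1 ≤ H) :
    nqVal (NQ.add r (NQ.mul (NQ.ofNat i) (NQ.invSucc (H - 1)))) = nqVal r + (i : ℚ) * (1 / (H : ℚ)) := by
  rw [NQ.nqVal_add, NQ.nqVal_mul, NQ.nqVal_ofNat, NQ.nqVal_invSucc]
  have : ((H - 1 : ℕ) : ℚ) + 1 = (H : ℚ) := by
    have h2 : (H - 1 : ℕ) + 1 = H := Nat.sub_add_cancel hH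
    exact_mod_cast h2
  rw [this]



theorem apxAll_bound {g : ℝ → ℝ} (hsm : ContDiff ℝ ∞ g) {C K : ℕ}
    (hCK : ∀ (a : ℕ) (x : ℝ),
      |iteratedDeriv a g x| ≤ (C : ℝ) * (K : ℝ) ^ a * (a.factorial : ℝ) ^ 2)
    {A : NQ × ℕ → NQ}
    (hA : ∀ (r : NQ) (N : ℕ),
      |g ((nqVal r : ℚ) : ℝ) - ((nqVal (A (r, N)) : ℚ) : ℝ)| ≤ 1 / ((N : ℝ) + 1))
    (a : ℕ) (r : NQ) (N : ℕ) :
    |iteratedDeriv a g ((nqVal r : ℚ) : ℝ) - ((nqVal (apxAllFun A C K (a, r, N)) : ℚ) : ℝ)|
      ≤ 1 / ((N : ℝ) + 1) := by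
  set H : ℕ := Hn C K a N with hH
  set M : ℕ := Mn C K a N with hM
  set x : ℝ := ((nqVal r : ℚ) : ℝ) with hx
  have hH1 : 1 ≤ H := by rw [hH]; unfold Hn; omega
  have hHpos : (0 : ℝ) < H := by exact_mod_cast hH1
  set h : ℝ := 1 / (H : ℝ) with hh
  have hhpos : 0 < h := by positivity
  set B : ℝ := (C : ℝ) * (K : ℝ) ^ (a + 1) * ((a + 1).factorial : ℝ) ^ 2 with hB
  have hB0 : 0 ≤ B := by positivity
  have hN0 : (0 : ℝ) < (N : ℝ) + 1 := by positivity
  -- step 1: the difference quotient is close to the derivative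
  have s1 := fwdDiff_iter_sub_le a g hsm B h hhpos.le (fun y => hCK (a + 1) y) x
  have hHh1 : (H : ℝ) * h = 1 := by rw [hh]; field_simp
  have hHh : (H : ℝ) ^ a * h ^ a = 1 := by rw [← mul_pow, hHh1, one_pow]
  have hHval : (H : ℝ) = 2 * ((N : ℝ) + 1) * a * B + 1 := by
    rw [hH, hB]; unfold Hn Bn; push_cast; ring
  have s1' : |(H : ℝ) ^ a * ((fwdDiff h)^[a] g) x - iteratedDeriv a g x|
      ≤ 1 / (2 * ((N : ℝ) + 1)) := by
    have e : (H : ℝ) ^ a * ((fwdDiff h)^[a] g) x - iteratedDeriv a g x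
        = (H : ℝ) ^ a * (((fwdDiff h)^[a] g) x - h ^ a * iteratedDeriv a g x) := by
      rw [mul_sub, ← mul_assoc, hHh, one_mul]
    rw [e, abs_mul, abs_of_nonneg (by positivity)]
    calc (H : ℝ) ^ a * |((fwdDiff h)^[a] g) x - h ^ a * iteratedDeriv a g x|
        ≤ (H : ℝ) ^ a * (a * h ^ (a + 1) * B) := mul_le_mul_of_nonneg_left s1 (by positivity)
      _ = ((H : ℝ) ^ a * h ^ a) * (a * B * h) := by rw [pow_succ]; ring
      _ = a * B * h := by rw [hHh, one_mul]
      _ ≤ 1 / (2 * ((N : ℝ) + 1)) := by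
          rw [hh, mul_one_div, div_le_div_iff₀ hHpos (by positivity), hHval]
          have : (0 : ℝ) ≤ a * B := by positivity
          nlinarith
  -- step 2: the sum formula
  have s2 := fwdDiff_iter_eq_sum_shift h g a x
  have hval := nqVal_apxAllFun A C K a r N
  rw [← hH, ← hM] at hval
  have hval' : ((nqVal (apxAllFun A C K (a, r, N)) : ℚ) : ℝ) = (H : ℝ) ^ a *
      ∑ i ∈ Finset.range (a + 1), (-1 : ℝ) ^ (a - i) * (a.choose i : ℝ) *
        ((nqVal (A (NQ.add r (NQ.mul (NQ.ofNat i) (NQ.invSucc (H - 1))), M)) : ℚ) : ℝ) := by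
    rw [hval]; push_cast; rfl
  have s2' : ((fwdDiff h)^[a] g) x = ∑ i ∈ Finset.range (a + 1),
      (-1 : ℝ) ^ (a - i) * (a.choose i : ℝ) * g (x + (i : ℝ) * h) := by
    rw [s2]
    refine Finset.sum_congr rfl fun i _ => ?_
    rw [zsmul_eq_mul, nsmul_eq_mul]; push_cast; ring
  have hpt : ∀ i : ℕ, ((nqVal (NQ.add r (NQ.mul (NQ.ofNat i) (NQ.invSucc (H - 1)))) : ℚ) : ℝ)
      = x + (i : ℝ) * h := by
    intro i
    rw [nqVal_point r i H hH1, hx, hh]; push_cast; ring
  have hM1 : (0 : ℝ) < (M : ℝ) + 1 := by positivity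
  have s3 : |(H : ℝ) ^ a * ((fwdDiff h)^[a] g) x
      - ((nqVal (apxAllFun A C K (a, r, N)) : ℚ) : ℝ)| ≤ 1 / (2 * ((N : ℝ) + 1)) := by
    rw [hval', s2', ← mul_sub, ← Finset.sum_sub_distrib, abs_mul, abs_of_nonneg (by positivity)]
    have hsum : |∑ i ∈ Finset.range (a + 1),
        ((-1 : ℝ) ^ (a - i) * (a.choose i : ℝ) * g (x + (i : ℝ) * h)
          - (-1 : ℝ) ^ (a - i) * (a.choose i : ℝ) *
            ((nqVal (A (NQ.add r (NQ.mul (NQ.ofNat i) (NQ.invSucc (H - 1))), M)) : ℚ) : ℝ))|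
        ≤ ∑ i ∈ Finset.range (a + 1), (a.choose i : ℝ) * (1 / ((M : ℝ) + 1)) := by
      refine le_trans (Finset.abs_sum_le_sum_abs _ _) (Finset.sum_le_sum fun i _ => ?_)
      rw [← mul_sub, abs_mul, abs_mul, abs_pow, abs_neg, abs_one, one_pow, one_mul,
        abs_of_nonneg (by positivity : (0 : ℝ) ≤ (a.choose i : ℝ))]
      refine mul_le_mul_of_nonneg_left ?_ (by positivity)
      have := hA (NQ.add r (NQ.mul (NQ.ofNat i) (NQ.invSucc (H - 1)))) M
      rwa [hpt i] at this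
    have hch : ∑ i ∈ Finset.range (a + 1), (a.choose i : ℝ) * (1 / ((M : ℝ) + 1))
        = (2 : ℝ) ^ a / ((M : ℝ) + 1) := by
      rw [← Finset.sum_mul]
      have : (∑ i ∈ Finset.range (a + 1), (a.choose i : ℝ)) = (2 : ℝ) ^ a := by
        exact_mod_cast Nat.sum_range_choose a
      rw [this]; ring
    rw [hch] at hsum
    have hMval : (M : ℝ) = 2 ^ (a + 1) * (H : ℝ) ^ a * ((N : ℝ) + 1) := by
      rw [hM]; unfold Mn; push_cast; rw [← hH]
    calc (H : ℝ) ^ a * |∑ i ∈ Finset.range (a + 1),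
        ((-1 : ℝ) ^ (a - i) * (a.choose i : ℝ) * g (x + (i : ℝ) * h)
          - (-1 : ℝ) ^ (a - i) * (a.choose i : ℝ) *
            ((nqVal (A (NQ.add r (NQ.mul (NQ.ofNat i) (NQ.invSucc (H - 1))), M)) : ℚ) : ℝ))|
        ≤ (H : ℝ) ^ a * ((2 : ℝ) ^ a / ((M : ℝ) + 1)) :=
          mul_le_mul_of_nonneg_left hsum (by positivity)
      _ ≤ 1 / (2 * ((N : ℝ) + 1)) := by
          rw [← mul_div_assoc, div_le_div_iff₀ hM1 (by positivity), hMval]
          have hp : (0 : ℝ) ≤ (H : ℝ) ^ a * 2 ^ a * ((N : ℝ) + 1) := by positivity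
          rw [pow_succ]
          nlinarith
  calc |iteratedDeriv a g x - ((nqVal (apxAllFun A C K (a, r, N)) : ℚ) : ℝ)|
      = |(iteratedDeriv a g x - (H : ℝ) ^ a * ((fwdDiff h)^[a] g) x)
          + ((H : ℝ) ^ a * ((fwdDiff h)^[a] g) x
            - ((nqVal (apxAllFun A C K (a, r, N)) : ℚ) : ℝ))| := by ring_nf
    _ ≤ |iteratedDeriv a g x - (H : ℝ) ^ a * ((fwdDiff h)^[a] g) x|
          + |(H : ℝ) ^ a * ((fwdDiff h)^[a] g) x
            - ((nqVal (apxAllFun A C K (a, r, N)) : ℚ) : ℝ)| := abs_add_le _ _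
    _ ≤ 1 / (2 * ((N : ℝ) + 1)) + 1 / (2 * ((N : ℝ) + 1)) := by
          refine add_le_add ?_ s3
          rw [abs_sub_comm]; exact s1'
    _ = 1 / ((N : ℝ) + 1) := by field_simp; ring

end ApxAllAux

theorem Apx.all {g : ℝ → ℝ} (hg : Gev g) (ha : Apx g) : ApxAll g := by
  obtain ⟨hsm, C, K, hCK⟩ := hg
  obtain ⟨A, hA, hAapx⟩ := ha
  exact ⟨ApxAllAux.apxAllFun A C K, ApxAllAux.primrec_apxAllFun hA C K,
    fun a r N => ApxAllAux.apxAll_bound hsm hCK hAapx a r N⟩

end Crest.Agent.S0170
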