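import Crest.Agent.S0170.NQ

/-!
Module B2a: closure properties of `Apx` (primitive-recursive approximability at coded rationals)
under arithmetic. Auxiliary declarations go into `namespace Crest.Agent.S0170.ApxArith`.
-/

set_option autoImplicit false

namespace Crest.Agent.S0170

namespace ApxArith

/-- index map `(r, N) ↦ (r, φ N)` -/
theorem primrec_idx {φ : ℕ → ℕ} (hφ : Primrec φ) :
    Primrec (fun p : (ℕ × ℕ × ℕ) × ℕ => (p.1, φ p.2)) :=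
  Primrec.pair Primrec.fst (hφ.comp Primrec.snd)

theorem primrec_succ_mul_const (K : ℕ) : Primrec (fun n : ℕ => (n + 1) * K) :=
  Primrec.nat_mul.comp Primrec.succ (Primrec.const K)

theorem one_div_succ_mul_le (N K : ℕ) (hK : 0 < K) :
    (1 : ℝ) / ((((N + 1) * K : ℕ) : ℝ) + 1) ≤ 1 / (((N : ℝ) + 1) * (K : ℝ)) := by
  have hK' : (0 : ℝ) < (K : ℝ) := by exact_mod_cast hK
  apply one_div_le_one_div_of_le (by positivity)
  push_cast
  linarith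

theorem one_div_succ_mul_le_one (N K : ℕ) :
    (1 : ℝ) / ((((N + 1) * K : ℕ) : ℝ) + 1) ≤ 1 := by
  rw [div_le_one (by positivity)]
  have : (0 : ℝ) ≤ (((N + 1) * K : ℕ) : ℝ) := Nat.cast_nonneg _
  linarith

end ApxArith

open ApxArith

theorem Apx.const (c : ℚ) : Apx (fun _ => (c : ℝ)) := by
  obtain ⟨r0, hr0⟩ := NQ.exists_nqVal_eq c
  refine ⟨fun _ => r0, Primrec.const r0, fun r N => ?_⟩
  rw [hr0, sub_self, abs_zero]
  positivity

theorem Apx.add {f g : ℝ → ℝ} (hf : Apx f) (hg : Apx g) : Apx (fun x => f x + g x) := by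
  obtain ⟨Af, hAf, hf⟩ := hf
  obtain ⟨Ag, hAg, hg⟩ := hg
  have hφ : Primrec (fun n : ℕ => 2 * n + 1) :=
    Primrec.succ.comp (Primrec.nat_mul.comp (Primrec.const 2) Primrec.id)
  have hidx := primrec_idx hφ
  refine ⟨fun p => NQ.add (Af (p.1, 2 * p.2 + 1)) (Ag (p.1, 2 * p.2 + 1)),
    NQ.primrec_add' (hAf.comp hidx) (hAg.comp hidx), fun r N => ?_⟩
  have h1 := hf r (2 * N + 1)
  have h2 := hg r (2 * N + 1)
  have e : (1 : ℝ) / (((2 * N + 1 : ℕ) : ℝ) + 1) = (1 / ((N : ℝ) + 1)) / 2 := by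
    push_cast
    field_simp
    ring
  rw [e] at h1 h2
  show |f ((nqVal r : ℚ) : ℝ) + g ((nqVal r : ℚ) : ℝ)
      - ((nqVal (NQ.add (Af (r, 2 * N + 1)) (Ag (r, 2 * N + 1))) : ℚ) : ℝ)| ≤ 1 / ((N : ℝ) + 1)
  rw [NQ.nqVal_add]
  push_cast
  have e2 : f ((nqVal r : ℚ) : ℝ) + g ((nqVal r : ℚ) : ℝ)
      - (((nqVal (Af (r, 2 * N + 1)) : ℚ) : ℝ) + ((nqVal (Ag (r, 2 * N + 1)) : ℚ) : ℝ))
      = (f ((nqVal r : ℚ) : ℝ) - ((nqVal (Af (r, 2 * N + 1)) : ℚ) : ℝ))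
        + (g ((nqVal r : ℚ) : ℝ) - ((nqVal (Ag (r, 2 * N + 1)) : ℚ) : ℝ)) := by ring
  rw [e2]
  exact (abs_add_le _ _).trans (by linarith)

theorem Apx.neg {f : ℝ → ℝ} (hf : Apx f) : Apx (fun x => - f x) := by
  obtain ⟨Af, hAf, hf⟩ := hf
  refine ⟨fun p => NQ.neg (Af p), NQ.primrec_neg' hAf, fun r N => ?_⟩
  have h1 := hf r N
  show |- f ((nqVal r : ℚ) : ℝ) - ((nqVal (NQ.neg (Af (r, N))) : ℚ) : ℝ)| ≤ 1 / ((N : ℝ) + 1)
  rw [NQ.nqVal_neg]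
  push_cast
  have e2 : - f ((nqVal r : ℚ) : ℝ) - -((nqVal (Af (r, N)) : ℚ) : ℝ)
      = -(f ((nqVal r : ℚ) : ℝ) - ((nqVal (Af (r, N)) : ℚ) : ℝ)) := by ring
  rw [e2, abs_neg]
  exact h1

theorem Apx.sub {f g : ℝ → ℝ} (hf : Apx f) (hg : Apx g) : Apx (fun x => f x - g x) := by
  have h := Apx.add hf (Apx.neg hg)
  have e : (fun x => f x - g x) = (fun x => f x + - g x) := by
    funext x
    ring
  rw [e]
  exact h

theorem Apx.const_mul (c : ℚ) {f : ℝ → ℝ} (hf : Apx f) : Apx (fun x => (c : ℝ) * f x) := by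
  obtain ⟨Af, hAf, hf⟩ := hf
  obtain ⟨r0, hr0⟩ := NQ.exists_nqVal_eq c
  obtain ⟨K, hK⟩ := exists_nat_ge |(c : ℝ)|
  have hidx := primrec_idx (primrec_succ_mul_const (K + 1))
  refine ⟨fun p => NQ.mul r0 (Af (p.1, (p.2 + 1) * (K + 1))),
    NQ.primrec_mul' (Primrec.const r0) (hAf.comp hidx), fun r N => ?_⟩
  have h1 := hf r ((N + 1) * (K + 1))
  have h2 := one_div_succ_mul_le N (K + 1) (Nat.succ_pos K)
  show |(c : ℝ) * f ((nqVal r : ℚ) : ℝ)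
      - ((nqVal (NQ.mul r0 (Af (r, (N + 1) * (K + 1)))) : ℚ) : ℝ)| ≤ 1 / ((N : ℝ) + 1)
  rw [NQ.nqVal_mul, hr0]
  push_cast
  rw [← mul_sub, abs_mul]
  have hN : (0 : ℝ) < (N : ℝ) + 1 := by positivity
  have hK0 : (0 : ℝ) ≤ (K : ℝ) := Nat.cast_nonneg K
  have h3 : |(c : ℝ)| * |f ((nqVal r : ℚ) : ℝ) - ((nqVal (Af (r, (N + 1) * (K + 1))) : ℚ) : ℝ)|
      ≤ (K : ℝ) * (1 / (((N : ℝ) + 1) * (((K + 1 : ℕ) : ℝ)))) :=
    mul_le_mul hK (h1.trans h2) (abs_nonneg _) hK0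
  refine h3.trans ?_
  push_cast
  rw [mul_one_div, div_le_div_iff₀ (by positivity) hN]
  nlinarith

theorem Apx.mul {f g : ℝ → ℝ} (hf : Apx f) (hg : Apx g) (B : ℕ)
    (hfB : ∀ x, |f x| ≤ B) (hgB : ∀ x, |g x| ≤ B) : Apx (fun x => f x * g x) := by
  obtain ⟨Af, hAf, hf⟩ := hf
  obtain ⟨Ag, hAg, hg⟩ := hg
  have hidx := primrec_idx (primrec_succ_mul_const (2 * B + 2))
  refine ⟨fun p => NQ.mul (Af (p.1, (p.2 + 1) * (2 * B + 2))) (Ag (p.1, (p.2 + 1) * (2 * B + 2))),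
    NQ.primrec_mul' (hAf.comp hidx) (hAg.comp hidx), fun r N => ?_⟩
  have h1 := hf r ((N + 1) * (2 * B + 2))
  have h2 := hg r ((N + 1) * (2 * B + 2))
  have he1 := one_div_succ_mul_le N (2 * B + 2) (by omega)
  have he2 := one_div_succ_mul_le_one N (2 * B + 2)
  show |f ((nqVal r : ℚ) : ℝ) * g ((nqVal r : ℚ) : ℝ)
      - ((nqVal (NQ.mul (Af (r, (N + 1) * (2 * B + 2))) (Ag (r, (N + 1) * (2 * B + 2)))) : ℚ) : ℝ)|
      ≤ 1 / ((N : ℝ) + 1)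
  rw [NQ.nqVal_mul]
  push_cast
  generalize ((nqVal r : ℚ) : ℝ) = x at *
  generalize ((nqVal (Af (r, (N + 1) * (2 * B + 2))) : ℚ) : ℝ) = u at *
  generalize ((nqVal (Ag (r, (N + 1) * (2 * B + 2))) : ℚ) : ℝ) = v at *
  generalize (1 : ℝ) / ((((N + 1) * (2 * B + 2) : ℕ) : ℝ) + 1) = e at *
  have hB0 : (0 : ℝ) ≤ (B : ℝ) := Nat.cast_nonneg B
  have hN : (0 : ℝ) < (N : ℝ) + 1 := by positivity
  have he0 : 0 ≤ e := (abs_nonneg _).trans h1
  have hv : |v| ≤ (B : ℝ) + 1 := by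
    have h3 : |v| - |g x| ≤ |v - g x| := abs_sub_abs_le_abs_sub v (g x)
    rw [abs_sub_comm] at h3
    linarith [hgB x]
  have e2 : f x * g x - u * v = f x * (g x - v) + v * (f x - u) := by ring
  rw [e2]
  have h4 : |f x * (g x - v) + v * (f x - u)| ≤ (B : ℝ) * e + ((B : ℝ) + 1) * e := by
    refine (abs_add_le _ _).trans ?_
    rw [abs_mul, abs_mul]
    exact add_le_add (mul_le_mul (hfB x) h2 (abs_nonneg _) hB0)
      (mul_le_mul hv h1 (abs_nonneg _) (by linarith))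
  refine h4.trans ?_
  have h5 : (B : ℝ) * e + ((B : ℝ) + 1) * e
      ≤ (2 * (B : ℝ) + 1) * (1 / (((N : ℝ) + 1) * (((2 * B + 2 : ℕ) : ℝ)))) := by
    have : (B : ℝ) * e + ((B : ℝ) + 1) * e = (2 * (B : ℝ) + 1) * e := by ring
    rw [this]
    exact mul_le_mul_of_nonneg_left he1 (by linarith)
  refine h5.trans ?_
  push_cast
  rw [mul_one_div, div_le_div_iff₀ (by positivity) hN]
  nlinarith

theorem Apx.comp_affine (α β : ℚ) {f : ℝ → ℝ} (hf : Apx f) :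
    Apx (fun x => f ((α : ℝ) * x + (β : ℝ))) := by
  obtain ⟨Af, hAf, hf⟩ := hf
  obtain ⟨rα, hrα⟩ := NQ.exists_nqVal_eq α
  obtain ⟨rβ, hrβ⟩ := NQ.exists_nqVal_eq β
  have hidx : Primrec (fun p : (ℕ × ℕ × ℕ) × ℕ => (NQ.add (NQ.mul rα p.1) rβ, p.2)) :=
    Primrec.pair (NQ.primrec_add' (NQ.primrec_mul' (Primrec.const rα) Primrec.fst)
      (Primrec.const rβ)) Primrec.snd
  refine ⟨fun p => Af (NQ.add (NQ.mul rα p.1) rβ, p.2), hAf.comp hidx, fun r N => ?_⟩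
  have h1 := hf (NQ.add (NQ.mul rα r) rβ) N
  rw [NQ.nqVal_add, NQ.nqVal_mul, hrα, hrβ] at h1
  push_cast at h1
  exact h1

theorem Apx.inv {f : ℝ → ℝ} (hf : Apx f) (d : ℚ) (hd : 0 < d) (h : ∀ x, (d : ℝ) ≤ f x) :
    Apx (fun x => (f x)⁻¹) := by
  obtain ⟨Af, hAf, hf⟩ := hf
  obtain ⟨rd, hrd⟩ := NQ.exists_nqVal_eq d
  have hdR : (0 : ℝ) < (d : ℝ) := by exact_mod_cast hd
  obtain ⟨D, hD⟩ := exists_nat_ge (1 / (d : ℝ) ^ 2)
  have hDpos : 0 < D := by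
    have : (0 : ℝ) < (D : ℝ) := lt_of_lt_of_le (by positivity) hD
    exact_mod_cast this
  have hidx := primrec_idx (primrec_succ_mul_const D)
  refine ⟨fun p => NQ.inv (NQ.max (Af (p.1, (p.2 + 1) * D)) rd),
    NQ.primrec_inv' (NQ.primrec_max' (hAf.comp hidx) (Primrec.const rd)), fun r N => ?_⟩
  have h1 := hf r ((N + 1) * D)
  have he1 := one_div_succ_mul_le N D hDpos
  have hmax : nqVal (NQ.max (Af (r, (N + 1) * D)) rd) = max (nqVal (Af (r, (N + 1) * D))) d := by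
    rw [NQ.nqVal_max, hrd]
  have hpos : 0 < nqVal (NQ.max (Af (r, (N + 1) * D)) rd) := by
    rw [hmax]
    exact lt_of_lt_of_le hd (le_max_right _ _)
  show |(f ((nqVal r : ℚ) : ℝ))⁻¹
      - ((nqVal (NQ.inv (NQ.max (Af (r, (N + 1) * D)) rd)) : ℚ) : ℝ)| ≤ 1 / ((N : ℝ) + 1)
  rw [NQ.nqVal_inv _ hpos, hmax]
  push_cast
  have hy := h ((nqVal r : ℚ) : ℝ)
  generalize f ((nqVal r : ℚ) : ℝ) = y at *
  generalize ((nqVal (Af (r, (N + 1) * D)) : ℚ) : ℝ) = a at *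
  generalize (1 : ℝ) / ((((N + 1) * D : ℕ) : ℝ) + 1) = e at *
  have hN : (0 : ℝ) < (N : ℝ) + 1 := by positivity
  have hD0 : (0 : ℝ) < (D : ℝ) := by exact_mod_cast hDpos
  have hm : (d : ℝ) ≤ max a (d : ℝ) := le_max_right _ _
  have hdiff : |max a (d : ℝ) - y| ≤ e := by
    rcases le_total a (d : ℝ) with hle | hle
    · rw [max_eq_right hle, abs_sub_comm, abs_of_nonneg (by linarith)]
      have : y - a ≤ |y - a| := le_abs_self _
      linarith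
    · rw [max_eq_left hle, abs_sub_comm]
      exact h1
  have hypos : 0 < y := lt_of_lt_of_le hdR hy
  have hmpos : 0 < max a (d : ℝ) := lt_of_lt_of_le hdR hm
  have e3 : y⁻¹ - (max a (d : ℝ))⁻¹ = (max a (d : ℝ) - y) / (y * max a (d : ℝ)) := by
    field_simp
  rw [e3, abs_div, abs_mul, abs_of_pos hypos, abs_of_pos hmpos]
  have hprod : (d : ℝ) ^ 2 ≤ y * max a (d : ℝ) := by nlinarith
  have hd2 : (0 : ℝ) < (d : ℝ) ^ 2 := by positivity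
  have h6 : |max a (d : ℝ) - y| / (y * max a (d : ℝ)) ≤ e / (d : ℝ) ^ 2 :=
    div_le_div₀ (by linarith [abs_nonneg (max a (d : ℝ) - y)]) hdiff hd2 hprod
  refine h6.trans ?_
  have h7 : e / (d : ℝ) ^ 2 ≤ (1 / (((N : ℝ) + 1) * (D : ℝ))) / (d : ℝ) ^ 2 :=
    div_le_div_of_nonneg_right he1 hd2.le
  refine h7.trans ?_
  rw [div_div, div_le_div_iff₀ (by positivity) hN]
  have hD' : 1 ≤ (D : ℝ) * (d : ℝ) ^ 2 := by
    rw [div_le_iff₀ hd2] at hD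
    exact hD
  nlinarith

theorem Apx.id_mul {f : ℝ → ℝ} (hf : Apx f) (R : ℕ) (h : ∀ x, (R : ℝ) < |x| → f x = 0) :
    Apx (fun x => x * f x) := by
  obtain ⟨Af, hAf, hf⟩ := hf
  have hidx := primrec_idx (primrec_succ_mul_const (R + 1))
  refine ⟨fun p => if NQ.lt (NQ.ofNat R) (NQ.abs p.1) = true then ((0, 0, 0) : ℕ × ℕ × ℕ)
      else NQ.mul p.1 (Af (p.1, (p.2 + 1) * (R + 1))), ?_, fun r N => ?_⟩
  · exact Primrec.ite
      (Primrec.eq.comp (NQ.primrec_lt' (Primrec.const (NQ.ofNat R)) (NQ.primrec_abs' Primrec.fst))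
        (Primrec.const true))
      (Primrec.const _) (NQ.primrec_mul' Primrec.fst (hAf.comp hidx))
  · have hN : (0 : ℝ) < (N : ℝ) + 1 := by positivity
    by_cases hlt : NQ.lt (NQ.ofNat R) (NQ.abs r) = true
    · have hbig : (R : ℝ) < |((nqVal r : ℚ) : ℝ)| := by
        have h0 := (NQ.lt_iff _ _).1 hlt
        rw [NQ.nqVal_ofNat, NQ.nqVal_abs] at h0
        have h0' : ((R : ℚ) : ℝ) < ((|nqVal r| : ℚ) : ℝ) := by exact_mod_cast h0
        push_cast at h0'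
        exact h0'
      show |((nqVal r : ℚ) : ℝ) * f ((nqVal r : ℚ) : ℝ)
        - ((nqVal (if NQ.lt (NQ.ofNat R) (NQ.abs r) = true then ((0, 0, 0) : ℕ × ℕ × ℕ)
            else NQ.mul r (Af (r, (N + 1) * (R + 1)))) : ℚ) : ℝ)| ≤ 1 / ((N : ℝ) + 1)
      rw [if_pos hlt, h _ hbig]
      have hz : nqVal ((0, 0, 0) : ℕ × ℕ × ℕ) = 0 := by simp [nqVal]
      rw [hz]
      simp only [mul_zero, Rat.cast_zero, sub_zero, abs_zero]
      positivity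
    · have hsmall : |((nqVal r : ℚ) : ℝ)| ≤ (R : ℝ) := by
        have h1 : ¬ (nqVal (NQ.ofNat R) < nqVal (NQ.abs r)) := fun hh => hlt ((NQ.lt_iff _ _).2 hh)
        rw [NQ.nqVal_ofNat, NQ.nqVal_abs, not_lt] at h1
        have h1' : ((|nqVal r| : ℚ) : ℝ) ≤ ((R : ℚ) : ℝ) := by exact_mod_cast h1
        push_cast at h1'
        exact h1'
      have h1 := hf r ((N + 1) * (R + 1))
      have he1 := one_div_succ_mul_le N (R + 1) (Nat.succ_pos R)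
      show |((nqVal r : ℚ) : ℝ) * f ((nqVal r : ℚ) : ℝ)
        - ((nqVal (if NQ.lt (NQ.ofNat R) (NQ.abs r) = true then ((0, 0, 0) : ℕ × ℕ × ℕ)
            else NQ.mul r (Af (r, (N + 1) * (R + 1)))) : ℚ) : ℝ)| ≤ 1 / ((N : ℝ) + 1)
      rw [if_neg hlt, NQ.nqVal_mul]
      push_cast
      rw [← mul_sub, abs_mul]
      have hR0 : (0 : ℝ) ≤ (R : ℝ) := Nat.cast_nonneg R
      have h3 : |((nqVal r : ℚ) : ℝ)|
          * |f ((nqVal r : ℚ) : ℝ) - ((nqVal (Af (r, (N + 1) * (R + 1))) : ℚ) : ℝ)|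
          ≤ (R : ℝ) * (1 / (((N : ℝ) + 1) * (((R + 1 : ℕ) : ℝ)))) :=
        mul_le_mul hsmall (h1.trans he1) (abs_nonneg _) hR0
      refine h3.trans ?_
      push_cast
      rw [mul_one_div, div_le_div_iff₀ (by positivity) hN]
      nlinarith

end Crest.Agent.S0170
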