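import Crest.Agent.S0170.NQ

/-!
Module B2b: primitive-recursive approximation of `expNegInvGlue` (`exp (-1/x)` for `x > 0`, else `0`)
at coded rationals. Auxiliary declarations go into `namespace Crest.Agent.S0170.ApxExp`.

Approximator (no loops needed): for `r = (p, m, d)` with `m < p` put `k = p - m`, `L = (d+1)(N+1)`,
`J = (d+1) L`; then `exp (-1/x) = exp (-(d+1)/k) = (exp (-1/(k L))) ^ J` and
`|exp (-t) - (1 - t)| ≤ t²` for `t = 1/(k L) ∈ [0,1]`, so
`|exp (-1/x) - (1 - 1/(k L)) ^ J| ≤ J t² = (d+1)/(k² L) ≤ 1/(N+1)`.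
The value `((k L - 1)/(k L)) ^ J` is the coded rational `((k L - 1) ^ J, 0, (k L) ^ J - 1)`.
-/

set_option autoImplicit false

namespace Crest.Agent.S0170

namespace ApxExp

/-- The approximator: `(1 - 1/(k L)) ^ J` with `k = p - m`, `L = (d+1)(N+1)`, `J = (d+1) L`
when `m < p`, and `0` otherwise. -/
def approx (x : NQ × ℕ) : NQ :=
  if x.1.2.1 < x.1.1 then
    (((x.1.1 - x.1.2.1) * ((x.1.2.2 + 1) * (x.2 + 1)) - 1) ^
        ((x.1.2.2 + 1) * ((x.1.2.2 + 1) * (x.2 + 1))), 0,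
      ((x.1.1 - x.1.2.1) * ((x.1.2.2 + 1) * (x.2 + 1))) ^
        ((x.1.2.2 + 1) * ((x.1.2.2 + 1) * (x.2 + 1))) - 1)
  else (0, 0, 0)

theorem primrec_nat_pow : Primrec₂ ((· ^ ·) : ℕ → ℕ → ℕ) :=
  Primrec₂.unpaired'.1 Nat.Primrec.pow

theorem primrec_approx : Primrec approx := by
  have p : Primrec fun x : NQ × ℕ => x.1.1 := Primrec.fst.comp Primrec.fst
  have m : Primrec fun x : NQ × ℕ => x.1.2.1 := Primrec.fst.comp (Primrec.snd.comp Primrec.fst)
  have d1 : Primrec fun x : NQ × ℕ => x.1.2.2 + 1 :=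
    Primrec.succ.comp (Primrec.snd.comp (Primrec.snd.comp Primrec.fst))
  have n1 : Primrec fun x : NQ × ℕ => x.2 + 1 := Primrec.succ.comp Primrec.snd
  have L : Primrec fun x : NQ × ℕ => (x.1.2.2 + 1) * (x.2 + 1) := Primrec.nat_mul.comp d1 n1
  have J : Primrec fun x : NQ × ℕ => (x.1.2.2 + 1) * ((x.1.2.2 + 1) * (x.2 + 1)) :=
    Primrec.nat_mul.comp d1 L
  have kL : Primrec fun x : NQ × ℕ => (x.1.1 - x.1.2.1) * ((x.1.2.2 + 1) * (x.2 + 1)) :=
    Primrec.nat_mul.comp (Primrec.nat_sub.comp p m) L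
  unfold approx
  exact Primrec.ite (Primrec.nat_lt.comp m p)
    (Primrec.pair (primrec_nat_pow.comp (Primrec.nat_sub.comp kL (Primrec.const 1)) J)
      (Primrec.pair (Primrec.const 0)
        (Primrec.nat_sub.comp (primrec_nat_pow.comp kL J) (Primrec.const 1))))
    (Primrec.const (0, 0, 0))

/-- The analytic estimate behind the approximator. -/
theorem exp_approx (k d N : ℕ) (hk : 1 ≤ k) :
    |Real.exp (-(((k : ℝ) / ((d : ℝ) + 1))⁻¹)) -
        (1 - 1 / ((k : ℝ) * (((d : ℝ) + 1) * ((N : ℝ) + 1)))) ^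
          ((d + 1) * ((d + 1) * (N + 1)))| ≤ 1 / ((N : ℝ) + 1) := by
  have hk' : (1 : ℝ) ≤ k := by exact_mod_cast hk
  have hd : (0 : ℝ) < (d : ℝ) + 1 := by positivity
  have hN : (0 : ℝ) < (N : ℝ) + 1 := by positivity
  set L : ℝ := ((d : ℝ) + 1) * ((N : ℝ) + 1) with hL
  have hLpos : 0 < L := by positivity
  have hL1 : 1 ≤ L := by
    have h1 : (1 : ℝ) ≤ (d : ℝ) + 1 := by linarith [Nat.cast_nonneg (α := ℝ) d]
    have h2 : (1 : ℝ) ≤ (N : ℝ) + 1 := by linarith [Nat.cast_nonneg (α := ℝ) N]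
    calc (1 : ℝ) = 1 * 1 := by ring
      _ ≤ ((d : ℝ) + 1) * ((N : ℝ) + 1) := by gcongr
  have hkL : 1 ≤ (k : ℝ) * L := by nlinarith
  have hkLpos : 0 < (k : ℝ) * L := by linarith
  set t : ℝ := 1 / ((k : ℝ) * L) with ht
  have ht0 : 0 < t := by positivity
  have ht1 : t ≤ 1 := by
    rw [ht, div_le_one hkLpos]; exact hkL
  set J : ℕ := (d + 1) * ((d + 1) * (N + 1)) with hJ
  have hJcast : (J : ℝ) = ((d : ℝ) + 1) * L := by
    rw [hJ, hL]; push_cast; ring
  -- rewrite the exponential as a J-th power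
  have hexp : Real.exp (-(((k : ℝ) / ((d : ℝ) + 1))⁻¹)) = Real.exp (-t) ^ J := by
    rw [← Real.exp_nat_mul]
    congr 1
    rw [hJcast, ht]
    field_simp
  rw [hexp]
  have hb1 : |Real.exp (-t)| ≤ 1 := by
    rw [abs_of_pos (Real.exp_pos _)]
    exact Real.exp_le_one_iff.2 (by linarith)
  have hb2 : |1 - t| ≤ 1 := by
    rw [abs_le]; constructor <;> linarith
  have hdiff : |Real.exp (-t) - (1 - t)| ≤ t ^ 2 := by
    have h := Real.abs_exp_sub_one_sub_id_le (x := -t) (by rw [abs_neg, abs_of_pos ht0]; exact ht1)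
    have e : Real.exp (-t) - 1 - -t = Real.exp (-t) - (1 - t) := by ring
    rw [e] at h
    simpa using h
  have hmax : max |Real.exp (-t)| |1 - t| ^ (J - 1) ≤ 1 :=
    pow_le_one₀ (le_max_of_le_left (abs_nonneg _)) (max_le hb1 hb2)
  calc |Real.exp (-t) ^ J - (1 - t) ^ J|
      ≤ |Real.exp (-t) - (1 - t)| * J * max |Real.exp (-t)| |1 - t| ^ (J - 1) :=
        abs_pow_sub_pow_le _ _ _
    _ ≤ t ^ 2 * J * 1 := by gcongr
    _ = ((d : ℝ) + 1) / ((k : ℝ) ^ 2 * L) := by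
        rw [hJcast, ht]; field_simp
    _ ≤ ((d : ℝ) + 1) / L := by
        apply div_le_div_of_nonneg_left hd.le hLpos
        have : (1 : ℝ) ≤ (k : ℝ) ^ 2 := by nlinarith
        nlinarith
    _ = 1 / ((N : ℝ) + 1) := by
        rw [hL]; field_simp

/-- The value of the approximator in the positive case (rational form). -/
theorem nqVal_approx_pos_rat (p m d N : ℕ) (h : m < p) :
    nqVal (approx ((p, m, d), N)) =
      (1 - 1 / (((p - m : ℕ) : ℚ) * (((d + 1) * (N + 1) : ℕ) : ℚ))) ^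
        ((d + 1) * ((d + 1) * (N + 1))) := by
  have hk : 1 ≤ p - m := by omega
  have hLpos : 1 ≤ (d + 1) * (N + 1) :=
    Nat.succ_le_of_lt (Nat.mul_pos (Nat.succ_pos d) (Nat.succ_pos N))
  have hkL : 1 ≤ (p - m) * ((d + 1) * (N + 1)) := Nat.succ_le_of_lt (Nat.mul_pos hk hLpos)
  have hpow : 1 ≤ ((p - m) * ((d + 1) * (N + 1))) ^ ((d + 1) * ((d + 1) * (N + 1))) :=
    Nat.one_le_pow _ _ hkL
  have happ : approx ((p, m, d), N) =
      (((p - m) * ((d + 1) * (N + 1)) - 1) ^ ((d + 1) * ((d + 1) * (N + 1))), 0,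
        ((p - m) * ((d + 1) * (N + 1))) ^ ((d + 1) * ((d + 1) * (N + 1))) - 1) := by
    simp only [approx, if_pos h]
  rw [happ]
  simp only [nqVal]
  have h1 : ((((p - m) * ((d + 1) * (N + 1))) ^ ((d + 1) * ((d + 1) * (N + 1))) - 1 : ℕ) : ℚ) + 1
      = (((p - m : ℕ) : ℚ) * (((d + 1) * (N + 1) : ℕ) : ℚ)) ^ ((d + 1) * ((d + 1) * (N + 1))) := by
    rw [Nat.cast_sub hpow, Nat.cast_pow, Nat.cast_mul]; simp
  have h2 : (((p - m) * ((d + 1) * (N + 1)) - 1 : ℕ) : ℚ)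
      = ((p - m : ℕ) : ℚ) * (((d + 1) * (N + 1) : ℕ) : ℚ) - 1 := by
    rw [Nat.cast_sub hkL, Nat.cast_mul]; simp
  have hne : ((p - m : ℕ) : ℚ) * (((d + 1) * (N + 1) : ℕ) : ℚ) ≠ 0 := by
    have : (0 : ℚ) < (((p - m) * ((d + 1) * (N + 1)) : ℕ) : ℚ) := by exact_mod_cast hkL
    rw [Nat.cast_mul] at this
    exact this.ne'
  rw [h1, Nat.cast_pow, h2, Nat.cast_zero, sub_zero, ← div_pow]
  congr 1
  field_simp

/-- The value of the approximator in the positive case. -/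
theorem nqVal_approx_pos (p m d N : ℕ) (h : m < p) :
    ((nqVal (approx ((p, m, d), N)) : ℚ) : ℝ) =
      (1 - 1 / (((p - m : ℕ) : ℝ) * (((d : ℝ) + 1) * ((N : ℝ) + 1)))) ^
        ((d + 1) * ((d + 1) * (N + 1))) := by
  rw [nqVal_approx_pos_rat p m d N h]
  push_cast
  rfl

end ApxExp

open ApxExp in
theorem apx_expNegInvGlue : Apx expNegInvGlue := by
  refine ⟨approx, primrec_approx, ?_⟩
  rintro ⟨p, m, d⟩ N
  have hN : (0 : ℝ) ≤ 1 / ((N : ℝ) + 1) := by positivity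
  have hd : (0 : ℝ) < (d : ℝ) + 1 := by positivity
  have hval : ((nqVal (p, m, d) : ℚ) : ℝ) = ((p : ℝ) - (m : ℝ)) / ((d : ℝ) + 1) := by
    simp only [nqVal]; push_cast; ring
  rw [hval]
  by_cases h : m < p
  · have hk : 1 ≤ p - m := by omega
    have hcast : ((p - m : ℕ) : ℝ) = (p : ℝ) - (m : ℝ) := by
      rw [Nat.cast_sub h.le]
    have hpos : 0 < ((p : ℝ) - (m : ℝ)) / ((d : ℝ) + 1) := by
      apply div_pos _ hd
      have : (m : ℝ) < p := by exact_mod_cast h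
      linarith
    rw [nqVal_approx_pos p m d N h]
    have hglue : expNegInvGlue (((p : ℝ) - (m : ℝ)) / ((d : ℝ) + 1)) =
        Real.exp (-((((p : ℝ) - (m : ℝ)) / ((d : ℝ) + 1))⁻¹)) := by
      rw [expNegInvGlue, if_neg (not_le.2 hpos)]
    rw [hglue, ← hcast]
    exact exp_approx (p - m) d N hk
  · have happ : approx ((p, m, d), N) = (0, 0, 0) := by
      simp only [approx, if_neg h]
    have hle : ((p : ℝ) - (m : ℝ)) / ((d : ℝ) + 1) ≤ 0 := by
      apply div_nonpos_of_nonpos_of_nonneg _ hd.le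
      have : (p : ℝ) ≤ m := by exact_mod_cast (not_lt.1 h)
      linarith
    rw [happ, expNegInvGlue.zero_of_nonpos hle]
    simp only [nqVal]
    simpa using hN

end Crest.Agent.S0170
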