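import Crest.Agent.S0170.Gev
import Crest.Agent.S0170.ApxArith
import Crest.Agent.S0170.ApxExp
import Crest.Agent.S0170.ApxAll

/-!
Module D1: closure properties of `EffUni` and effectiveness of the basic univariate functions
`plat`, `ramp`, `tstep`, `sqT`, together with their elementary value lemmas.
Auxiliary declarations go into `namespace Crest.Agent.S0170.EffUniAux`.
-/

set_option autoImplicit false
open scoped ContDiff

namespace Crest.Agent.S0170

namespace EffUniAux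

theorem expNegInvGlue_le_one (x : ℝ) : expNegInvGlue x ≤ 1 := by
  unfold expNegInvGlue
  split_ifs with h
  · exact zero_le_one
  · rw [Real.exp_le_one_iff]
    have h1 : 0 < x := not_le.mp h
    have h2 := inv_pos.mpr h1
    linarith

theorem one_eighth_le_half : (1 / 8 : ℝ) ≤ expNegInvGlue (1 / 2) := by
  have h0 : ¬ ((1 / 2 : ℝ) ≤ 0) := by norm_num
  have h1 : expNegInvGlue (1 / 2) = Real.exp (-2) := by
    unfold expNegInvGlue
    rw [if_neg h0]
    norm_num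
  rw [h1, Real.exp_neg]
  have h2 : Real.exp 2 ≤ 8 := by
    have h3 : Real.exp 2 = Real.exp 1 * Real.exp 1 := by rw [← Real.exp_add]; norm_num
    have h4 := Real.exp_one_lt_d9
    have h5 := Real.exp_pos 1
    rw [h3]
    nlinarith
  have h6 := Real.exp_pos 2
  rw [one_div]
  exact inv_anti₀ h6 h2

theorem denom_ge (x : ℝ) : (1 / 8 : ℝ) ≤ expNegInvGlue x + expNegInvGlue (1 - x) := by
  have h8 := one_eighth_le_half
  rcases le_total (1 / 2) x with h | h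
  · have h1 := expNegInvGlue.monotone h
    have h2 := expNegInvGlue.nonneg (1 - x)
    linarith
  · have h0 : (1 / 2 : ℝ) ≤ 1 - x := by linarith
    have h1 := expNegInvGlue.monotone h0
    have h2 := expNegInvGlue.nonneg x
    linarith

theorem effUni_expNegInvGlue : EffUni expNegInvGlue := ⟨gev_expNegInvGlue, apx_expNegInvGlue⟩

theorem bounded_of_gev {f : ℝ → ℝ} (hf : Gev f) : ∃ C : ℕ, ∀ x, |f x| ≤ (C : ℝ) := by
  obtain ⟨C, K, hC⟩ := hf.2
  refine ⟨C, fun x => ?_⟩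
  have := hC 0 x
  simpa using this

theorem differentiable_smoothTransition : Differentiable ℝ Real.smoothTransition :=
  (Real.smoothTransition.contDiff (n := 1)).differentiable (by norm_num)

end EffUniAux

theorem EffUni.contDiff {g : ℝ → ℝ} (hg : EffUni g) : ContDiff ℝ ∞ g := hg.gev.1

theorem EffUni.const (c : ℚ) : EffUni (fun _ => (c : ℝ)) :=
  ⟨Gev.const (c : ℝ), Apx.const c⟩

theorem EffUni.add {f g : ℝ → ℝ} (hf : EffUni f) (hg : EffUni g) : EffUni (fun x => f x + g x) :=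
  ⟨hf.gev.add hg.gev, hf.apx.add hg.apx⟩

theorem EffUni.neg {f : ℝ → ℝ} (hf : EffUni f) : EffUni (fun x => - f x) :=
  ⟨hf.gev.neg, hf.apx.neg⟩

theorem EffUni.sub {f g : ℝ → ℝ} (hf : EffUni f) (hg : EffUni g) : EffUni (fun x => f x - g x) :=
  ⟨hf.gev.sub hg.gev, hf.apx.sub hg.apx⟩

theorem EffUni.const_mul (c : ℚ) {f : ℝ → ℝ} (hf : EffUni f) : EffUni (fun x => (c : ℝ) * f x) :=
  ⟨hf.gev.const_mul (c : ℝ), hf.apx.const_mul c⟩

theorem EffUni.mul {f g : ℝ → ℝ} (hf : EffUni f) (hg : EffUni g) : EffUni (fun x => f x * g x) := by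
  obtain ⟨C₁, h₁⟩ := EffUniAux.bounded_of_gev hf.gev
  obtain ⟨C₂, h₂⟩ := EffUniAux.bounded_of_gev hg.gev
  refine ⟨hf.gev.mul hg.gev, hf.apx.mul hg.apx (max C₁ C₂) (fun x => ?_) (fun x => ?_)⟩
  · exact (h₁ x).trans (by exact_mod_cast le_max_left C₁ C₂)
  · exact (h₂ x).trans (by exact_mod_cast le_max_right C₁ C₂)

theorem EffUni.comp_affine (α β : ℚ) {f : ℝ → ℝ} (hf : EffUni f) :
    EffUni (fun x => f ((α : ℝ) * x + (β : ℝ))) :=
  ⟨hf.gev.comp_affine (α : ℝ) (β : ℝ), hf.apx.comp_affine α β⟩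

theorem EffUni.inv {f : ℝ → ℝ} (hf : EffUni f) (d : ℚ) (hd : 0 < d) (h : ∀ x, (d : ℝ) ≤ f x) :
    EffUni (fun x => (f x)⁻¹) :=
  ⟨hf.gev.inv (d : ℝ) (by exact_mod_cast hd) h, hf.apx.inv d hd h⟩

theorem EffUni.id_mul {f : ℝ → ℝ} (hf : EffUni f) (R : ℕ) (h : ∀ x, (R : ℝ) < |x| → f x = 0) :
    EffUni (fun x => x * f x) :=
  ⟨hf.gev.id_mul (R : ℝ) h, hf.apx.id_mul R h⟩

theorem EffUni.deriv {f : ℝ → ℝ} (hf : EffUni f) : EffUni (deriv f) := by
  refine ⟨hf.gev.deriv, ?_⟩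
  obtain ⟨A, hA, h⟩ := Apx.all hf.gev hf.apx
  refine ⟨fun p => A (1, p), hA.comp (Primrec.pair (Primrec.const 1) Primrec.id), fun r N => ?_⟩
  have := h 1 r N
  rwa [iteratedDeriv_one] at this

theorem EffUni.apxAll {f : ℝ → ℝ} (hf : EffUni f) : ApxAll f := Apx.all hf.gev hf.apx

theorem effUni_smoothTransition : EffUni Real.smoothTransition := by
  have hf := EffUniAux.effUni_expNegInvGlue
  have h1 : EffUni (fun x => expNegInvGlue (((-1 : ℚ) : ℝ) * x + ((1 : ℚ) : ℝ))) :=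
    hf.comp_affine (-1) 1
  have h2 := hf.add h1
  have h3 := h2.inv (1 / 8) (by norm_num) (fun x => by
    have h := EffUniAux.denom_ge x
    have e : ((-1 : ℚ) : ℝ) * x + ((1 : ℚ) : ℝ) = 1 - x := by push_cast; ring
    rw [e]
    have e' : (((1 / 8 : ℚ)) : ℝ) = 1 / 8 := by push_cast; ring
    rw [e']
    exact h)
  have h4 := hf.mul h3
  have e : Real.smoothTransition = fun x => expNegInvGlue x *
      (expNegInvGlue x + expNegInvGlue (((-1 : ℚ) : ℝ) * x + ((1 : ℚ) : ℝ)))⁻¹ := by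
    funext x
    have e : ((-1 : ℚ) : ℝ) * x + ((1 : ℚ) : ℝ) = 1 - x := by push_cast; ring
    rw [e]
    unfold Real.smoothTransition
    rw [div_eq_mul_inv]
  rw [e]
  exact h4

/-! ### the basic functions -/

theorem effUni_plat (lo hi δ : ℚ) (hδ : 0 < δ) : EffUni (plat lo hi δ) := by
  have hδ' : (δ : ℝ) ≠ 0 := by exact_mod_cast hδ.ne'
  have hS := effUni_smoothTransition
  have h := (hS.comp_affine δ⁻¹ (1 - lo / δ)).sub (hS.comp_affine δ⁻¹ (-hi / δ))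
  have e : plat lo hi δ = fun x =>
      Real.smoothTransition (((δ⁻¹ : ℚ) : ℝ) * x + ((1 - lo / δ : ℚ) : ℝ)) -
        Real.smoothTransition (((δ⁻¹ : ℚ) : ℝ) * x + ((-hi / δ : ℚ) : ℝ)) := by
    funext x
    unfold plat
    congr 2
    · push_cast; field_simp; ring
    · push_cast; field_simp; ring
  rw [e]
  exact h

namespace EffUniAux

theorem plat_eq_zero_of_large (lo hi δ : ℚ) (hδ : 0 < δ) (R : ℝ)
    (hR : |(lo : ℝ)| + |(hi : ℝ)| + (δ : ℝ) ≤ R) (x : ℝ) (hx : R < |x|) : plat lo hi δ x = 0 := by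
  have hδ' : (0 : ℝ) < δ := by exact_mod_cast hδ
  have a1 := le_abs_self (lo : ℝ)
  have a2 := neg_abs_le (lo : ℝ)
  have a3 := le_abs_self (hi : ℝ)
  have a4 := neg_abs_le (hi : ℝ)
  have a5 := abs_nonneg (lo : ℝ)
  have a6 := abs_nonneg (hi : ℝ)
  unfold plat
  rcases lt_abs.mp hx with h | h
  · rw [Real.smoothTransition.one_of_one_le, Real.smoothTransition.one_of_one_le, sub_self]
    · rw [le_div_iff₀ hδ']; linarith
    · have : 0 ≤ (x - (lo : ℝ)) / δ := div_nonneg (by linarith) hδ'.le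
      linarith
  · rw [Real.smoothTransition.zero_of_nonpos, Real.smoothTransition.zero_of_nonpos, sub_zero]
    · exact div_nonpos_of_nonpos_of_nonneg (by linarith) hδ'.le
    · have : (x - (lo : ℝ)) / δ ≤ -1 := by rw [div_le_iff₀ hδ']; linarith
      linarith

end EffUniAux

theorem effUni_ramp (lo hi δ c : ℚ) (hδ : 0 < δ) : EffUni (ramp lo hi δ c) := by
  have hp := effUni_plat lo hi δ hδ
  have hR : |(lo : ℝ)| + |(hi : ℝ)| + (δ : ℝ) ≤ ((⌈|lo| + |hi| + δ⌉₊ : ℕ) : ℝ) := by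
    have h := Nat.le_ceil (|lo| + |hi| + δ)
    have h' : ((|lo| + |hi| + δ : ℚ) : ℝ) ≤ (((⌈|lo| + |hi| + δ⌉₊ : ℕ) : ℚ) : ℝ) := by
      exact_mod_cast h
    push_cast at h'
    exact h'
  have h := (hp.id_mul ⌈|lo| + |hi| + δ⌉₊
    (EffUniAux.plat_eq_zero_of_large lo hi δ hδ _ hR)).sub (hp.const_mul c)
  have e : ramp lo hi δ c = fun x => x * plat lo hi δ x - (c : ℝ) * plat lo hi δ x := by
    funext x
    unfold ramp
    ring
  rw [e]
  exact h

theorem effUni_tstep (τ w : ℚ) (hw : 0 < w) : EffUni (tstep τ w) := by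
  have hw' : (w : ℝ) ≠ 0 := by exact_mod_cast hw.ne'
  have h := effUni_smoothTransition.comp_affine w⁻¹ (-τ / w)
  have e : tstep τ w = fun t =>
      Real.smoothTransition (((w⁻¹ : ℚ) : ℝ) * t + ((-τ / w : ℚ) : ℝ)) := by
    funext t
    unfold tstep
    congr 1
    push_cast; field_simp; ring
  rw [e]
  exact h

/-! ### values of `tstep` -/

theorem tstep_eq_zero {τ w : ℚ} (hw : 0 < w) {t : ℝ} (h : t ≤ (τ : ℝ)) : tstep τ w t = 0 := by
  have hw' : (0 : ℝ) < w := by exact_mod_cast hw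
  unfold tstep
  exact Real.smoothTransition.zero_of_nonpos (div_nonpos_of_nonpos_of_nonneg (by linarith) hw'.le)

theorem tstep_eq_one {τ w : ℚ} (hw : 0 < w) {t : ℝ} (h : (τ : ℝ) + w ≤ t) : tstep τ w t = 1 := by
  have hw' : (0 : ℝ) < w := by exact_mod_cast hw
  unfold tstep
  apply Real.smoothTransition.one_of_one_le
  rw [le_div_iff₀ hw']
  linarith

theorem tstep_nonneg (τ w : ℚ) (t : ℝ) : 0 ≤ tstep τ w t :=
  Real.smoothTransition.nonneg _

theorem tstep_le_one (τ w : ℚ) (t : ℝ) : tstep τ w t ≤ 1 :=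
  Real.smoothTransition.le_one _

theorem effUni_sqT (ρ τ w : ℚ) (hρ : 0 < ρ) (hw : 0 < w) : EffUni (sqT ρ τ w) := by
  have ht := effUni_tstep τ w hw
  have h1 := ht.deriv.const_mul (ρ - 1)
  have h2 := (EffUni.const 1).add (ht.const_mul (ρ - 1))
  have h3 := h2.inv (min 1 ρ) (lt_min one_pos hρ) (fun x => by
    have s0 := tstep_nonneg τ w x
    have s1 := tstep_le_one τ w x
    push_cast
    rcases le_total (1 : ℝ) (ρ : ℝ) with h | h
    · rw [min_eq_left h]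
      nlinarith
    · rw [min_eq_right h]
      nlinarith)
  have h4 := h1.mul h3
  have e : sqT ρ τ w = fun x => ((ρ - 1 : ℚ) : ℝ) * deriv (tstep τ w) x *
      (((1 : ℚ) : ℝ) + ((ρ - 1 : ℚ) : ℝ) * tstep τ w x)⁻¹ := by
    funext x
    unfold sqT
    push_cast
    ring
  rw [e]
  exact h4

/-! ### values of `plat` -/

theorem plat_eq_one {lo hi δ : ℚ} (hδ : 0 < δ) {x : ℝ} (h1 : (lo : ℝ) ≤ x) (h2 : x ≤ (hi : ℝ)) :
    plat lo hi δ x = 1 := by
  have hδ' : (0 : ℝ) < δ := by exact_mod_cast hδ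
  unfold plat
  rw [Real.smoothTransition.one_of_one_le, Real.smoothTransition.zero_of_nonpos, sub_zero]
  · exact div_nonpos_of_nonpos_of_nonneg (by linarith) hδ'.le
  · have : 0 ≤ (x - (lo : ℝ)) / δ := div_nonneg (by linarith) hδ'.le
    linarith

theorem plat_eq_zero_of_le {lo hi δ : ℚ} (hδ : 0 < δ) (hlh : lo ≤ hi) {x : ℝ}
    (h : x ≤ (lo : ℝ) - δ) : plat lo hi δ x = 0 := by
  have hδ' : (0 : ℝ) < δ := by exact_mod_cast hδ
  have hlh' : (lo : ℝ) ≤ hi := by exact_mod_cast hlh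
  unfold plat
  rw [Real.smoothTransition.zero_of_nonpos, Real.smoothTransition.zero_of_nonpos, sub_zero]
  · exact div_nonpos_of_nonpos_of_nonneg (by linarith) hδ'.le
  · have : (x - (lo : ℝ)) / δ ≤ -1 := by rw [div_le_iff₀ hδ']; linarith
    linarith

theorem plat_eq_zero_of_ge {lo hi δ : ℚ} (hδ : 0 < δ) (hlh : lo ≤ hi) {x : ℝ}
    (h : (hi : ℝ) + δ ≤ x) : plat lo hi δ x = 0 := by
  have hδ' : (0 : ℝ) < δ := by exact_mod_cast hδ
  have hlh' : (lo : ℝ) ≤ hi := by exact_mod_cast hlh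
  unfold plat
  rw [Real.smoothTransition.one_of_one_le, Real.smoothTransition.one_of_one_le, sub_self]
  · rw [le_div_iff₀ hδ']; linarith
  · have : 0 ≤ (x - (lo : ℝ)) / δ := div_nonneg (by linarith) hδ'.le
    linarith

theorem deriv_plat_eq_zero_of_mem {lo hi δ : ℚ} (hδ : 0 < δ) {x : ℝ} (h1 : (lo : ℝ) < x)
    (h2 : x < (hi : ℝ)) : deriv (plat lo hi δ) x = 0 := by
  have he : plat lo hi δ =ᶠ[nhds x] fun _ => (1 : ℝ) :=
    Filter.eventually_of_mem (Ioo_mem_nhds h1 h2) (fun y hy => plat_eq_one hδ hy.1.le hy.2.le)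
  rw [he.deriv_eq]
  exact deriv_const x 1

theorem deriv_plat_eq_zero_of_lt {lo hi δ : ℚ} (hδ : 0 < δ) (hlh : lo ≤ hi) {x : ℝ}
    (h : x < (lo : ℝ) - δ) : deriv (plat lo hi δ) x = 0 := by
  have he : plat lo hi δ =ᶠ[nhds x] fun _ => (0 : ℝ) :=
    Filter.eventually_of_mem (Iio_mem_nhds h) (fun y hy => plat_eq_zero_of_le hδ hlh (le_of_lt hy))
  rw [he.deriv_eq]
  exact deriv_const x 0

theorem deriv_plat_eq_zero_of_gt {lo hi δ : ℚ} (hδ : 0 < δ) (hlh : lo ≤ hi) {x : ℝ}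
    (h : (hi : ℝ) + δ < x) : deriv (plat lo hi δ) x = 0 := by
  have he : plat lo hi δ =ᶠ[nhds x] fun _ => (0 : ℝ) :=
    Filter.eventually_of_mem (Ioi_mem_nhds h) (fun y hy => plat_eq_zero_of_ge hδ hlh (le_of_lt hy))
  rw [he.deriv_eq]
  exact deriv_const x 0

/-! ### values of `ramp` -/

theorem ramp_eq {lo hi δ c : ℚ} (hδ : 0 < δ) {x : ℝ} (h1 : (lo : ℝ) ≤ x) (h2 : x ≤ (hi : ℝ)) :
    ramp lo hi δ c x = x - c := by
  unfold ramp
  rw [plat_eq_one hδ h1 h2, mul_one]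

theorem ramp_eq_zero_of_le {lo hi δ c : ℚ} (hδ : 0 < δ) (hlh : lo ≤ hi) {x : ℝ}
    (h : x ≤ (lo : ℝ) - δ) : ramp lo hi δ c x = 0 := by
  unfold ramp
  rw [plat_eq_zero_of_le hδ hlh h, mul_zero]

theorem ramp_eq_zero_of_ge {lo hi δ c : ℚ} (hδ : 0 < δ) (hlh : lo ≤ hi) {x : ℝ}
    (h : (hi : ℝ) + δ ≤ x) : ramp lo hi δ c x = 0 := by
  unfold ramp
  rw [plat_eq_zero_of_ge hδ hlh h, mul_zero]

theorem deriv_ramp_eq_one_of_mem {lo hi δ c : ℚ} (hδ : 0 < δ) {x : ℝ} (h1 : (lo : ℝ) < x)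
    (h2 : x < (hi : ℝ)) : deriv (ramp lo hi δ c) x = 1 := by
  have he : ramp lo hi δ c =ᶠ[nhds x] fun y => y - (c : ℝ) :=
    Filter.eventually_of_mem (Ioo_mem_nhds h1 h2) (fun y hy => ramp_eq hδ hy.1.le hy.2.le)
  rw [he.deriv_eq]
  simp

theorem deriv_ramp_eq_zero_of_lt {lo hi δ c : ℚ} (hδ : 0 < δ) (hlh : lo ≤ hi) {x : ℝ}
    (h : x < (lo : ℝ) - δ) : deriv (ramp lo hi δ c) x = 0 := by
  have he : ramp lo hi δ c =ᶠ[nhds x] fun _ => (0 : ℝ) :=
    Filter.eventually_of_mem (Iio_mem_nhds h) (fun y hy => ramp_eq_zero_of_le hδ hlh (le_of_lt hy))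
  rw [he.deriv_eq]
  exact deriv_const x 0

theorem deriv_ramp_eq_zero_of_gt {lo hi δ c : ℚ} (hδ : 0 < δ) (hlh : lo ≤ hi) {x : ℝ}
    (h : (hi : ℝ) + δ < x) : deriv (ramp lo hi δ c) x = 0 := by
  have he : ramp lo hi δ c =ᶠ[nhds x] fun _ => (0 : ℝ) :=
    Filter.eventually_of_mem (Ioi_mem_nhds h) (fun y hy => ramp_eq_zero_of_ge hδ hlh (le_of_lt hy))
  rw [he.deriv_eq]
  exact deriv_const x 0

/-! ### derivative of `tstep` at the closed ends -/

namespace EffUniAux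

theorem differentiable_tstep (τ w : ℚ) : Differentiable ℝ (tstep τ w) := by
  unfold tstep
  exact differentiable_smoothTransition.comp (by fun_prop)

end EffUniAux

theorem deriv_tstep_eq_zero_of_le {τ w : ℚ} (hw : 0 < w) {t : ℝ} (h : t ≤ (τ : ℝ)) :
    deriv (tstep τ w) t = 0 := by
  have hd := (EffUniAux.differentiable_tstep τ w) t
  have hu : UniqueDiffWithinAt ℝ (Set.Iic (τ : ℝ)) t := uniqueDiffOn_Iic (τ : ℝ) t h
  rw [← hd.derivWithin hu]
  have he : Set.EqOn (tstep τ w) (fun _ => (0 : ℝ)) (Set.Iic (τ : ℝ)) :=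
    fun y hy => tstep_eq_zero hw hy
  rw [derivWithin_congr he (he h), derivWithin_fun_const]
  rfl

theorem deriv_tstep_eq_zero_of_ge {τ w : ℚ} (hw : 0 < w) {t : ℝ} (h : (τ : ℝ) + w ≤ t) :
    deriv (tstep τ w) t = 0 := by
  have hd := (EffUniAux.differentiable_tstep τ w) t
  have hu : UniqueDiffWithinAt ℝ (Set.Ici ((τ : ℝ) + w)) t := uniqueDiffOn_Ici _ t h
  rw [← hd.derivWithin hu]
  have he : Set.EqOn (tstep τ w) (fun _ => (1 : ℝ)) (Set.Ici ((τ : ℝ) + w)) :=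
    fun y hy => tstep_eq_one hw hy
  rw [derivWithin_congr he (he h), derivWithin_fun_const]
  rfl

end Crest.Agent.S0170
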