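import Crest.Agent.S0170.TensDeriv
import Crest.Agent.S0170.EffUniLemmas

/-!
Module D2: the stage fields are `EffField`s and divergence free.
Auxiliary declarations go into `namespace Crest.Agent.S0170.StageAux`.
-/

set_option autoImplicit false
open scoped ContDiff
open Crest.AnalysisR.BoxFlow

namespace Crest.Agent.S0170

namespace StageAux

/-- the three space factors of a stage tensor, indexed through `σ` -/
noncomputable def fac (A B C : ℝ → ℝ) (σ : Equiv.Perm (Fin 3)) : Fin 3 → ℝ → ℝ :=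
  fun k => (![A, B, C] : Fin 3 → ℝ → ℝ) (σ.symm k)

theorem fac_zero (A B C : ℝ → ℝ) (σ : Equiv.Perm (Fin 3)) : fac A B C σ (σ 0) = A := by
  simp [fac]

theorem fac_one (A B C : ℝ → ℝ) (σ : Equiv.Perm (Fin 3)) : fac A B C σ (σ 1) = B := by
  simp [fac]

theorem fac_two (A B C : ℝ → ℝ) (σ : Equiv.Perm (Fin 3)) : fac A B C σ (σ 2) = C := by
  simp [fac]

theorem prod_fac (A B C : ℝ → ℝ) (σ : Equiv.Perm (Fin 3)) (x : Fin 3 → ℝ) :
    ∏ k, fac A B C σ k (x k) = A (x (σ 0)) * B (x (σ 1)) * C (x (σ 2)) := by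
  rw [← Equiv.prod_comp σ (fun k => fac A B C σ k (x k)), Fin.prod_univ_three,
    fac_zero, fac_one, fac_two]

theorem fac_update_zero (A B C D : ℝ → ℝ) (σ : Equiv.Perm (Fin 3)) :
    Function.update (fac A B C σ) (σ 0) D = fac D B C σ := by
  funext k
  obtain ⟨j, rfl⟩ := σ.surjective k
  fin_cases j <;> simp [fac]

theorem fac_update_one (A B C D : ℝ → ℝ) (σ : Equiv.Perm (Fin 3)) :
    Function.update (fac A B C σ) (σ 1) D = fac A D C σ := by
  funext k
  obtain ⟨j, rfl⟩ := σ.surjective k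
  fin_cases j <;> simp [fac]

theorem fac_forall {P : (ℝ → ℝ) → Prop} {A B C : ℝ → ℝ} (hA : P A) (hB : P B) (hC : P C)
    (σ : Equiv.Perm (Fin 3)) (k : Fin 3) : P (fac A B C σ k) := by
  unfold fac
  generalize σ.symm k = j
  fin_cases j
  · simpa using hA
  · simpa using hB
  · simpa using hC

/-- a stage field is a sum of two pure tensors -/
theorem stageField_eq (T F G H : ℝ → ℝ) (σ : Equiv.Perm (Fin 3)) :
    stageField T F G H σ = fun p =>
      tensF T (fac F (deriv G) H σ) (σ 0) p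
        + tensF (fun t => - T t) (fac (deriv F) G H σ) (σ 1) p := by
  funext p
  simp only [stageField, tensF, prod_fac]
  rw [neg_mul, Pi.single_neg, sub_eq_add_neg]

/-- the space divergence of a pure tensor field -/
theorem spaceDiv_tensF {g₀ : ℝ → ℝ} {g : Fin 3 → ℝ → ℝ} (i : Fin 3)
    (h₀ : ContDiff ℝ ∞ g₀) (h : ∀ k, ContDiff ℝ ∞ (g k)) (p : ℝ × (Fin 3 → ℝ)) :
    spaceDiv (tensF g₀ g i) p
      = g₀ p.1 * ∏ k, (Function.update g i (deriv (g i))) k (p.2 k) := by
  unfold spaceDiv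
  simp_rw [fderiv_tensF_space i h₀ h]
  simp only [tensF, Pi.single_apply]
  rw [Finset.sum_ite_eq' Finset.univ i]
  simp

theorem contDiff_deriv {f : ℝ → ℝ} (hf : ContDiff ℝ ∞ f) : ContDiff ℝ ∞ (deriv f) :=
  (contDiff_infty_iff_deriv.1 hf).2

end StageAux

open StageAux

theorem stageField_effField {T F G H : ℝ → ℝ} (hT : EffUni T) (hF : EffUni F) (hG : EffUni G)
    (hH : EffUni H) (σ : Equiv.Perm (Fin 3)) : EffField (stageField T F G H σ) := by
  rw [stageField_eq]
  refine EffField.add _ _ (EffField.tens _ _ _ hT ?_) (EffField.tens _ _ _ hT.neg ?_)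
  · exact fac_forall (P := EffUni) hF hG.deriv hH σ
  · exact fac_forall (P := EffUni) hF.deriv hG hH σ

/-- the space divergence is additive on smooth fields -/
theorem spaceDiv_add {U V : Field} (hU : ContDiff ℝ ∞ U) (hV : ContDiff ℝ ∞ V)
    (p : ℝ × (Fin 3 → ℝ)) :
    spaceDiv (fun q => U q + V q) p = spaceDiv U p + spaceDiv V p := by
  have hdU : DifferentiableAt ℝ U p := (hU.differentiable (by simp)) p
  have hdV : DifferentiableAt ℝ V p := (hV.differentiable (by simp)) p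
  unfold spaceDiv
  rw [fderiv_fun_add hdU hdV, ← Finset.sum_add_distrib]
  rfl

theorem spaceDiv_stageField {T F G H : ℝ → ℝ} (hT : ContDiff ℝ ∞ T) (hF : ContDiff ℝ ∞ F)
    (hG : ContDiff ℝ ∞ G) (hH : ContDiff ℝ ∞ H) (σ : Equiv.Perm (Fin 3)) (p : ℝ × (Fin 3 → ℝ)) :
    spaceDiv (stageField T F G H σ) p = 0 := by
  have hF' := contDiff_deriv hF
  have hG' := contDiff_deriv hG
  have h1 : ∀ k, ContDiff ℝ ∞ (fac F (deriv G) H σ k) :=
    fac_forall (P := fun f => ContDiff ℝ ∞ f) hF hG' hH σ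
  have h2 : ∀ k, ContDiff ℝ ∞ (fac (deriv F) G H σ k) :=
    fac_forall (P := fun f => ContDiff ℝ ∞ f) hF' hG hH σ
  have hT' : ContDiff ℝ ∞ (fun t => - T t) := hT.neg
  rw [stageField_eq, spaceDiv_add (contDiff_tensF _ hT h1) (contDiff_tensF _ hT' h2),
    spaceDiv_tensF _ hT h1, spaceDiv_tensF _ hT' h2, fac_zero, fac_one,
    fac_update_zero, fac_update_one, prod_fac]
  ring

end Crest.Agent.S0170
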