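import Crest.Agent.S0170.Tensor
import Crest.Agent.S0170.Stage
import Crest.Agent.S0170.Flow

/-!
Module F1: a valid plan is realized by a smooth, compactly supported, effective, divergence-free
field and its flow.
-/

set_option autoImplicit false
open scoped ContDiff
open Crest.AnalysisR.BoxFlow

namespace Crest.Agent.S0170

namespace Plan

variable {n : ℕ} (p : Plan n)

/-- length of a time window -/
def wlen : ℚ := 1 / (2 * ((p.M : ℚ) + 1))

/-- start of the `m`-th time window -/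
def τ (m : ℕ) : ℚ := 1 / 4 + (m : ℚ) * p.wlen

/-- position of the mover before stage `m` -/
def pre (m : ℕ) : Pos := p.pos m (p.mover m)

/-- position of the mover after stage `m` -/
def post (m : ℕ) : Pos := p.pos (m + 1) (p.mover m)

def lo (m : ℕ) (k : Fin 3) : ℚ := hullLo (p.pre m) (p.post m) p.ε k

def hi (m : ℕ) (k : Fin 3) : ℚ := hullHi (p.pre m) (p.post m) p.ε k

noncomputable def pl (m : ℕ) (k : Fin 3) : ℝ → ℝ := plat (p.lo m k) (p.hi m k) p.δ

noncomputable def rp (m : ℕ) (k : Fin 3) : ℝ → ℝ :=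
  ramp (p.lo m k) (p.hi m k) p.δ ((p.pre m).c k)

def vel (m : ℕ) : ℚ := (p.post m).c (p.σ m 0) - (p.pre m).c (p.σ m 0)

def ratio (m : ℕ) : ℚ := (p.post m).w (p.σ m 0) / (p.pre m).w (p.σ m 0)

noncomputable def trT (m : ℕ) : ℝ → ℝ :=
  fun t => (p.vel m : ℝ) * deriv (tstep (p.τ m) p.wlen) t

noncomputable def stage (m : ℕ) : Field :=
  if p.sq m = true then
    stageField (sqT (p.ratio m) (p.τ m) p.wlen) (p.rp m (p.σ m 0)) (p.rp m (p.σ m 1))
      (p.pl m (p.σ m 2)) (p.σ m)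
  else
    stageField (p.trT m) (p.pl m (p.σ m 0)) (p.rp m (p.σ m 1)) (p.pl m (p.σ m 2)) (p.σ m)

noncomputable def field : Field := fun q => ∑ m ∈ Finset.range p.M, p.stage m q

theorem wlen_pos : 0 < p.wlen := by
  unfold wlen
  positivity

theorem τ_succ (m : ℕ) : p.τ (m + 1) = p.τ m + p.wlen := by
  unfold τ
  push_cast
  ring

theorem τ_mono {m m' : ℕ} (h : m ≤ m') : p.τ m ≤ p.τ m' := by
  unfold τ
  have : (m : ℚ) ≤ m' := by exact_mod_cast h
  have := mul_le_mul_of_nonneg_right this p.wlen_pos.le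
  linarith

theorem τ_ge (m : ℕ) : (1 / 4 : ℚ) ≤ p.τ m := by
  unfold τ
  have : 0 ≤ (m : ℚ) * p.wlen := mul_nonneg (by positivity) p.wlen_pos.le
  linarith

theorem τ_le {m : ℕ} (h : m ≤ p.M) : p.τ m ≤ 3 / 4 := by
  have h1 := p.τ_mono h
  have h2 : p.τ p.M ≤ 3 / 4 := by
    unfold τ wlen
    have hM : (0 : ℚ) < 2 * ((p.M : ℚ) + 1) := by positivity
    have : (p.M : ℚ) * (1 / (2 * ((p.M : ℚ) + 1))) ≤ 1 / 2 := by
      rw [mul_one_div, div_le_iff₀ hM]
      linarith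
    linarith
  exact h1.trans h2

theorem lo_le_hi (hv : p.Valid) (m : ℕ) (k : Fin 3) : p.lo m k ≤ p.hi m k := by
  unfold lo hi hullLo hullHi
  have h1 : min ((p.pre m).c k) ((p.post m).c k) ≤ max ((p.pre m).c k) ((p.post m).c k) :=
    min_le_max
  have h2 : 0 < max ((p.pre m).w k) ((p.post m).w k) :=
    lt_max_of_lt_left (hv.wpos _ _ _)
  have h3 : 0 ≤ (1 + p.ε) * max ((p.pre m).w k) ((p.post m).w k) :=
    mul_nonneg (by linarith [hv.εpos]) h2.le
  linarith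

theorem δpos' (hv : p.Valid) : (0 : ℝ) < (p.δ : ℝ) := by exact_mod_cast hv.δpos

theorem outside_zero (hv : p.Valid) (m : ℕ) (k : Fin 3) (x : ℝ)
    (h : x < (p.lo m k : ℝ) - (p.δ : ℝ) ∨ (p.hi m k : ℝ) + (p.δ : ℝ) < x) :
    p.pl m k x = 0 ∧ deriv (p.pl m k) x = 0 ∧ p.rp m k x = 0 ∧ deriv (p.rp m k) x = 0 := by
  have hlh := p.lo_le_hi hv m k
  rcases h with h | h
  · exact ⟨plat_eq_zero_of_le hv.δpos hlh h.le, deriv_plat_eq_zero_of_lt hv.δpos hlh h,
      ramp_eq_zero_of_le hv.δpos hlh h.le, deriv_ramp_eq_zero_of_lt hv.δpos hlh h⟩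
  · exact ⟨plat_eq_zero_of_ge hv.δpos hlh h.le, deriv_plat_eq_zero_of_gt hv.δpos hlh h,
      ramp_eq_zero_of_ge hv.δpos hlh h.le, deriv_ramp_eq_zero_of_gt hv.δpos hlh h⟩

theorem inside_vals (hv : p.Valid) (m : ℕ) (k : Fin 3) (x : ℝ)
    (h1 : (p.lo m k : ℝ) < x) (h2 : x < (p.hi m k : ℝ)) :
    p.pl m k x = 1 ∧ deriv (p.pl m k) x = 0 ∧ p.rp m k x = x - ((p.pre m).c k : ℝ) ∧
      deriv (p.rp m k) x = 1 :=
  ⟨plat_eq_one hv.δpos h1.le h2.le, deriv_plat_eq_zero_of_mem hv.δpos h1 h2,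
    ramp_eq hv.δpos h1.le h2.le, deriv_ramp_eq_one_of_mem hv.δpos h1 h2⟩

theorem stage_eq_zero_time (m : ℕ) (t : ℝ) (y : Fin 3 → ℝ)
    (h : t ≤ (p.τ m : ℝ) ∨ (p.τ m : ℝ) + (p.wlen : ℝ) ≤ t) : p.stage m (t, y) = 0 := by
  have hd : deriv (tstep (p.τ m) p.wlen) t = 0 := by
    rcases h with h | h
    · exact deriv_tstep_eq_zero_of_le p.wlen_pos h
    · exact deriv_tstep_eq_zero_of_ge p.wlen_pos h
  unfold stage
  split_ifs
  · simp [stageField, sqT, hd]
  · simp [stageField, trT, hd]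

theorem stage_eq_zero_space (hv : p.Valid) (m : ℕ) (t : ℝ) (y : Fin 3 → ℝ)
    (h : ∃ k, y k < (p.lo m k : ℝ) - (p.δ : ℝ) ∨ (p.hi m k : ℝ) + (p.δ : ℝ) < y k) :
    p.stage m (t, y) = 0 := by
  obtain ⟨k, hk⟩ := h
  obtain ⟨j, rfl⟩ := (p.σ m).surjective k
  obtain ⟨h1, h2, h3, h4⟩ := p.outside_zero hv m _ _ hk
  unfold stage
  fin_cases j
  · simp only [Fin.zero_eta] at h1 h2 h3 h4
    split_ifs <;> simp [stageField, h1, h2, h3, h4]
  · simp only [Fin.mk_one] at h1 h2 h3 h4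
    split_ifs <;> simp [stageField, h1, h2, h3, h4]
  · have e : (⟨2, by decide⟩ : Fin 3) = 2 := rfl
    simp only [e] at h1 h2 h3 h4
    split_ifs <;> simp [stageField, h1, h2, h3, h4]

theorem stage_trans_plateau (hv : p.Valid) (m : ℕ) (hsq : p.sq m = false) (t : ℝ)
    (y : Fin 3 → ℝ) (hy : ∀ k, (p.lo m k : ℝ) < y k ∧ y k < (p.hi m k : ℝ)) :
    p.stage m (t, y) = Pi.single (p.σ m 0) (p.trT m t) := by
  obtain ⟨a1, a2, -, -⟩ := p.inside_vals hv m (p.σ m 0) _ (hy _).1 (hy _).2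
  obtain ⟨-, -, b3, b4⟩ := p.inside_vals hv m (p.σ m 1) _ (hy _).1 (hy _).2
  obtain ⟨c1, -, -, -⟩ := p.inside_vals hv m (p.σ m 2) _ (hy _).1 (hy _).2
  unfold stage
  simp [hsq, stageField, a1, a2, b3, b4, c1]

theorem stage_sq_plateau (hv : p.Valid) (m : ℕ) (hsq : p.sq m = true) (t : ℝ)
    (y : Fin 3 → ℝ) (hy : ∀ k, (p.lo m k : ℝ) < y k ∧ y k < (p.hi m k : ℝ)) :
    p.stage m (t, y) =
      Pi.single (p.σ m 0) (sqT (p.ratio m) (p.τ m) p.wlen t *
        (y (p.σ m 0) - ((p.pre m).c (p.σ m 0) : ℝ)))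
      - Pi.single (p.σ m 1) (sqT (p.ratio m) (p.τ m) p.wlen t *
        (y (p.σ m 1) - ((p.pre m).c (p.σ m 1) : ℝ))) := by
  obtain ⟨-, -, a3, a4⟩ := p.inside_vals hv m (p.σ m 0) _ (hy _).1 (hy _).2
  obtain ⟨-, -, b3, b4⟩ := p.inside_vals hv m (p.σ m 1) _ (hy _).1 (hy _).2
  obtain ⟨c1, -, -, -⟩ := p.inside_vals hv m (p.σ m 2) _ (hy _).1 (hy _).2
  unfold stage
  simp [hsq, stageField, a3, a4, b3, b4, c1]

theorem ratio_pos (hv : p.Valid) (m : ℕ) : 0 < p.ratio m :=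
  div_pos (hv.wpos _ _ _) (hv.wpos _ _ _)

theorem stage_effField (hv : p.Valid) (m : ℕ) : EffField (p.stage m) := by
  unfold stage
  split_ifs
  · exact stageField_effField (effUni_sqT _ _ _ (p.ratio_pos hv m) p.wlen_pos)
      (effUni_ramp _ _ _ _ hv.δpos) (effUni_ramp _ _ _ _ hv.δpos) (effUni_plat _ _ _ hv.δpos) _
  · exact stageField_effField (EffUni.const_mul (p.vel m) (EffUni.deriv (effUni_tstep _ _ p.wlen_pos)))
      (effUni_plat _ _ _ hv.δpos) (effUni_ramp _ _ _ _ hv.δpos) (effUni_plat _ _ _ hv.δpos) _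

end Plan

theorem effField_sum (F : ℕ → Field) (hF : ∀ m, EffField (F m)) (N : ℕ) :
    EffField (fun q => ∑ m ∈ Finset.range N, F m q) := by
  induction N with
  | zero => simpa using EffField.zero
  | succ N ih =>
    have : (fun q => ∑ m ∈ Finset.range (N + 1), F m q) =
        fun q => (∑ m ∈ Finset.range N, F m q) + F N q := by
      funext q; rw [Finset.sum_range_succ]
    rw [this]
    exact EffField.add _ _ ih (hF N)

theorem spaceDiv_sum (F : ℕ → Field) (hF : ∀ m, ContDiff ℝ ∞ (F m))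
    (h0 : ∀ m q, spaceDiv (F m) q = 0) (N : ℕ) (q : ℝ × (Fin 3 → ℝ)) :
    spaceDiv (fun q => ∑ m ∈ Finset.range N, F m q) q = 0 := by
  induction N with
  | zero => simp [spaceDiv]
  | succ N ih =>
    have : (fun q => ∑ m ∈ Finset.range (N + 1), F m q) =
        fun q => (∑ m ∈ Finset.range N, F m q) + F N q := by
      funext q; rw [Finset.sum_range_succ]
    rw [this, spaceDiv_add (ContDiff.sum fun m _ => hF m) (hF N), ih, h0]
    simp

namespace Plan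

variable {n : ℕ} (p : Plan n)

theorem field_effField (hv : p.Valid) : EffField p.field :=
  effField_sum p.stage (p.stage_effField hv) p.M

theorem stage_contDiff (hv : p.Valid) (m : ℕ) : ContDiff ℝ ∞ (p.stage m) :=
  (p.stage_effField hv m).contDiff

theorem spaceDiv_stage (hv : p.Valid) (m : ℕ) (q : ℝ × (Fin 3 → ℝ)) :
    spaceDiv (p.stage m) q = 0 := by
  unfold stage
  split_ifs
  · exact spaceDiv_stageField (effUni_sqT _ _ _ (p.ratio_pos hv m) p.wlen_pos).contDiff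
      (effUni_ramp _ _ _ _ hv.δpos).contDiff (effUni_ramp _ _ _ _ hv.δpos).contDiff
      (effUni_plat _ _ _ hv.δpos).contDiff _ q
  · exact spaceDiv_stageField
      (EffUni.const_mul (p.vel m) (EffUni.deriv (effUni_tstep _ _ p.wlen_pos))).contDiff
      (effUni_plat _ _ _ hv.δpos).contDiff (effUni_ramp _ _ _ _ hv.δpos).contDiff
      (effUni_plat _ _ _ hv.δpos).contDiff _ q

theorem spaceDiv_field (hv : p.Valid) (q : ℝ × (Fin 3 → ℝ)) : spaceDiv p.field q = 0 :=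
  spaceDiv_sum p.stage (p.stage_contDiff hv) (p.spaceDiv_stage hv) p.M q

theorem τ_succ' (m : ℕ) : ((p.τ (m + 1) : ℚ) : ℝ) = (p.τ m : ℝ) + (p.wlen : ℝ) := by
  rw [p.τ_succ]; push_cast; rfl

theorem field_eq_zero_of_le (t : ℝ) (y : Fin 3 → ℝ) (h : t ≤ 1 / 4) : p.field (t, y) = 0 := by
  unfold field
  apply Finset.sum_eq_zero
  intro m _
  apply p.stage_eq_zero_time
  left
  have : ((1 / 4 : ℚ) : ℝ) ≤ (p.τ m : ℝ) := by exact_mod_cast p.τ_ge m
  push_cast at this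
  linarith

theorem field_eq_zero_of_ge (t : ℝ) (y : Fin 3 → ℝ) (h : (p.τ p.M : ℝ) ≤ t) :
    p.field (t, y) = 0 := by
  unfold field
  apply Finset.sum_eq_zero
  intro m hm
  apply p.stage_eq_zero_time
  right
  have h1 : ((p.τ (m + 1) : ℚ) : ℝ) ≤ (p.τ p.M : ℝ) := by
    exact_mod_cast p.τ_mono (Nat.succ_le_of_lt (Finset.mem_range.mp hm))
  rw [p.τ_succ'] at h1
  linarith

theorem field_eq_stage (m : ℕ) (hm : m < p.M) (t : ℝ) (y : Fin 3 → ℝ) (h1 : (p.τ m : ℝ) ≤ t)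
    (h2 : t ≤ (p.τ m : ℝ) + (p.wlen : ℝ)) : p.field (t, y) = p.stage m (t, y) := by
  unfold field
  rw [Finset.sum_eq_single m]
  · intro m' _ hne
    apply p.stage_eq_zero_time
    rcases lt_or_gt_of_ne hne with h | h
    · right
      have h3 : ((p.τ (m' + 1) : ℚ) : ℝ) ≤ (p.τ m : ℝ) := by
        exact_mod_cast p.τ_mono (Nat.succ_le_of_lt h)
      rw [p.τ_succ'] at h3
      linarith
    · left
      have h3 : ((p.τ (m + 1) : ℚ) : ℝ) ≤ (p.τ m' : ℝ) := by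
        exact_mod_cast p.τ_mono (Nat.succ_le_of_lt h)
      rw [p.τ_succ'] at h3
      linarith
  · intro h
    exact absurd (Finset.mem_range.mpr hm) h

theorem field_eq_zero_time (t : ℝ) (y : Fin 3 → ℝ) (h : t ∉ Set.Icc (1 / 4 : ℝ) (3 / 4)) :
    p.field (t, y) = 0 := by
  by_cases h1 : t ≤ 1 / 4
  · exact p.field_eq_zero_of_le t y h1
  · apply p.field_eq_zero_of_ge
    have h2 : ((p.τ p.M : ℚ) : ℝ) ≤ ((3 / 4 : ℚ) : ℝ) := by exact_mod_cast p.τ_le le_rfl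
    push_cast at h2
    by_contra h3
    exact h ⟨by linarith, by linarith⟩

/-- a bound for all the cut-off regions -/
def bnd : ℚ := ∑ m ∈ Finset.range p.M, ∑ k : Fin 3, (|p.lo m k - p.δ| + |p.hi m k + p.δ|)

theorem bnd_spec {m : ℕ} (hm : m < p.M) (k : Fin 3) :
    -p.bnd ≤ p.lo m k - p.δ ∧ p.hi m k + p.δ ≤ p.bnd := by
  have h1 : |p.lo m k - p.δ| + |p.hi m k + p.δ| ≤ p.bnd := by
    unfold bnd
    have h2 : |p.lo m k - p.δ| + |p.hi m k + p.δ| ≤
        ∑ k : Fin 3, (|p.lo m k - p.δ| + |p.hi m k + p.δ|) :=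
      Finset.single_le_sum (f := fun k => |p.lo m k - p.δ| + |p.hi m k + p.δ|)
        (fun k _ => by positivity) (Finset.mem_univ k)
    have h3 : ∑ k : Fin 3, (|p.lo m k - p.δ| + |p.hi m k + p.δ|) ≤
        ∑ m ∈ Finset.range p.M, ∑ k : Fin 3, (|p.lo m k - p.δ| + |p.hi m k + p.δ|) :=
      Finset.single_le_sum
        (f := fun m => ∑ k : Fin 3, (|p.lo m k - p.δ| + |p.hi m k + p.δ|))
        (fun m _ => Finset.sum_nonneg fun k _ => by positivity) (Finset.mem_range.mpr hm)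
    exact h2.trans h3
  have h4 := neg_abs_le (p.lo m k - p.δ)
  have h5 := le_abs_self (p.hi m k + p.δ)
  have h6 := abs_nonneg (p.lo m k - p.δ)
  have h7 := abs_nonneg (p.hi m k + p.δ)
  constructor <;> linarith

theorem field_hasCompactSupport (hv : p.Valid) : HasCompactSupport p.field := by
  apply HasCompactSupport.intro
    (K := Set.Icc (1 / 4 : ℝ) (3 / 4) ×ˢ
      Set.pi Set.univ (fun _ : Fin 3 => Set.Icc (-(p.bnd : ℝ)) (p.bnd : ℝ)))
  · exact isCompact_Icc.prod (isCompact_univ_pi fun _ => isCompact_Icc)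
  · rintro ⟨t, y⟩ hq
    by_cases ht : t ∈ Set.Icc (1 / 4 : ℝ) (3 / 4)
    · have hy : ¬ y ∈ Set.pi Set.univ (fun _ : Fin 3 => Set.Icc (-(p.bnd : ℝ)) (p.bnd : ℝ)) :=
        fun hy => hq ⟨ht, hy⟩
      simp only [Set.mem_pi, Set.mem_univ, true_implies, not_forall, Set.mem_Icc, not_and_or,
        not_le] at hy
      obtain ⟨k, hk⟩ := hy
      unfold field
      apply Finset.sum_eq_zero
      intro m hm
      apply p.stage_eq_zero_space hv
      obtain ⟨b1, b2⟩ := p.bnd_spec (Finset.mem_range.mp hm) k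
      have b1' : -(p.bnd : ℝ) ≤ (p.lo m k : ℝ) - (p.δ : ℝ) := by exact_mod_cast b1
      have b2' : (p.hi m k : ℝ) + (p.δ : ℝ) ≤ (p.bnd : ℝ) := by exact_mod_cast b2
      refine ⟨k, ?_⟩
      rcases hk with hk | hk
      · left; linarith
      · right; linarith
    · exact p.field_eq_zero_time t y ht


/-! ### tracking the boxes along the flow -/

/-- the affine image of the initial point `x` of box `i` at stage `m` -/
noncomputable def Tm (i : Fin n) (m : ℕ) (x : Fin 3 → ℝ) : Fin 3 → ℝ :=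
  fun k => ((p.pos m i).c k : ℝ) +
    ((p.pos m i).w k : ℝ) / ((p.pos 0 i).w k : ℝ) * (x k - ((p.pos 0 i).c k : ℝ))

theorem wpos' (hv : p.Valid) (m : ℕ) (i : Fin n) (k : Fin 3) : (0 : ℝ) < ((p.pos m i).w k : ℝ) := by
  exact_mod_cast hv.wpos m i k

theorem Tm_zero (hv : p.Valid) (i : Fin n) (x : Fin 3 → ℝ) : p.Tm i 0 x = x := by
  funext k
  have := (p.wpos' hv 0 i k).ne'
  simp [Tm, div_self this]

theorem Tm_mem (hv : p.Valid) (i : Fin n) (m : ℕ) (x : Fin 3 → ℝ)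
    (hx : x ∈ (p.pos 0 i).obox p.ε) (k : Fin 3) :
    |p.Tm i m x k - ((p.pos m i).c k : ℝ)| < (1 + (p.ε : ℝ)) * ((p.pos m i).w k : ℝ) := by
  have h0 := p.wpos' hv 0 i k
  have hm := p.wpos' hv m i k
  have h1 : |x k - ((p.pos 0 i).c k : ℝ)| < (1 + (p.ε : ℝ)) * ((p.pos 0 i).w k : ℝ) := hx k
  simp only [Tm, add_sub_cancel_left]
  rw [abs_mul, abs_of_pos (div_pos hm h0)]
  calc ((p.pos m i).w k : ℝ) / ((p.pos 0 i).w k : ℝ) * |x k - ((p.pos 0 i).c k : ℝ)|
      < ((p.pos m i).w k : ℝ) / ((p.pos 0 i).w k : ℝ) *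
          ((1 + (p.ε : ℝ)) * ((p.pos 0 i).w k : ℝ)) :=
        mul_lt_mul_of_pos_left h1 (div_pos hm h0)
    _ = (1 + (p.ε : ℝ)) * ((p.pos m i).w k : ℝ) := by field_simp

end Plan

theorem min_le_lerp (a b θ : ℝ) (h0 : 0 ≤ θ) (h1 : θ ≤ 1) :
    min a b ≤ a + (b - a) * θ ∧ a + (b - a) * θ ≤ max a b := by
  rcases le_total a b with h | h
  · rw [min_eq_left h, max_eq_right h]
    constructor <;> nlinarith
  · rw [min_eq_right h, max_eq_left h]
    constructor <;> nlinarith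

theorem hull_mem (P Q : Pos) (ε : ℚ) (hε : 0 < ε) (k : Fin 3) (c w y : ℝ)
    (hc1 : min (P.c k : ℝ) (Q.c k : ℝ) ≤ c) (hc2 : c ≤ max (P.c k : ℝ) (Q.c k : ℝ))
    (hw : w ≤ max (P.w k : ℝ) (Q.w k : ℝ)) (hy : |y - c| < (1 + (ε : ℝ)) * w) :
    (hullLo P Q ε k : ℝ) < y ∧ y < (hullHi P Q ε k : ℝ) := by
  have hε' : (0 : ℝ) < (ε : ℝ) := by exact_mod_cast hε
  have h1 := abs_lt.mp hy
  have h2 : (1 + (ε : ℝ)) * w ≤ (1 + (ε : ℝ)) * max (P.w k : ℝ) (Q.w k : ℝ) :=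
    mul_le_mul_of_nonneg_left hw (by linarith)
  unfold hullLo hullHi
  push_cast
  constructor <;> linarith [h1.1, h1.2]

/-- a stationary point of the field stays put -/
theorem flow_const (U : Field) (hU : ContDiff ℝ ∞ U) (hc : HasCompactSupport U)
    (Φ : ℝ → (Fin 3 → ℝ) → (Fin 3 → ℝ)) (hΦ : IsFlow U Φ) (x : Fin 3 → ℝ) (t₀ t₁ : ℝ)
    (h01 : t₀ ≤ t₁) (hz : ∀ t ∈ Set.Icc t₀ t₁, U (t, Φ t₀ x) = 0) : Φ t₁ x = Φ t₀ x :=
  isFlow_eq_of_curve U hU hc Φ hΦ x t₀ t₁ h01 (fun _ => Φ t₀ x) rfl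
    (fun t ht => by rw [hz t ht]; exact hasDerivAt_const t _)

namespace Plan

variable {n : ℕ} (p : Plan n)

theorem step_stay (hv : p.Valid) (hU : ContDiff ℝ ∞ p.field) (hc : HasCompactSupport p.field)
    (Φ : ℝ → (Fin 3 → ℝ) → (Fin 3 → ℝ)) (hΦ : IsFlow p.field Φ) (m : ℕ) (hm : m < p.M)
    (i : Fin n) (hi : i ≠ p.mover m) (x : Fin 3 → ℝ) (hx : x ∈ (p.pos 0 i).obox p.ε)
    (ih : Φ (p.τ m) x = p.Tm i m x) : Φ (p.τ (m + 1)) x = p.Tm i (m + 1) x := by
  have h01 : ((p.τ m : ℚ) : ℝ) ≤ ((p.τ (m + 1) : ℚ) : ℝ) := by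
    exact_mod_cast p.τ_mono (Nat.le_succ m)
  rw [flow_const p.field hU hc Φ hΦ x _ _ h01, ih]
  · unfold Tm
    rw [hv.stay m hm i hi]
  · intro t ht
    rw [ih, p.field_eq_stage m hm t _ ht.1 (by rw [← p.τ_succ']; exact ht.2)]
    apply p.stage_eq_zero_space hv
    obtain ⟨k, hk⟩ := hv.clear m hm i hi
    refine ⟨k, ?_⟩
    have h1 := abs_lt.mp (p.Tm_mem hv i m x hx k)
    rcases hk with hk | hk
    · left
      have hk' : ((p.pos m i).c k : ℝ) + (1 + (p.ε : ℝ)) * ((p.pos m i).w k : ℝ) ≤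
          (p.lo m k : ℝ) - (p.δ : ℝ) := by
        have : (((p.pos m i).c k + (1 + p.ε) * (p.pos m i).w k : ℚ) : ℝ) ≤
            ((p.lo m k - p.δ : ℚ) : ℝ) := by exact_mod_cast hk
        push_cast at this
        exact this
      linarith [h1.2]
    · right
      have hk' : (p.hi m k : ℝ) + (p.δ : ℝ) ≤
          ((p.pos m i).c k : ℝ) - (1 + (p.ε : ℝ)) * ((p.pos m i).w k : ℝ) := by
        have : ((p.hi m k + p.δ : ℚ) : ℝ) ≤
            (((p.pos m i).c k - (1 + p.ε) * (p.pos m i).w k : ℚ) : ℝ) := by exact_mod_cast hk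
        push_cast at this
        exact this
      linarith [h1.1]


theorem hasDerivAt_tstep (τ w : ℚ) (hw : 0 < w) (t : ℝ) :
    HasDerivAt (tstep τ w) (deriv (tstep τ w) t) t :=
  ((effUni_tstep τ w hw).contDiff.differentiable (by simp) t).hasDerivAt

/-- the curve of a translation stage starting at `y` -/
noncomputable def trCurve (m : ℕ) (y : Fin 3 → ℝ) (t : ℝ) : Fin 3 → ℝ :=
  fun k => y k + (Pi.single (p.σ m 0) ((p.vel m : ℝ) * tstep (p.τ m) p.wlen t) : Fin 3 → ℝ) k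

theorem step_trans (hv : p.Valid) (hU : ContDiff ℝ ∞ p.field) (hc : HasCompactSupport p.field)
    (Φ : ℝ → (Fin 3 → ℝ) → (Fin 3 → ℝ)) (hΦ : IsFlow p.field Φ) (m : ℕ) (hm : m < p.M)
    (hsq : p.sq m = false) (x : Fin 3 → ℝ) (hx : x ∈ (p.pos 0 (p.mover m)).obox p.ε)
    (ih : Φ (p.τ m) x = p.Tm (p.mover m) m x) :
    Φ (p.τ (m + 1)) x = p.Tm (p.mover m) (m + 1) x := by
  obtain ⟨hw, hcc⟩ := hv.trans m hm hsq
  have h01 : ((p.τ m : ℚ) : ℝ) ≤ ((p.τ (m + 1) : ℚ) : ℝ) := by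
    exact_mod_cast p.τ_mono (Nat.le_succ m)
  have hγ0 : p.trCurve m (p.Tm (p.mover m) m x) (p.τ m) = Φ (p.τ m) x := by
    unfold trCurve
    rw [tstep_eq_zero p.wlen_pos le_rfl, ih]
    simp
  have key := isFlow_eq_of_curve p.field hU hc Φ hΦ x (p.τ m) (p.τ (m + 1)) h01
    (p.trCurve m (p.Tm (p.mover m) m x)) hγ0 ?_
  · rw [key]
    unfold trCurve
    rw [tstep_eq_one p.wlen_pos (by rw [p.τ_succ'])]
    funext k
    by_cases hk : k = p.σ m 0
    · subst hk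
      simp only [Tm, Pi.single_eq_same, vel, pre, post, hw]
      push_cast
      ring
    · simp only [Tm, Pi.single_eq_of_ne hk, hw, hcc k hk]
      ring
  · intro t ht
    have hθ0 := tstep_nonneg (p.τ m) p.wlen t
    have hθ1 := tstep_le_one (p.τ m) p.wlen t
    have hplat : ∀ k, (p.lo m k : ℝ) < p.trCurve m (p.Tm (p.mover m) m x) t k ∧
        p.trCurve m (p.Tm (p.mover m) m x) t k < (p.hi m k : ℝ) := by
      intro k
      have hyk := p.Tm_mem hv (p.mover m) m x hx k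
      by_cases hk : k = p.σ m 0
      · subst hk
        obtain ⟨l1, l2⟩ := min_le_lerp (((p.pre m).c (p.σ m 0) : ℚ) : ℝ)
          (((p.post m).c (p.σ m 0) : ℚ) : ℝ) _ hθ0 hθ1
        refine hull_mem (p.pre m) (p.post m) p.ε hv.εpos (p.σ m 0) _
          (((p.pre m).w (p.σ m 0) : ℚ) : ℝ) _ l1 l2 (le_max_left _ _) ?_
        simp only [trCurve, Pi.single_eq_same, vel]
        push_cast
        have e : p.Tm (p.mover m) m x (p.σ m 0) + (((p.post m).c (p.σ m 0) : ℝ) -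
            ((p.pre m).c (p.σ m 0) : ℝ)) * tstep (p.τ m) p.wlen t -
            (((p.pre m).c (p.σ m 0) : ℝ) + (((p.post m).c (p.σ m 0) : ℝ) -
              ((p.pre m).c (p.σ m 0) : ℝ)) * tstep (p.τ m) p.wlen t) =
            p.Tm (p.mover m) m x (p.σ m 0) - ((p.pre m).c (p.σ m 0) : ℝ) := by ring
        rw [e]
        exact hyk
      · refine hull_mem (p.pre m) (p.post m) p.ε hv.εpos k (((p.pre m).c k : ℚ) : ℝ)
          (((p.pre m).w k : ℚ) : ℝ) _ (min_le_left _ _) (le_max_left _ _) (le_max_left _ _) ?_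
        simp only [trCurve, Pi.single_eq_of_ne hk, add_zero]
        exact hyk
    rw [p.field_eq_stage m hm t _ ht.1 (by rw [← p.τ_succ']; exact ht.2),
      p.stage_trans_plateau hv m hsq t _ hplat]
    rw [hasDerivAt_pi]
    intro k
    have hts := hasDerivAt_tstep (p.τ m) p.wlen p.wlen_pos t
    by_cases hk : k = p.σ m 0
    · subst hk
      simp only [trCurve, Pi.single_eq_same, trT]
      exact (hts.const_mul _).const_add _
    · simp only [trCurve, Pi.single_eq_of_ne hk, add_zero]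
      exact hasDerivAt_const t _


/-- the scale factor of a squeeze stage -/
noncomputable def gfun (m : ℕ) (t : ℝ) : ℝ :=
  1 + ((p.ratio m : ℝ) - 1) * tstep (p.τ m) p.wlen t

/-- the curve of a squeeze stage starting at `y` -/
noncomputable def sqCurve (m : ℕ) (y : Fin 3 → ℝ) (t : ℝ) : Fin 3 → ℝ :=
  fun k => if k = p.σ m 0 then ((p.pre m).c k : ℝ) + p.gfun m t * (y k - ((p.pre m).c k : ℝ))
    else if k = p.σ m 1 then ((p.pre m).c k : ℝ) + (y k - ((p.pre m).c k : ℝ)) / p.gfun m t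
    else y k

theorem ratio_pos' (hv : p.Valid) (m : ℕ) : (0 : ℝ) < (p.ratio m : ℝ) := by
  exact_mod_cast p.ratio_pos hv m

theorem gfun_bounds (hv : p.Valid) (m : ℕ) (t : ℝ) :
    min 1 (p.ratio m : ℝ) ≤ p.gfun m t ∧ p.gfun m t ≤ max 1 (p.ratio m : ℝ) := by
  have := min_le_lerp 1 (p.ratio m : ℝ) _ (tstep_nonneg (p.τ m) p.wlen t)
    (tstep_le_one (p.τ m) p.wlen t)
  exact this

theorem gfun_pos (hv : p.Valid) (m : ℕ) (t : ℝ) : 0 < p.gfun m t :=
  lt_of_lt_of_le (lt_min one_pos (p.ratio_pos' hv m)) (p.gfun_bounds hv m t).1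

theorem hasDerivAt_gfun (m : ℕ) (t : ℝ) :
    HasDerivAt (p.gfun m) (((p.ratio m : ℝ) - 1) * deriv (tstep (p.τ m) p.wlen) t) t := by
  unfold gfun
  exact ((hasDerivAt_tstep (p.τ m) p.wlen p.wlen_pos t).const_mul _).const_add _

theorem sqT_eq (m : ℕ) (t : ℝ) : sqT (p.ratio m) (p.τ m) p.wlen t =
    ((p.ratio m : ℝ) - 1) * deriv (tstep (p.τ m) p.wlen) t * (p.gfun m t)⁻¹ := rfl

theorem σ_ne (m : ℕ) : p.σ m 0 ≠ p.σ m 1 := fun h => by
  have := (p.σ m).injective h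
  exact absurd this (by decide)

theorem σ_cases (m : ℕ) (k : Fin 3) : k = p.σ m 0 ∨ k = p.σ m 1 ∨ k = p.σ m 2 := by
  obtain ⟨j, rfl⟩ := (p.σ m).surjective k
  fin_cases j
  · left; rfl
  · right; left; rfl
  · right; right; rfl

theorem σ_ne02 (m : ℕ) : p.σ m 2 ≠ p.σ m 0 := fun h => by
  have := (p.σ m).injective h
  exact absurd this (by decide)

theorem σ_ne12 (m : ℕ) : p.σ m 2 ≠ p.σ m 1 := fun h => by
  have := (p.σ m).injective h
  exact absurd this (by decide)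


theorem sqCurve_zero (m : ℕ) (y : Fin 3 → ℝ) (t : ℝ) :
    p.sqCurve m y t (p.σ m 0) = ((p.pre m).c (p.σ m 0) : ℝ) +
      p.gfun m t * (y (p.σ m 0) - ((p.pre m).c (p.σ m 0) : ℝ)) := by
  simp [sqCurve]

theorem sqCurve_one (m : ℕ) (y : Fin 3 → ℝ) (t : ℝ) :
    p.sqCurve m y t (p.σ m 1) = ((p.pre m).c (p.σ m 1) : ℝ) +
      (y (p.σ m 1) - ((p.pre m).c (p.σ m 1) : ℝ)) / p.gfun m t := by
  simp [sqCurve, (p.σ_ne m).symm]

theorem sqCurve_two (m : ℕ) (y : Fin 3 → ℝ) (t : ℝ) :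
    p.sqCurve m y t (p.σ m 2) = y (p.σ m 2) := by
  simp [sqCurve, p.σ_ne02 m, p.σ_ne12 m]

theorem gfun_start (m : ℕ) : p.gfun m (p.τ m) = 1 := by
  unfold gfun
  rw [tstep_eq_zero p.wlen_pos le_rfl]
  ring

theorem gfun_end (m : ℕ) : p.gfun m (p.τ (m + 1)) = (p.ratio m : ℝ) := by
  unfold gfun
  rw [tstep_eq_one p.wlen_pos (by rw [p.τ_succ'])]
  ring

theorem step_sq (hv : p.Valid) (hU : ContDiff ℝ ∞ p.field) (hc : HasCompactSupport p.field)
    (Φ : ℝ → (Fin 3 → ℝ) → (Fin 3 → ℝ)) (hΦ : IsFlow p.field Φ) (m : ℕ) (hm : m < p.M)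
    (hsq : p.sq m = true) (x : Fin 3 → ℝ) (hx : x ∈ (p.pos 0 (p.mover m)).obox p.ε)
    (ih : Φ (p.τ m) x = p.Tm (p.mover m) m x) :
    Φ (p.τ (m + 1)) x = p.Tm (p.mover m) (m + 1) x := by
  obtain ⟨hcc, hw2, hprod⟩ := hv.squeeze m hm hsq
  have hcc' : (p.post m).c = (p.pre m).c := hcc
  have hw2' : (p.post m).w (p.σ m 2) = (p.pre m).w (p.σ m 2) := hw2
  have h01 : ((p.τ m : ℚ) : ℝ) ≤ ((p.τ (m + 1) : ℚ) : ℝ) := by
    exact_mod_cast p.τ_mono (Nat.le_succ m)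
  have w0pos : (0 : ℝ) < ((p.pre m).w (p.σ m 0) : ℝ) := p.wpos' hv m (p.mover m) (p.σ m 0)
  have w1pos : (0 : ℝ) < ((p.pre m).w (p.σ m 1) : ℝ) := p.wpos' hv m (p.mover m) (p.σ m 1)
  have w1pos' : (0 : ℝ) < ((p.post m).w (p.σ m 1) : ℝ) :=
    p.wpos' hv (m + 1) (p.mover m) (p.σ m 1)
  have hρpos := p.ratio_pos' hv m
  have hρ : (p.ratio m : ℝ) * ((p.pre m).w (p.σ m 0) : ℝ) = ((p.post m).w (p.σ m 0) : ℝ) := by
    unfold ratio
    push_cast
    field_simp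
  have hprod' : ((p.post m).w (p.σ m 0) : ℝ) * ((p.post m).w (p.σ m 1) : ℝ) =
      ((p.pre m).w (p.σ m 0) : ℝ) * ((p.pre m).w (p.σ m 1) : ℝ) := by
    exact_mod_cast hprod
  have hρ1 : ((p.post m).w (p.σ m 1) : ℝ) * (p.ratio m : ℝ) = ((p.pre m).w (p.σ m 1) : ℝ) := by
    have h3 : ((p.post m).w (p.σ m 1) : ℝ) * (p.ratio m : ℝ) * ((p.pre m).w (p.σ m 0) : ℝ) =
        ((p.pre m).w (p.σ m 1) : ℝ) * ((p.pre m).w (p.σ m 0) : ℝ) := by
      rw [mul_assoc, hρ]
      linarith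
    exact mul_right_cancel₀ w0pos.ne' h3
  have hTm : ∀ k, p.Tm (p.mover m) m x k = ((p.pre m).c k : ℝ) +
      ((p.pre m).w k : ℝ) / ((p.pos 0 (p.mover m)).w k : ℝ) *
        (x k - ((p.pos 0 (p.mover m)).c k : ℝ)) := fun k => rfl
  have hTm' : ∀ k, p.Tm (p.mover m) (m + 1) x k = ((p.post m).c k : ℝ) +
      ((p.post m).w k : ℝ) / ((p.pos 0 (p.mover m)).w k : ℝ) *
        (x k - ((p.pos 0 (p.mover m)).c k : ℝ)) := fun k => rfl
  have hyk : ∀ k, |p.Tm (p.mover m) m x k - ((p.pre m).c k : ℝ)| <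
      (1 + (p.ε : ℝ)) * ((p.pre m).w k : ℝ) := fun k => p.Tm_mem hv (p.mover m) m x hx k
  have hγ0 : p.sqCurve m (p.Tm (p.mover m) m x) (p.τ m) = Φ (p.τ m) x := by
    rw [ih]
    funext k
    rcases p.σ_cases m k with rfl | rfl | rfl
    · rw [sqCurve_zero, gfun_start]; ring
    · rw [sqCurve_one, gfun_start]; ring
    · rw [sqCurve_two]
  have key := isFlow_eq_of_curve p.field hU hc Φ hΦ x (p.τ m) (p.τ (m + 1)) h01
    (p.sqCurve m (p.Tm (p.mover m) m x)) hγ0 ?_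
  · rw [key]
    funext k
    have hW0 := (p.wpos' hv 0 (p.mover m) k).ne'
    rcases p.σ_cases m k with rfl | rfl | rfl
    · rw [sqCurve_zero, gfun_end, hTm, hTm', hcc', ← hρ]
      ring
    · rw [sqCurve_one, gfun_end, hTm, hTm', hcc', ← hρ1]
      field_simp
      ring
    · rw [sqCurve_two, hTm, hTm', hcc', hw2']
  · intro t ht
    have hg := p.gfun_pos hv m t
    obtain ⟨hg1, hg2⟩ := p.gfun_bounds hv m t
    have hθ0 := tstep_nonneg (p.τ m) p.wlen t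
    have hθ1 := tstep_le_one (p.τ m) p.wlen t
    have hplat : ∀ k, (p.lo m k : ℝ) < p.sqCurve m (p.Tm (p.mover m) m x) t k ∧
        p.sqCurve m (p.Tm (p.mover m) m x) t k < (p.hi m k : ℝ) := by
      intro k
      rcases p.σ_cases m k with rfl | rfl | rfl
      · refine hull_mem (p.pre m) (p.post m) p.ε hv.εpos (p.σ m 0)
          (((p.pre m).c (p.σ m 0) : ℚ) : ℝ) (p.gfun m t * ((p.pre m).w (p.σ m 0) : ℝ)) _
          (min_le_left _ _) (le_max_left _ _) ?_ ?_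
        · have h5 := (min_le_lerp ((p.pre m).w (p.σ m 0) : ℝ) ((p.post m).w (p.σ m 0) : ℝ) _
            hθ0 hθ1).2
          have h6 : p.gfun m t * ((p.pre m).w (p.σ m 0) : ℝ) = ((p.pre m).w (p.σ m 0) : ℝ) +
              (((p.post m).w (p.σ m 0) : ℝ) - ((p.pre m).w (p.σ m 0) : ℝ)) *
                tstep (p.τ m) p.wlen t := by
            unfold gfun
            rw [← hρ]
            ring
          rw [h6]
          exact h5
        · rw [sqCurve_zero, add_sub_cancel_left, abs_mul, abs_of_pos hg]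
          have := mul_lt_mul_of_pos_left (hyk (p.σ m 0)) hg
          linarith
      · refine hull_mem (p.pre m) (p.post m) p.ε hv.εpos (p.σ m 1)
          (((p.pre m).c (p.σ m 1) : ℚ) : ℝ) (((p.pre m).w (p.σ m 1) : ℝ) / p.gfun m t) _
          (min_le_left _ _) (le_max_left _ _) ?_ ?_
        · rcases le_total 1 (p.ratio m : ℝ) with h | h
          · rw [min_eq_left h] at hg1
            exact le_trans (div_le_self w1pos.le hg1) (le_max_left _ _)
          · rw [min_eq_right h] at hg1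
            refine le_trans ?_ (le_max_right _ _)
            rw [div_le_iff₀ hg, ← hρ1]
            exact mul_le_mul_of_nonneg_left hg1 w1pos'.le
        · rw [sqCurve_one, add_sub_cancel_left, abs_div, abs_of_pos hg, div_lt_iff₀ hg]
          have e : (1 + (p.ε : ℝ)) * (((p.pre m).w (p.σ m 1) : ℝ) / p.gfun m t) * p.gfun m t =
              (1 + (p.ε : ℝ)) * ((p.pre m).w (p.σ m 1) : ℝ) := by
            field_simp
          rw [e]
          exact hyk (p.σ m 1)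
      · refine hull_mem (p.pre m) (p.post m) p.ε hv.εpos (p.σ m 2)
          (((p.pre m).c (p.σ m 2) : ℚ) : ℝ) (((p.pre m).w (p.σ m 2) : ℚ) : ℝ) _
          (min_le_left _ _) (le_max_left _ _) (le_max_left _ _) ?_
        rw [sqCurve_two]
        exact hyk (p.σ m 2)
    rw [p.field_eq_stage m hm t _ ht.1 (by rw [← p.τ_succ']; exact ht.2),
      p.stage_sq_plateau hv m hsq t _ hplat]
    rw [hasDerivAt_pi]
    intro k
    have hgd := p.hasDerivAt_gfun m t
    rcases p.σ_cases m k with rfl | rfl | rfl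
    · have e1 : (fun s => p.sqCurve m (p.Tm (p.mover m) m x) s (p.σ m 0)) = fun s =>
          ((p.pre m).c (p.σ m 0) : ℝ) + p.gfun m s *
            (p.Tm (p.mover m) m x (p.σ m 0) - ((p.pre m).c (p.σ m 0) : ℝ)) := by
        funext s; rw [sqCurve_zero]
      rw [e1]
      have hd := (hgd.mul_const
        (p.Tm (p.mover m) m x (p.σ m 0) - ((p.pre m).c (p.σ m 0) : ℝ))).const_add
        ((p.pre m).c (p.σ m 0) : ℝ)
      convert hd using 1
      simp only [Pi.sub_apply, Pi.single_eq_same, Pi.single_eq_of_ne (p.σ_ne m), sub_zero]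
      rw [sqCurve_zero, sqT_eq, add_sub_cancel_left]
      field_simp
    · have e1 : (fun s => p.sqCurve m (p.Tm (p.mover m) m x) s (p.σ m 1)) = fun s =>
          ((p.pre m).c (p.σ m 1) : ℝ) +
            (p.Tm (p.mover m) m x (p.σ m 1) - ((p.pre m).c (p.σ m 1) : ℝ)) / p.gfun m s := by
        funext s; rw [sqCurve_one]
      rw [e1]
      have hd := ((hgd.inv hg.ne').const_mul
        (p.Tm (p.mover m) m x (p.σ m 1) - ((p.pre m).c (p.σ m 1) : ℝ))).const_add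
        ((p.pre m).c (p.σ m 1) : ℝ)
      convert hd using 1
      · funext s
        simp [div_eq_mul_inv]
      · simp only [Pi.sub_apply, Pi.single_eq_same, Pi.single_eq_of_ne (p.σ_ne m).symm, zero_sub]
        rw [sqCurve_one, sqT_eq, add_sub_cancel_left]
        field_simp
    · have e1 : (fun s => p.sqCurve m (p.Tm (p.mover m) m x) s (p.σ m 2)) = fun _ =>
          p.Tm (p.mover m) m x (p.σ m 2) := by
        funext s; rw [sqCurve_two]
      rw [e1]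
      simp only [Pi.sub_apply, Pi.single_eq_of_ne (p.σ_ne02 m), Pi.single_eq_of_ne (p.σ_ne12 m),
        sub_zero]
      exact hasDerivAt_const t _


theorem τ_zero : ((p.τ 0 : ℚ) : ℝ) = 1 / 4 := by
  unfold τ
  push_cast
  ring

theorem track (hv : p.Valid) (hU : ContDiff ℝ ∞ p.field) (hc : HasCompactSupport p.field)
    (Φ : ℝ → (Fin 3 → ℝ) → (Fin 3 → ℝ)) (hΦ : IsFlow p.field Φ) (i : Fin n) (x : Fin 3 → ℝ)
    (hx : x ∈ (p.pos 0 i).obox p.ε) : ∀ m, m ≤ p.M → Φ (p.τ m) x = p.Tm i m x := by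
  intro m
  induction m with
  | zero =>
    intro _
    rw [p.Tm_zero hv]
    have h := flow_const p.field hU hc Φ hΦ x 0 (p.τ 0) (by rw [p.τ_zero]; norm_num)
      (fun t ht => p.field_eq_zero_of_le t _ (by have := ht.2; rw [p.τ_zero] at this; exact this))
    rw [h, hΦ.1]
  | succ m ih =>
    intro hm
    have hm' : m < p.M := hm
    have ih' := ih hm'.le
    by_cases hi : i = p.mover m
    · subst hi
      cases hsq : p.sq m
      · exact p.step_trans hv hU hc Φ hΦ m hm' hsq x hx ih'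
      · exact p.step_sq hv hU hc Φ hΦ m hm' hsq x hx ih'
    · exact p.step_stay hv hU hc Φ hΦ m hm' i hi x hx ih'

theorem realize (hv : p.Valid) :
    ∃ (U : Field) (Φ : ℝ → (Fin 3 → ℝ) → (Fin 3 → ℝ)),
      ContDiff ℝ ∞ U ∧ HasCompactSupport U ∧ Effective U ∧
      (∀ q : ℝ × (Fin 3 → ℝ), q.1 ∉ Set.Icc (1 / 4 : ℝ) (3 / 4) → U q = 0) ∧
      (∀ q : ℝ × (Fin 3 → ℝ), spaceDiv U q = 0) ∧ IsFlow U Φ ∧
      ∀ i : Fin n, ∀ x ∈ (p.pos 0 i).obox p.ε,
        Φ 1 x = fun j => ((p.pos p.M i).c j : ℝ) +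
          (((p.pos p.M i).w j / (p.pos 0 i).w j : ℚ) : ℝ) * (x j - ((p.pos 0 i).c j : ℝ)) := by
  have hE := p.field_effField hv
  have hU := hE.contDiff
  have hc := p.field_hasCompactSupport hv
  have h0 : ∀ q : ℝ × (Fin 3 → ℝ), q.1 ∉ Set.Icc (1 / 4 : ℝ) (3 / 4) → p.field q = 0 :=
    fun q hq => p.field_eq_zero_time q.1 q.2 hq
  obtain ⟨Φ, hΦ⟩ := exists_isFlow p.field hU hc h0
  refine ⟨p.field, Φ, hU, hc, hE.effective, h0, p.spaceDiv_field hv, hΦ, ?_⟩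
  intro i x hx
  have h1 := p.track hv hU hc Φ hΦ i x hx p.M le_rfl
  have hτ : ((p.τ p.M : ℚ) : ℝ) ≤ 1 := by
    have h2 : ((p.τ p.M : ℚ) : ℝ) ≤ ((3 / 4 : ℚ) : ℝ) := by exact_mod_cast p.τ_le le_rfl
    push_cast at h2
    linarith
  have h2 := flow_const p.field hU hc Φ hΦ x (p.τ p.M) 1 hτ
    (fun t ht => p.field_eq_zero_of_ge t _ ht.1)
  rw [h2, h1]
  funext j
  simp only [Tm]
  push_cast
  rfl

end Plan

end Crest.Agent.S0170
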