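import Mathlib
import Crest.Prelude.Def_BoxFlow

/-!
Shared definitions for the proof of S0170 (divergence-free flows realizing box maps).
Everything lives in `namespace Crest.Agent.S0170`.
-/

set_option autoImplicit false
open scoped ContDiff
open Crest.AnalysisR.BoxFlow

namespace Crest.Agent.S0170

/-- A rational number coded by three naturals: `(p - m) / (d + 1)`. -/
def nqVal (x : ℕ × ℕ × ℕ) : ℚ := ((x.1 : ℚ) - (x.2.1 : ℚ)) / ((x.2.2 : ℚ) + 1)

/-- Smoothness with Gevrey-2 type bounds on all derivatives (natural-number constants). -/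
def Gev (g : ℝ → ℝ) : Prop :=
  ContDiff ℝ ∞ g ∧ ∃ C K : ℕ, ∀ (a : ℕ) (x : ℝ),
    |iteratedDeriv a g x| ≤ (C : ℝ) * (K : ℝ) ^ a * (a.factorial : ℝ) ^ 2

/-- Primitive-recursive approximability at (coded) rational points. -/
def Apx (g : ℝ → ℝ) : Prop :=
  ∃ A : (ℕ × ℕ × ℕ) × ℕ → ℕ × ℕ × ℕ, Primrec A ∧
    ∀ (r : ℕ × ℕ × ℕ) (N : ℕ),
      |g ((nqVal r : ℚ) : ℝ) - ((nqVal (A (r, N)) : ℚ) : ℝ)| ≤ 1 / ((N : ℝ) + 1)

/-- Primitive-recursive approximability of all derivatives at (coded) rational points,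
uniformly in the order of the derivative. -/
def ApxAll (g : ℝ → ℝ) : Prop :=
  ∃ A : ℕ × (ℕ × ℕ × ℕ) × ℕ → ℕ × ℕ × ℕ, Primrec A ∧
    ∀ (a : ℕ) (r : ℕ × ℕ × ℕ) (N : ℕ),
      |iteratedDeriv a g ((nqVal r : ℚ) : ℝ) - ((nqVal (A (a, r, N)) : ℚ) : ℝ)| ≤ 1 / ((N : ℝ) + 1)

/-- Effective univariate smooth function. -/
structure EffUni (g : ℝ → ℝ) : Prop where
  gev : Gev g
  apx : Apx g

/-- Pure tensor field: component `i` is `g₀(t) * ∏ k, g k (x k)`, other components zero. -/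
noncomputable def tensF (g₀ : ℝ → ℝ) (g : Fin 3 → ℝ → ℝ) (i : Fin 3) : Field :=
  fun p => Pi.single i (g₀ p.1 * ∏ k : Fin 3, g k (p.2 k))

/-- Finite sums of pure tensor fields with effective univariate factors. -/
inductive EffField : Field → Prop
  | zero : EffField (fun _ => 0)
  | tens (g₀ : ℝ → ℝ) (g : Fin 3 → ℝ → ℝ) (i : Fin 3) (h₀ : EffUni g₀) (h : ∀ k, EffUni (g k)) :
      EffField (tensF g₀ g i)
  | add (U V : Field) (hU : EffField U) (hV : EffField V) : EffField (fun p => U p + V p)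

/-- Smooth plateau: `1` on `[lo, hi]`, `0` outside `(lo - δ, hi + δ)` (for `δ > 0`, `lo ≤ hi`). -/
noncomputable def plat (lo hi δ : ℚ) (x : ℝ) : ℝ :=
  Real.smoothTransition ((x - lo) / δ + 1) - Real.smoothTransition ((x - hi) / δ)

/-- Ramp: `(x - c) * plat lo hi δ x`. -/
noncomputable def ramp (lo hi δ c : ℚ) (x : ℝ) : ℝ := (x - c) * plat lo hi δ x

/-- Smooth time step: `0` for `t ≤ τ`, `1` for `t ≥ τ + w` (for `w > 0`). -/
noncomputable def tstep (τ w : ℚ) (t : ℝ) : ℝ := Real.smoothTransition ((t - τ) / w)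

/-- Time factor of a squeeze stage with ratio `ρ`: the logarithmic derivative of
`1 + (ρ - 1) * tstep τ w`. -/
noncomputable def sqT (ρ τ w : ℚ) (t : ℝ) : ℝ :=
  ((ρ : ℝ) - 1) * deriv (tstep τ w) t * (1 + ((ρ : ℝ) - 1) * tstep τ w t)⁻¹

/-- The divergence-free field with stream function `F (x (σ 0)) * G (x (σ 1)) * H (x (σ 2))`
about the axis `σ 2`, multiplied by the time factor `T`. -/
noncomputable def stageField (T F G H : ℝ → ℝ) (σ : Equiv.Perm (Fin 3)) : Field :=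
  fun p =>
    Pi.single (σ 0) (T p.1 * (F (p.2 (σ 0)) * deriv G (p.2 (σ 1)) * H (p.2 (σ 2))))
    - Pi.single (σ 1) (T p.1 * (deriv F (p.2 (σ 0)) * G (p.2 (σ 1)) * H (p.2 (σ 2))))

/-- Position of a box: centre and half-widths. -/
structure Pos where
  c : Fin 3 → ℚ
  w : Fin 3 → ℚ

/-- The open box of a position, inflated by the factor `1 + ε`. -/
def Pos.obox (P : Pos) (ε : ℚ) : Set (Fin 3 → ℝ) :=
  {x | ∀ k : Fin 3, |x k - (P.c k : ℝ)| < (1 + (ε : ℝ)) * (P.w k : ℝ)}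

/-- Lower corner of the hull of two (inflated) positions. -/
def hullLo (P Q : Pos) (ε : ℚ) (k : Fin 3) : ℚ :=
  min (P.c k) (Q.c k) - (1 + ε) * max (P.w k) (Q.w k)

/-- Upper corner of the hull of two (inflated) positions. -/
def hullHi (P Q : Pos) (ε : ℚ) (k : Fin 3) : ℚ :=
  max (P.c k) (Q.c k) + (1 + ε) * max (P.w k) (Q.w k)

/-- A motion plan for `n` boxes: `M` stages; in stage `m` the box `mover m` moves from
`pos m (mover m)` to `pos (m+1) (mover m)`, either by a translation along the axis `σ m 0`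
(`sq m = false`) or by a squeeze in the axes `σ m 0`, `σ m 1` (`sq m = true`);
all other boxes stay. -/
structure Plan (n : ℕ) where
  M : ℕ
  ε : ℚ
  δ : ℚ
  pos : ℕ → Fin n → Pos
  mover : ℕ → Fin n
  σ : ℕ → Equiv.Perm (Fin 3)
  sq : ℕ → Bool

/-- Validity of a plan. -/
structure Plan.Valid {n : ℕ} (p : Plan n) : Prop where
  εpos : 0 < p.ε
  δpos : 0 < p.δ
  wpos : ∀ (m : ℕ) (i : Fin n) (k : Fin 3), 0 < (p.pos m i).w k
  stay : ∀ m < p.M, ∀ i : Fin n, i ≠ p.mover m → p.pos (m + 1) i = p.pos m i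
  trans : ∀ m < p.M, p.sq m = false →
    (p.pos (m + 1) (p.mover m)).w = (p.pos m (p.mover m)).w ∧
    ∀ k : Fin 3, k ≠ p.σ m 0 → (p.pos (m + 1) (p.mover m)).c k = (p.pos m (p.mover m)).c k
  squeeze : ∀ m < p.M, p.sq m = true →
    (p.pos (m + 1) (p.mover m)).c = (p.pos m (p.mover m)).c ∧
    (p.pos (m + 1) (p.mover m)).w (p.σ m 2) = (p.pos m (p.mover m)).w (p.σ m 2) ∧
    (p.pos (m + 1) (p.mover m)).w (p.σ m 0) * (p.pos (m + 1) (p.mover m)).w (p.σ m 1) =
      (p.pos m (p.mover m)).w (p.σ m 0) * (p.pos m (p.mover m)).w (p.σ m 1)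
  clear : ∀ m < p.M, ∀ i : Fin n, i ≠ p.mover m → ∃ k : Fin 3,
    (p.pos m i).c k + (1 + p.ε) * (p.pos m i).w k ≤
        hullLo (p.pos m (p.mover m)) (p.pos (m + 1) (p.mover m)) p.ε k - p.δ ∨
    hullHi (p.pos m (p.mover m)) (p.pos (m + 1) (p.mover m)) p.ε k + p.δ ≤
        (p.pos m i).c k - (1 + p.ε) * (p.pos m i).w k

end Crest.Agent.S0170
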