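import Crest.Agent.S0170.Defs

/-!
Module B1: closure properties of `Gev` (smooth functions with Gevrey-2 bounds on all derivatives).
Auxiliary declarations go into `namespace Crest.Agent.S0170.GevAux`.
-/

set_option autoImplicit false
open scoped ContDiff

namespace Crest.Agent.S0170

namespace GevAux

/-- Real constants suffice in the definition of `Gev`. -/
theorem gev_of_real {g : ℝ → ℝ} (hg : ContDiff ℝ ∞ g) (C K : ℝ)
    (h : ∀ (a : ℕ) (x : ℝ), |iteratedDeriv a g x| ≤ C * K ^ a * (a.factorial : ℝ) ^ 2) :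
    Gev g := by
  refine ⟨hg, ⌈|C|⌉₊, ⌈|K|⌉₊, fun a x => (h a x).trans ?_⟩
  have h1 : C * K ^ a ≤ (⌈|C|⌉₊ : ℝ) * (⌈|K|⌉₊ : ℝ) ^ a := by
    calc C * K ^ a ≤ |C| * |K| ^ a := by
          rw [← abs_pow, ← abs_mul]; exact le_abs_self _
      _ ≤ _ := by
          gcongr
          · exact Nat.le_ceil _
          · exact Nat.le_ceil _
  exact mul_le_mul_of_nonneg_right h1 (by positivity)

theorem cda {g : ℝ → ℝ} (hg : ContDiff ℝ ∞ g) (a : ℕ) (x : ℝ) : ContDiffAt ℝ a g x :=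
  (hg.of_le (by exact_mod_cast le_top)).contDiffAt

theorem cd {g : ℝ → ℝ} (hg : ContDiff ℝ ∞ g) (a : ℕ) : ContDiff ℝ a g :=
  hg.of_le (by exact_mod_cast le_top)

/-- The combinatorial heart of the Leibniz estimates. -/
theorem choose_fact_le {a i : ℕ} (hi : i ≤ a) :
    (a.choose i : ℝ) * ((i.factorial : ℝ) ^ 2 * ((a - i).factorial : ℝ) ^ 2)
      ≤ (a.factorial : ℝ) ^ 2 := by
  have h1 : a.choose i * i.factorial * (a - i).factorial = a.factorial :=
    Nat.choose_mul_factorial_mul_factorial hi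
  have h2 : i.factorial * (a - i).factorial ≤ a.factorial :=
    Nat.le_of_dvd (Nat.factorial_pos a) (Nat.factorial_mul_factorial_dvd_factorial hi)
  have h3 : a.choose i * (i.factorial ^ 2 * (a - i).factorial ^ 2) ≤ a.factorial ^ 2 := by
    calc a.choose i * (i.factorial ^ 2 * (a - i).factorial ^ 2)
        = (a.choose i * i.factorial * (a - i).factorial) * (i.factorial * (a - i).factorial) := by
          ring
      _ = a.factorial * (i.factorial * (a - i).factorial) := by rw [h1]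
      _ ≤ a.factorial * a.factorial := Nat.mul_le_mul_left _ h2
      _ = a.factorial ^ 2 := by ring
  exact_mod_cast h3

theorem term_bound {a i : ℕ} (hi : i ≤ a) {u v A B P Q : ℝ}
    (hu : |u| ≤ A * P ^ i * (i.factorial : ℝ) ^ 2)
    (hv : |v| ≤ B * Q ^ (a - i) * ((a - i).factorial : ℝ) ^ 2)
    (hA : 0 ≤ A) (hB : 0 ≤ B) (hP : 0 ≤ P) (hQ : 0 ≤ Q) :
    |(a.choose i : ℝ) * u * v| ≤ A * B * P ^ i * Q ^ (a - i) * (a.factorial : ℝ) ^ 2 := by
  rw [abs_mul, abs_mul, Nat.abs_cast]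
  calc (a.choose i : ℝ) * |u| * |v|
      ≤ (a.choose i : ℝ) * (A * P ^ i * (i.factorial : ℝ) ^ 2)
          * (B * Q ^ (a - i) * ((a - i).factorial : ℝ) ^ 2) := by gcongr
    _ = A * B * P ^ i * Q ^ (a - i)
          * ((a.choose i : ℝ) * ((i.factorial : ℝ) ^ 2 * ((a - i).factorial : ℝ) ^ 2)) := by ring
    _ ≤ A * B * P ^ i * Q ^ (a - i) * (a.factorial : ℝ) ^ 2 := by
        gcongr
        exact choose_fact_le hi

theorem succ_le_two_pow (a : ℕ) : ((a : ℝ) + 1) ≤ 2 ^ a := by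
  have : a + 1 ≤ 2 ^ a := Nat.lt_two_pow_self
  exact_mod_cast this

end GevAux

theorem Gev.const (c : ℝ) : Gev (fun _ => c) := by
  refine GevAux.gev_of_real contDiff_const |c| 1 fun a x => ?_
  rw [iteratedDeriv_const]
  rcases a with _ | a
  · simp
  · simp only [Nat.succ_ne_zero, if_false, abs_zero]
    positivity

theorem Gev.add {f g : ℝ → ℝ} (hf : Gev f) (hg : Gev g) : Gev (fun x => f x + g x) := by
  obtain ⟨hf, C₁, K₁, h₁⟩ := hf
  obtain ⟨hg, C₂, K₂, h₂⟩ := hg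
  refine GevAux.gev_of_real (hf.add hg) ((C₁ : ℝ) + C₂) (max (K₁ : ℝ) K₂) fun a x => ?_
  have e : iteratedDeriv a (fun x => f x + g x) x = iteratedDeriv a f x + iteratedDeriv a g x :=
    iteratedDeriv_fun_add (GevAux.cda hf a x) (GevAux.cda hg a x)
  rw [e]
  calc |iteratedDeriv a f x + iteratedDeriv a g x|
      ≤ |iteratedDeriv a f x| + |iteratedDeriv a g x| := abs_add_le _ _
    _ ≤ (C₁ : ℝ) * (K₁ : ℝ) ^ a * (a.factorial : ℝ) ^ 2
          + (C₂ : ℝ) * (K₂ : ℝ) ^ a * (a.factorial : ℝ) ^ 2 := add_le_add (h₁ a x) (h₂ a x)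
    _ ≤ (C₁ : ℝ) * (max (K₁ : ℝ) K₂) ^ a * (a.factorial : ℝ) ^ 2
          + (C₂ : ℝ) * (max (K₁ : ℝ) K₂) ^ a * (a.factorial : ℝ) ^ 2 := by
        gcongr
        · exact le_max_left _ _
        · exact le_max_right _ _
    _ = _ := by ring

theorem Gev.neg {f : ℝ → ℝ} (hf : Gev f) : Gev (fun x => - f x) := by
  obtain ⟨hf, C, K, h⟩ := hf
  refine ⟨hf.neg, C, K, fun a x => ?_⟩
  rw [iteratedDeriv_fun_neg, abs_neg]
  exact h a x

theorem Gev.sub {f g : ℝ → ℝ} (hf : Gev f) (hg : Gev g) : Gev (fun x => f x - g x) := by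
  have := hf.add hg.neg
  simpa only [sub_eq_add_neg] using this

theorem Gev.mul {f g : ℝ → ℝ} (hf : Gev f) (hg : Gev g) : Gev (fun x => f x * g x) := by
  obtain ⟨hf, C₁, K₁, h₁⟩ := hf
  obtain ⟨hg, C₂, K₂, h₂⟩ := hg
  refine GevAux.gev_of_real (hf.mul hg) ((C₁ : ℝ) * C₂) (2 * max (K₁ : ℝ) K₂) fun a x => ?_
  have e := iteratedDeriv_fun_mul (GevAux.cda hf a x) (GevAux.cda hg a x)
  rw [e]
  set K : ℝ := max (K₁ : ℝ) K₂ with hK
  have hK1 : (K₁ : ℝ) ≤ K := le_max_left _ _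
  have hK2 : (K₂ : ℝ) ≤ K := le_max_right _ _
  have hK0 : 0 ≤ K := le_trans (Nat.cast_nonneg _) hK1
  calc |∑ i ∈ Finset.range (a + 1),
          (a.choose i : ℝ) * iteratedDeriv i f x * iteratedDeriv (a - i) g x|
      ≤ ∑ i ∈ Finset.range (a + 1),
          |(a.choose i : ℝ) * iteratedDeriv i f x * iteratedDeriv (a - i) g x| :=
        Finset.abs_sum_le_sum_abs _ _
    _ ≤ ∑ i ∈ Finset.range (a + 1), (C₁ : ℝ) * C₂ * K ^ a * (a.factorial : ℝ) ^ 2 := by
        apply Finset.sum_le_sum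
        intro i hi
        have hia : i ≤ a := Nat.lt_succ_iff.mp (Finset.mem_range.mp hi)
        refine (GevAux.term_bound hia (h₁ i x) (h₂ (a - i) x) (Nat.cast_nonneg _)
          (Nat.cast_nonneg _) (Nat.cast_nonneg _) (Nat.cast_nonneg _)).trans ?_
        have hp : (K₁ : ℝ) ^ i * (K₂ : ℝ) ^ (a - i) ≤ K ^ a := by
          calc (K₁ : ℝ) ^ i * (K₂ : ℝ) ^ (a - i) ≤ K ^ i * K ^ (a - i) := by gcongr
            _ = K ^ a := by rw [← pow_add, Nat.add_sub_cancel' hia]
        calc (C₁ : ℝ) * C₂ * (K₁ : ℝ) ^ i * (K₂ : ℝ) ^ (a - i) * (a.factorial : ℝ) ^ 2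
            = (C₁ : ℝ) * C₂ * ((K₁ : ℝ) ^ i * (K₂ : ℝ) ^ (a - i)) * (a.factorial : ℝ) ^ 2 := by
              ring
          _ ≤ (C₁ : ℝ) * C₂ * K ^ a * (a.factorial : ℝ) ^ 2 := by gcongr
    _ = ((a : ℝ) + 1) * ((C₁ : ℝ) * C₂ * K ^ a * (a.factorial : ℝ) ^ 2) := by
        simp
    _ ≤ 2 ^ a * ((C₁ : ℝ) * C₂ * K ^ a * (a.factorial : ℝ) ^ 2) := by
        gcongr
        exact GevAux.succ_le_two_pow a
    _ = (C₁ : ℝ) * C₂ * (2 * K) ^ a * (a.factorial : ℝ) ^ 2 := by
        rw [mul_pow]; ring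

theorem Gev.const_mul (c : ℝ) {f : ℝ → ℝ} (hf : Gev f) : Gev (fun x => c * f x) :=
  (Gev.const c).mul hf

theorem Gev.comp_affine (α β : ℝ) {f : ℝ → ℝ} (hf : Gev f) : Gev (fun x => f (α * x + β)) := by
  obtain ⟨hf, C, K, h⟩ := hf
  have hc : ContDiff ℝ ∞ (fun x => f (α * x + β)) :=
    hf.comp ((contDiff_const.mul contDiff_id).add contDiff_const)
  refine GevAux.gev_of_real hc C (|α| * K) fun a x => ?_
  have e1 : iteratedDeriv a (fun x => f (α * x + β))
      = fun x => α ^ a * iteratedDeriv a (fun y => f (y + β)) (α * x) :=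
    iteratedDeriv_comp_const_mul (f := fun y => f (y + β))
      ((GevAux.cd hf a).comp (contDiff_id.add contDiff_const)) α
  rw [e1, iteratedDeriv_comp_add_const]
  simp only
  rw [abs_mul, abs_pow]
  calc |α| ^ a * |iteratedDeriv a f (α * x + β)|
      ≤ |α| ^ a * ((C : ℝ) * (K : ℝ) ^ a * (a.factorial : ℝ) ^ 2) := by
        gcongr
        exact h a _
    _ = (C : ℝ) * (|α| * K) ^ a * (a.factorial : ℝ) ^ 2 := by rw [mul_pow]; ring

namespace GevAux

/-- Derivative bounds for the reciprocal of a function bounded below by `d > 0`. -/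
theorem inv_bound {f : ℝ → ℝ} (hf : ContDiff ℝ ∞ f) (C K : ℕ)
    (h : ∀ (a : ℕ) (x : ℝ),
      |iteratedDeriv a f x| ≤ (C : ℝ) * (K : ℝ) ^ a * (a.factorial : ℝ) ^ 2)
    (d : ℝ) (hd : 0 < d) (hfd : ∀ x, d ≤ f x) (a : ℕ) :
    ∀ x : ℝ, |iteratedDeriv a (fun x => (f x)⁻¹) x|
      ≤ d⁻¹ * (((C : ℝ) / d + 1) * K) ^ a * (a.factorial : ℝ) ^ 2 := by
  have hq : ContDiff ℝ ∞ (fun x => (f x)⁻¹) := hf.inv fun x => (hd.trans_le (hfd x)).ne'
  set M : ℝ := (C : ℝ) / d + 1 with hM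
  have hM1 : 1 ≤ M := by
    have : 0 ≤ (C : ℝ) / d := div_nonneg (Nat.cast_nonneg _) hd.le
    linarith
  have hM0 : 0 ≤ M := zero_le_one.trans hM1
  have hK0 : (0 : ℝ) ≤ K := Nat.cast_nonneg _
  have hd0 : 0 ≤ d⁻¹ := inv_nonneg.mpr hd.le
  induction a using Nat.strong_induction_on with
  | _ a ih =>
    intro x
    have hfx : 0 < f x := hd.trans_le (hfd x)
    rcases Nat.eq_zero_or_pos a with rfl | ha
    · simp only [iteratedDeriv_zero, pow_zero, mul_one, Nat.factorial_zero, Nat.cast_one,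
        one_pow]
      rw [abs_of_pos (inv_pos.mpr hfx)]
      exact inv_anti₀ hd (hfd x)
    · -- Leibniz for q * f = 1
      have e := iteratedDeriv_fun_mul (GevAux.cda hq a x) (GevAux.cda hf a x)
      have e1 : (fun x => (f x)⁻¹ * f x) = fun _ => (1 : ℝ) := by
        funext y
        exact inv_mul_cancel₀ (hd.trans_le (hfd y)).ne'
      rw [e1, iteratedDeriv_const, if_neg ha.ne', Finset.sum_range_succ] at e
      simp only [Nat.choose_self, Nat.cast_one, one_mul, Nat.sub_self, iteratedDeriv_zero] at e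
      -- e : 0 = ∑ i<a, ... + q^(a) x * f x
      set S : ℝ := ∑ i ∈ Finset.range a,
        (a.choose i : ℝ) * iteratedDeriv i (fun x => (f x)⁻¹) x * iteratedDeriv (a - i) f x
        with hS
      have hSb : |S| ≤ d⁻¹ * C * (K : ℝ) ^ a * (a.factorial : ℝ) ^ 2
          * ∑ i ∈ Finset.range a, M ^ i := by
        rw [Finset.mul_sum]
        refine (Finset.abs_sum_le_sum_abs _ _).trans (Finset.sum_le_sum fun i hi => ?_)
        have hia : i < a := Finset.mem_range.mp hi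
        refine (GevAux.term_bound hia.le (ih i hia x) (h (a - i) x) hd0 (Nat.cast_nonneg _)
          (mul_nonneg hM0 hK0) hK0).trans (le_of_eq ?_)
        have hp : (K : ℝ) ^ a = (K : ℝ) ^ i * (K : ℝ) ^ (a - i) := by
          rw [← pow_add, Nat.add_sub_cancel' hia.le]
        rw [hp, mul_pow]
        ring
      have hgeo : (C : ℝ) / d * ∑ i ∈ Finset.range a, M ^ i ≤ M ^ a := by
        have := geom_sum_mul M a
        have hM' : M - 1 = (C : ℝ) / d := by rw [hM]; ring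
        rw [hM'] at this
        rw [mul_comm, this]
        linarith
      have hq1 : |iteratedDeriv a (fun x => (f x)⁻¹) x| * d ≤ |S| := by
        have e2 : iteratedDeriv a (fun x => (f x)⁻¹) x * f x = -S := by linarith
        calc |iteratedDeriv a (fun x => (f x)⁻¹) x| * d
            ≤ |iteratedDeriv a (fun x => (f x)⁻¹) x| * f x :=
              mul_le_mul_of_nonneg_left (hfd x) (abs_nonneg _)
          _ = |iteratedDeriv a (fun x => (f x)⁻¹) x * f x| := by
              rw [abs_mul, abs_of_pos hfx]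
          _ = |S| := by rw [e2, abs_neg]
      have hfin : |iteratedDeriv a (fun x => (f x)⁻¹) x| * d
          ≤ (d⁻¹ * (M * K) ^ a * (a.factorial : ℝ) ^ 2) * d := by
        refine hq1.trans (hSb.trans ?_)
        have hnn : 0 ≤ (K : ℝ) ^ a * (a.factorial : ℝ) ^ 2 := by positivity
        calc d⁻¹ * C * (K : ℝ) ^ a * (a.factorial : ℝ) ^ 2 * ∑ i ∈ Finset.range a, M ^ i
            = ((C : ℝ) / d * ∑ i ∈ Finset.range a, M ^ i)
                * ((K : ℝ) ^ a * (a.factorial : ℝ) ^ 2) := by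
              field_simp
          _ ≤ M ^ a * ((K : ℝ) ^ a * (a.factorial : ℝ) ^ 2) :=
              mul_le_mul_of_nonneg_right hgeo hnn
          _ = (d⁻¹ * (M * K) ^ a * (a.factorial : ℝ) ^ 2) * d := by
              rw [mul_pow]
              field_simp
      exact le_of_mul_le_mul_right hfin hd

end GevAux

theorem Gev.inv {f : ℝ → ℝ} (hf : Gev f) (d : ℝ) (hd : 0 < d) (h : ∀ x, d ≤ f x) :
    Gev (fun x => (f x)⁻¹) := by
  obtain ⟨hf, C, K, hb⟩ := hf
  exact GevAux.gev_of_real (hf.inv fun x => (hd.trans_le (h x)).ne') _ _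
    (fun a x => GevAux.inv_bound hf C K hb d hd h a x)

namespace GevAux

theorem iteratedDeriv_id_mul {f : ℝ → ℝ} (hf : ContDiff ℝ ∞ f) (a : ℕ) :
    iteratedDeriv a (fun x => x * f x)
      = fun x => x * iteratedDeriv a f x + (a : ℝ) * iteratedDeriv (a - 1) f x := by
  induction a with
  | zero => funext x; simp
  | succ a ih =>
    rw [iteratedDeriv_succ, ih]
    funext x
    have hda : ∀ m : ℕ, DifferentiableAt ℝ (iteratedDeriv m f) x := fun m =>
      (hf.differentiable_iteratedDeriv m (by exact_mod_cast WithTop.coe_lt_top _)) x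
    have h1 : HasDerivAt (fun x => x * iteratedDeriv a f x)
        (1 * iteratedDeriv a f x + x * iteratedDeriv (a + 1) f x) x := by
      have := (hasDerivAt_id x).mul (hda a).hasDerivAt
      rw [iteratedDeriv_succ]
      exact this
    rcases a with _ | a
    · simp only [Nat.cast_zero, zero_mul, add_zero]
      rw [h1.deriv]
      have e0 : iteratedDeriv (0 + 1 - 1) f x = f x := by
        rw [show (0 + 1 - 1 : ℕ) = 0 from rfl, iteratedDeriv_zero]
      rw [e0]
      simp only [zero_add, iteratedDeriv_one, one_mul, Nat.cast_one]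
      ring
    · have h2 : HasDerivAt (fun x => ((a + 1 : ℕ) : ℝ) * iteratedDeriv (a + 1 - 1) f x)
          (((a + 1 : ℕ) : ℝ) * iteratedDeriv (a + 1) f x) x := by
        have := ((hda a).hasDerivAt).const_mul ((a + 1 : ℕ) : ℝ)
        rw [iteratedDeriv_succ]
        simpa using this
      have h3 : HasDerivAt (fun x => x * iteratedDeriv (a + 1) f x
          + ((a + 1 : ℕ) : ℝ) * iteratedDeriv (a + 1 - 1) f x)
          (1 * iteratedDeriv (a + 1) f x + x * iteratedDeriv (a + 1 + 1) f x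
            + ((a + 1 : ℕ) : ℝ) * iteratedDeriv (a + 1) f x) x := h1.add h2
      rw [h3.deriv]
      simp only [Nat.add_sub_cancel]
      push_cast
      ring

theorem iteratedDeriv_eq_zero_of_vanish {f : ℝ → ℝ} (R : ℝ) (h : ∀ x, R < |x| → f x = 0)
    (a : ℕ) (x : ℝ) (hx : R < |x|) : iteratedDeriv a f x = 0 := by
  have hev : f =ᶠ[nhds x] (fun _ => (0 : ℝ)) := by
    have hopen : IsOpen {y : ℝ | R < |y|} := isOpen_lt continuous_const continuous_abs
    filter_upwards [hopen.mem_nhds hx] with y hy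
    exact h y hy
  rw [hev.iteratedDeriv_eq a, iteratedDeriv_fun_const_zero]

end GevAux

theorem Gev.id_mul {f : ℝ → ℝ} (hf : Gev f) (R : ℝ) (h : ∀ x, R < |x| → f x = 0) :
    Gev (fun x => x * f x) := by
  obtain ⟨hf, C, K, hb⟩ := hf
  refine GevAux.gev_of_real (contDiff_id.mul hf) ((C : ℝ) * (|R| + 1)) (max (K : ℝ) 1)
    fun a x => ?_
  rw [GevAux.iteratedDeriv_id_mul hf a]
  simp only
  have hK1 : (1 : ℝ) ≤ max (K : ℝ) 1 := le_max_right _ _
  have hKK : (K : ℝ) ≤ max (K : ℝ) 1 := le_max_left _ _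
  have hK0 : (0 : ℝ) ≤ K := Nat.cast_nonneg _
  have hC0 : (0 : ℝ) ≤ C := Nat.cast_nonneg _
  rcases lt_or_ge R |x| with hx | hx
  · rw [GevAux.iteratedDeriv_eq_zero_of_vanish R h a x hx,
      GevAux.iteratedDeriv_eq_zero_of_vanish R h (a - 1) x hx]
    simp only [mul_zero, add_zero, abs_zero]
    positivity
  · have hR : |x| ≤ |R| := hx.trans (le_abs_self R)
    have t1 : |x * iteratedDeriv a f x|
        ≤ |R| * ((C : ℝ) * (max (K : ℝ) 1) ^ a * (a.factorial : ℝ) ^ 2) := by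
      rw [abs_mul]
      have := hb a x
      have h2 : (C : ℝ) * (K : ℝ) ^ a * (a.factorial : ℝ) ^ 2
          ≤ (C : ℝ) * (max (K : ℝ) 1) ^ a * (a.factorial : ℝ) ^ 2 := by gcongr
      exact mul_le_mul hR (this.trans h2) (abs_nonneg _) (abs_nonneg _)
    have t2 : |(a : ℝ) * iteratedDeriv (a - 1) f x|
        ≤ (C : ℝ) * (max (K : ℝ) 1) ^ a * (a.factorial : ℝ) ^ 2 := by
      rcases a with _ | a
      · simp only [Nat.cast_zero, zero_mul, abs_zero]
        positivity
      · rw [abs_mul, Nat.abs_cast, Nat.add_sub_cancel]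
        have hfa : (((a + 1).factorial : ℕ) : ℝ) = ((a : ℝ) + 1) * (a.factorial : ℝ) := by
          rw [Nat.factorial_succ]; push_cast; ring
        have hpw : (K : ℝ) ^ a ≤ (max (K : ℝ) 1) ^ (a + 1) := by
          calc (K : ℝ) ^ a ≤ (max (K : ℝ) 1) ^ a := by gcongr
            _ ≤ (max (K : ℝ) 1) ^ (a + 1) := pow_le_pow_right₀ hK1 (Nat.le_succ a)
        have ha1 : (1 : ℝ) ≤ (a : ℝ) + 1 := by
          have : (0 : ℝ) ≤ a := Nat.cast_nonneg _
          linarith
        calc ((a + 1 : ℕ) : ℝ) * |iteratedDeriv a f x|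
            ≤ ((a + 1 : ℕ) : ℝ) * ((C : ℝ) * (K : ℝ) ^ a * (a.factorial : ℝ) ^ 2) := by
              gcongr
              exact hb a x
          _ = (C : ℝ) * (K : ℝ) ^ a * (((a : ℝ) + 1) * (a.factorial : ℝ) ^ 2) := by
              push_cast; ring
          _ ≤ (C : ℝ) * (max (K : ℝ) 1) ^ (a + 1)
                * (((a : ℝ) + 1) * (((a : ℝ) + 1) * (a.factorial : ℝ) ^ 2)) := by
              gcongr
              exact le_mul_of_one_le_left (by positivity) ha1
          _ = (C : ℝ) * (max (K : ℝ) 1) ^ (a + 1) * (((a + 1).factorial : ℕ) : ℝ) ^ 2 := by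
              rw [hfa]; ring
    calc |x * iteratedDeriv a f x + (a : ℝ) * iteratedDeriv (a - 1) f x|
        ≤ |x * iteratedDeriv a f x| + |(a : ℝ) * iteratedDeriv (a - 1) f x| := abs_add_le _ _
      _ ≤ |R| * ((C : ℝ) * (max (K : ℝ) 1) ^ a * (a.factorial : ℝ) ^ 2)
            + (C : ℝ) * (max (K : ℝ) 1) ^ a * (a.factorial : ℝ) ^ 2 := add_le_add t1 t2
      _ = (C : ℝ) * (|R| + 1) * (max (K : ℝ) 1) ^ a * (a.factorial : ℝ) ^ 2 := by ring

theorem Gev.deriv {f : ℝ → ℝ} (hf : Gev f) : Gev (deriv f) := by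
  obtain ⟨hf, C, K, hb⟩ := hf
  have hd : ContDiff ℝ ∞ (_root_.deriv f) := (contDiff_infty_iff_deriv.mp hf).2
  refine GevAux.gev_of_real hd ((C : ℝ) * K) (4 * K) fun a x => ?_
  rw [← iteratedDeriv_succ']
  have hfa : (((a + 1).factorial : ℕ) : ℝ) = ((a : ℝ) + 1) * (a.factorial : ℝ) := by
    rw [Nat.factorial_succ]; push_cast; ring
  have h4 : ((a : ℝ) + 1) ^ 2 ≤ 4 ^ a := by
    have h2 := GevAux.succ_le_two_pow a
    have h0 : (0 : ℝ) ≤ (a : ℝ) + 1 := by positivity
    calc ((a : ℝ) + 1) ^ 2 ≤ (2 ^ a) ^ 2 := pow_le_pow_left₀ h0 h2 2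
      _ = 4 ^ a := by rw [← pow_mul, mul_comm, pow_mul]; norm_num
  calc |iteratedDeriv (a + 1) f x|
      ≤ (C : ℝ) * (K : ℝ) ^ (a + 1) * (((a + 1).factorial : ℕ) : ℝ) ^ 2 := hb (a + 1) x
    _ = (C : ℝ) * K * (K : ℝ) ^ a * (((a : ℝ) + 1) ^ 2 * (a.factorial : ℝ) ^ 2) := by
        rw [hfa]; ring
    _ ≤ (C : ℝ) * K * (K : ℝ) ^ a * (4 ^ a * (a.factorial : ℝ) ^ 2) := by gcongr
    _ = (C : ℝ) * K * (4 * K) ^ a * (a.factorial : ℝ) ^ 2 := by rw [mul_pow]; ring

namespace GevAux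

/-- `phi k x = x⁻ᵏ * exp (-1/x)` for `x > 0`, and `0` for `x ≤ 0`. -/
noncomputable def phi (k : ℕ) (x : ℝ) : ℝ := (x⁻¹) ^ k * expNegInvGlue x

open Polynomial in
theorem phi_eq (k : ℕ) : phi k = fun x => ((X : ℝ[X]) ^ k).eval x⁻¹ * expNegInvGlue x := by
  funext x
  simp [phi]

theorem phi_contDiff (k : ℕ) : ContDiff ℝ ∞ (phi k) := by
  rw [phi_eq]
  exact expNegInvGlue.contDiff_polynomial_eval_inv_mul _

open Polynomial in
theorem phi_hasDerivAt (k : ℕ) (x : ℝ) :
    HasDerivAt (phi k) (phi (k + 2) x - (k : ℝ) * phi (k + 1) x) x := by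
  have h := expNegInvGlue.hasDerivAt_polynomial_eval_inv_mul ((X : ℝ[X]) ^ k) x
  rw [← phi_eq] at h
  convert h using 1
  rcases k with _ | k
  · simp [phi]
  · simp only [phi, derivative_X_pow, eval_mul, eval_pow, eval_X, eval_sub, eval_C,
      Nat.add_sub_cancel]
    ring

theorem deriv_phi (k : ℕ) :
    deriv (phi k) = fun x => phi (k + 2) x - (k : ℝ) * phi (k + 1) x := by
  funext x
  exact (phi_hasDerivAt k x).deriv

theorem phi_abs_le (k : ℕ) (x : ℝ) : |phi k x| ≤ (k.factorial : ℝ) := by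
  rcases le_or_gt x 0 with hx | hx
  · simp [phi, expNegInvGlue.zero_of_nonpos hx]
  · have hu : 0 < x⁻¹ := inv_pos.mpr hx
    have h1 : (x⁻¹) ^ k / (k.factorial : ℝ) ≤ Real.exp x⁻¹ :=
      Real.pow_div_factorial_le_exp _ hu.le k
    have hk : (0 : ℝ) < (k.factorial : ℝ) := by exact_mod_cast Nat.factorial_pos k
    have h2 : (x⁻¹) ^ k ≤ Real.exp x⁻¹ * (k.factorial : ℝ) := (div_le_iff₀ hk).mp h1
    have e : phi k x = (x⁻¹) ^ k * Real.exp (-x⁻¹) := by
      simp [phi, expNegInvGlue, not_le.mpr hx]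
    rw [e, abs_of_nonneg (by positivity), Real.exp_neg]
    have hE : 0 < Real.exp x⁻¹ := Real.exp_pos _
    rw [← div_eq_mul_inv, div_le_iff₀ hE]
    linarith

theorem phi_iter_bound (a : ℕ) :
    ∀ (k : ℕ) (x : ℝ), |iteratedDeriv a (phi k) x| ≤ 2 ^ a * ((k + 2 * a).factorial : ℝ) := by
  induction a with
  | zero =>
    intro k x
    simpa using phi_abs_le k x
  | succ a ih =>
    intro k x
    rw [iteratedDeriv_succ', deriv_phi]
    have e : iteratedDeriv a (fun x => phi (k + 2) x - (k : ℝ) * phi (k + 1) x) x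
        = iteratedDeriv a (phi (k + 2)) x - (k : ℝ) * iteratedDeriv a (phi (k + 1)) x := by
      have h1 : ContDiffAt ℝ a (phi (k + 2)) x := cda (phi_contDiff _) a x
      have h2 : ContDiffAt ℝ a (fun x => (k : ℝ) * phi (k + 1) x) x :=
        cda (contDiff_const.mul (phi_contDiff _)) a x
      rw [iteratedDeriv_fun_sub h1 h2, iteratedDeriv_const_mul_field]
    rw [e]
    have b1 := ih (k + 2) x
    have b2 := ih (k + 1) x
    have hf1 : ((k + 2 * (a + 1)).factorial : ℝ) = ((k + 2 + 2 * a).factorial : ℝ) := by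
      congr 2; ring
    have hf2 : (k : ℝ) * ((k + 1 + 2 * a).factorial : ℝ) ≤ ((k + 2 + 2 * a).factorial : ℝ) := by
      have : k * (k + 1 + 2 * a).factorial ≤ (k + 2 + 2 * a).factorial := by
        rw [show k + 2 + 2 * a = (k + 1 + 2 * a) + 1 by ring, Nat.factorial_succ]
        exact Nat.mul_le_mul_right _ (by omega)
      exact_mod_cast this
    have hk0 : (0 : ℝ) ≤ k := Nat.cast_nonneg _
    calc |iteratedDeriv a (phi (k + 2)) x - (k : ℝ) * iteratedDeriv a (phi (k + 1)) x|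
        ≤ |iteratedDeriv a (phi (k + 2)) x| + |(k : ℝ) * iteratedDeriv a (phi (k + 1)) x| :=
          abs_sub _ _
      _ = |iteratedDeriv a (phi (k + 2)) x| + (k : ℝ) * |iteratedDeriv a (phi (k + 1)) x| := by
          rw [abs_mul, abs_of_nonneg hk0]
      _ ≤ 2 ^ a * ((k + 2 + 2 * a).factorial : ℝ)
            + (k : ℝ) * (2 ^ a * ((k + 1 + 2 * a).factorial : ℝ)) := by
          gcongr
      _ = 2 ^ a * ((k + 2 + 2 * a).factorial : ℝ)
            + 2 ^ a * ((k : ℝ) * ((k + 1 + 2 * a).factorial : ℝ)) := by ring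
      _ ≤ 2 ^ a * ((k + 2 + 2 * a).factorial : ℝ)
            + 2 ^ a * ((k + 2 + 2 * a).factorial : ℝ) := by gcongr
      _ = 2 ^ (a + 1) * ((k + 2 * (a + 1)).factorial : ℝ) := by rw [hf1]; ring

theorem two_mul_factorial_le (a : ℕ) :
    ((2 * a).factorial : ℝ) ≤ 4 ^ a * (a.factorial : ℝ) ^ 2 := by
  have h1 : (2 * a).choose a * a.factorial * (2 * a - a).factorial = (2 * a).factorial :=
    Nat.choose_mul_factorial_mul_factorial (by omega)
  have h2 : (2 * a).choose a ≤ 2 ^ (2 * a) := Nat.choose_le_two_pow _ _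
  have h3 : (2 * a).factorial ≤ 4 ^ a * a.factorial ^ 2 := by
    rw [← h1, show 2 * a - a = a by omega, show (4 : ℕ) ^ a = 2 ^ (2 * a) by
      rw [pow_mul]; norm_num]
    calc (2 * a).choose a * a.factorial * a.factorial
        = (2 * a).choose a * a.factorial ^ 2 := by ring
      _ ≤ 2 ^ (2 * a) * a.factorial ^ 2 := Nat.mul_le_mul_right _ h2
  exact_mod_cast h3

end GevAux

theorem gev_expNegInvGlue : Gev expNegInvGlue := by
  have e : expNegInvGlue = GevAux.phi 0 := by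
    funext x
    simp [GevAux.phi]
  refine GevAux.gev_of_real expNegInvGlue.contDiff 1 8 fun a x => ?_
  rw [e]
  calc |iteratedDeriv a (GevAux.phi 0) x|
      ≤ 2 ^ a * ((0 + 2 * a).factorial : ℝ) := GevAux.phi_iter_bound a 0 x
    _ = 2 ^ a * ((2 * a).factorial : ℝ) := by rw [zero_add]
    _ ≤ 2 ^ a * (4 ^ a * (a.factorial : ℝ) ^ 2) := by
        gcongr
        exact GevAux.two_mul_factorial_le a
    _ = 1 * 8 ^ a * (a.factorial : ℝ) ^ 2 := by
        rw [show (8 : ℝ) = 2 * 4 by norm_num, mul_pow]; ring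

theorem gev_smoothTransition : Gev Real.smoothTransition := by
  have h1 : Gev (fun x => expNegInvGlue (1 - x)) := by
    have h := Gev.comp_affine (-1) 1 gev_expNegInvGlue
    have e : (fun x : ℝ => expNegInvGlue (1 - x)) = fun x => expNegInvGlue (-1 * x + 1) := by
      funext x
      congr 1
      ring
    rw [e]
    exact h
  have h2 : Gev (fun x => expNegInvGlue x + expNegInvGlue (1 - x)) := gev_expNegInvGlue.add h1
  have hd : ∀ x : ℝ, expNegInvGlue (1 / 2) ≤ expNegInvGlue x + expNegInvGlue (1 - x) := by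
    intro x
    rcases le_total (1 / 2) x with hx | hx
    · exact (expNegInvGlue.monotone hx).trans
        (le_add_of_nonneg_right (expNegInvGlue.nonneg _))
    · exact (expNegInvGlue.monotone (by linarith : (1 : ℝ) / 2 ≤ 1 - x)).trans
        (le_add_of_nonneg_left (expNegInvGlue.nonneg _))
  have h3 := Gev.inv h2 _ (expNegInvGlue.pos_of_pos (by norm_num : (0 : ℝ) < 1 / 2)) hd
  have h4 := gev_expNegInvGlue.mul h3
  have e : Real.smoothTransition
      = fun x => expNegInvGlue x * (expNegInvGlue x + expNegInvGlue (1 - x))⁻¹ := by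
    funext x
    simp [Real.smoothTransition, div_eq_mul_inv]
  rw [e]
  exact h4

end Crest.Agent.S0170
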