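import Crest.Agent.S0170.Defs

/-!
Module B1 (part): `expNegInvGlue` satisfies Gevrey-2 bounds.
With `phi k x = (x⁻¹)^k * expNegInvGlue x` one has `phi k' = phi (k+2) - k * phi (k+1)` and
`|phi k| ≤ k!`, hence `|phi k ^(a)| ≤ 2^a (k+2a)!` and `|expNegInvGlue^(a)| ≤ 8^a (a!)^2`.
Auxiliary declarations live in `namespace Crest.Agent.S0170.GevExpAux`.
-/

set_option autoImplicit false
open scoped ContDiff

namespace Crest.Agent.S0170

namespace GevExpAux

open Polynomial

/-- `phi k x = (x⁻¹)^k * expNegInvGlue x`. -/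
noncomputable def phi (k : ℕ) (x : ℝ) : ℝ := (x⁻¹) ^ k * expNegInvGlue x

theorem phi_eq (k : ℕ) :
    phi k = fun x => (X ^ k : ℝ[X]).eval x⁻¹ * expNegInvGlue x := by
  funext x
  simp [phi]

theorem phi_zero : phi 0 = expNegInvGlue := by
  funext x
  simp [phi]

theorem contDiff_phi (k : ℕ) : ContDiff ℝ ∞ (phi k) := by
  rw [phi_eq]
  exact expNegInvGlue.contDiff_polynomial_eval_inv_mul (n := ⊤) _

theorem deriv_phi (k : ℕ) :
    deriv (phi k) = fun x => phi (k + 2) x - (k : ℝ) * phi (k + 1) x := by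
  funext x
  rw [phi_eq, (expNegInvGlue.hasDerivAt_polynomial_eval_inv_mul (X ^ k) x).deriv]
  cases k with
  | zero => simp [phi]
  | succ k =>
    simp only [phi, derivative_X_pow, eval_mul, eval_pow, eval_X, eval_sub, eval_natCast,
      Nat.add_sub_cancel, Nat.cast_add, Nat.cast_one, map_add, map_natCast, map_one, eval_add,
      eval_one]
    ring

theorem abs_phi_le (k : ℕ) (x : ℝ) : |phi k x| ≤ (k.factorial : ℝ) := by
  have hk : (0 : ℝ) < (k.factorial : ℝ) := by exact_mod_cast k.factorial_pos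
  rcases le_or_gt x 0 with hx | hx
  · rw [phi, expNegInvGlue.zero_of_nonpos hx, mul_zero, abs_zero]
    exact hk.le
  · have hu : 0 < x⁻¹ := inv_pos.mpr hx
    have he : expNegInvGlue x = Real.exp (-x⁻¹) := by
      simp [expNegInvGlue, not_le.mpr hx]
    rw [phi, he, abs_of_nonneg (mul_nonneg (pow_nonneg hu.le _) (Real.exp_pos _).le)]
    have h1 := Real.pow_div_factorial_le_exp x⁻¹ hu.le k
    rw [div_le_iff₀ hk] at h1
    rw [Real.exp_neg]
    rw [← div_eq_mul_inv, div_le_iff₀ (Real.exp_pos _)]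
    linarith [mul_comm (Real.exp x⁻¹) (k.factorial : ℝ)]

theorem abs_iteratedDeriv_phi_le (a : ℕ) : ∀ (k : ℕ) (x : ℝ),
    |iteratedDeriv a (phi k) x| ≤ 2 ^ a * ((k + 2 * a).factorial : ℝ) := by
  induction a with
  | zero =>
    intro k x
    simpa using abs_phi_le k x
  | succ a ih =>
    intro k x
    have h1 : ContDiffAt ℝ a (phi (k + 2)) x :=
      ((contDiff_phi (k + 2)).of_le (by exact_mod_cast le_top)).contDiffAt
    have h2 : ContDiffAt ℝ a (phi (k + 1)) x :=
      ((contDiff_phi (k + 1)).of_le (by exact_mod_cast le_top)).contDiffAt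
    have h3 : ContDiffAt ℝ a (fun y => (k : ℝ) * phi (k + 1) y) x :=
      contDiffAt_const.mul h2
    rw [iteratedDeriv_succ', deriv_phi, iteratedDeriv_fun_sub h1 h3,
      iteratedDeriv_const_mul (k : ℝ) h2]
    have hA := ih (k + 2) x
    have hB := ih (k + 1) x
    have e1 : k + 2 + 2 * a = k + 2 * (a + 1) := by ring
    have e2 : k + 2 * (a + 1) = (k + 1 + 2 * a) + 1 := by ring
    rw [e1] at hA
    have hfac : ((k + 2 * (a + 1)).factorial : ℝ) =
        ((k + 1 + 2 * a : ℕ) + 1 : ℝ) * ((k + 1 + 2 * a).factorial : ℝ) := by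
      rw [e2, Nat.factorial_succ]
      push_cast
      ring
    have hf0 : (0 : ℝ) ≤ ((k + 1 + 2 * a).factorial : ℝ) := by positivity
    have hk0 : (0 : ℝ) ≤ (k : ℝ) := by positivity
    have h2a : (0 : ℝ) < 2 ^ a := by positivity
    have hkB : (k : ℝ) * |iteratedDeriv a (phi (k + 1)) x| ≤
        2 ^ a * ((k + 2 * (a + 1)).factorial : ℝ) := by
      calc (k : ℝ) * |iteratedDeriv a (phi (k + 1)) x|
          ≤ (k : ℝ) * (2 ^ a * ((k + 1 + 2 * a).factorial : ℝ)) :=
            mul_le_mul_of_nonneg_left hB hk0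
        _ = 2 ^ a * ((k : ℝ) * ((k + 1 + 2 * a).factorial : ℝ)) := by ring
        _ ≤ 2 ^ a * ((k + 2 * (a + 1)).factorial : ℝ) := by
            apply mul_le_mul_of_nonneg_left _ h2a.le
            rw [hfac]
            apply mul_le_mul_of_nonneg_right _ hf0
            push_cast
            linarith [show (0 : ℝ) ≤ (a : ℝ) by positivity]
    calc |iteratedDeriv a (phi (k + 2)) x - (k : ℝ) * iteratedDeriv a (phi (k + 1)) x|
        ≤ |iteratedDeriv a (phi (k + 2)) x| + |(k : ℝ) * iteratedDeriv a (phi (k + 1)) x| :=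
          abs_sub _ _
      _ = |iteratedDeriv a (phi (k + 2)) x| + (k : ℝ) * |iteratedDeriv a (phi (k + 1)) x| := by
          rw [abs_mul, abs_of_nonneg hk0]
      _ ≤ 2 ^ a * ((k + 2 * (a + 1)).factorial : ℝ) +
            2 ^ a * ((k + 2 * (a + 1)).factorial : ℝ) := add_le_add hA hkB
      _ = 2 ^ (a + 1) * ((k + 2 * (a + 1)).factorial : ℝ) := by ring

theorem factorial_two_mul_le (a : ℕ) : (2 * a).factorial ≤ 4 ^ a * a.factorial ^ 2 := by
  have h := Nat.choose_mul_factorial_mul_factorial (show a ≤ 2 * a by omega)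
  have h2 : 2 * a - a = a := by omega
  rw [h2] at h
  have h3 : (2 * a).choose a ≤ 4 ^ a := by
    calc (2 * a).choose a ≤ 2 ^ (2 * a) := Nat.choose_le_two_pow _ _
      _ = 4 ^ a := by rw [pow_mul]; norm_num
  calc (2 * a).factorial = (2 * a).choose a * a.factorial * a.factorial := h.symm
    _ = (2 * a).choose a * a.factorial ^ 2 := by ring
    _ ≤ 4 ^ a * a.factorial ^ 2 := Nat.mul_le_mul_right _ h3

/-- `expNegInvGlue` has Gevrey-2 bounds with constants `C = 1`, `K = 8`. -/
theorem gev_expNegInvGlue_aux : Gev expNegInvGlue := by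
  refine ⟨expNegInvGlue.contDiff (n := ⊤), 1, 8, fun a x => ?_⟩
  have h := abs_iteratedDeriv_phi_le a 0 x
  rw [phi_zero, zero_add] at h
  have h2 : ((2 * a).factorial : ℝ) ≤ 4 ^ a * (a.factorial : ℝ) ^ 2 := by
    exact_mod_cast factorial_two_mul_le a
  calc |iteratedDeriv a expNegInvGlue x| ≤ 2 ^ a * ((2 * a).factorial : ℝ) := h
    _ ≤ 2 ^ a * (4 ^ a * (a.factorial : ℝ) ^ 2) :=
        mul_le_mul_of_nonneg_left h2 (by positivity)
    _ = ((1 : ℕ) : ℝ) * ((8 : ℕ) : ℝ) ^ a * (a.factorial : ℝ) ^ 2 := by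
        have : ((8 : ℕ) : ℝ) ^ a = 2 ^ a * 4 ^ a := by
          rw [← mul_pow]; norm_num
        rw [this]
        push_cast
        ring

end GevExpAux

end Crest.Agent.S0170
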