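import Crest.Agent.S0170.Defs

/-!
Primitive-recursive arithmetic on coded rationals `ℕ × ℕ × ℕ` (value `(p - m) / (d + 1)`).
-/

set_option autoImplicit false

namespace Crest.Agent.S0170

/-- coded rationals -/
abbrev NQ : Type := ℕ × ℕ × ℕ

namespace NQ

def add (x y : NQ) : NQ :=
  (x.1 * (y.2.2 + 1) + y.1 * (x.2.2 + 1), x.2.1 * (y.2.2 + 1) + y.2.1 * (x.2.2 + 1),
    (x.2.2 + 1) * (y.2.2 + 1) - 1)

def neg (x : NQ) : NQ := (x.2.1, x.1, x.2.2)

def sub (x y : NQ) : NQ := add x (neg y)

def mul (x y : NQ) : NQ :=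
  (x.1 * y.1 + x.2.1 * y.2.1, x.1 * y.2.1 + x.2.1 * y.1, (x.2.2 + 1) * (y.2.2 + 1) - 1)

/-- the natural number `k` -/
def ofNat (k : ℕ) : NQ := (k, 0, 0)

/-- `1 / (k + 1)` -/
def invSucc (k : ℕ) : NQ := (1, 0, k)

/-- `x ≤ y` as a Boolean -/
def le (x y : NQ) : Bool :=
  decide (x.1 * (y.2.2 + 1) + y.2.1 * (x.2.2 + 1) ≤ y.1 * (x.2.2 + 1) + x.2.1 * (y.2.2 + 1))

/-- `x < y` as a Boolean -/
def lt (x y : NQ) : Bool :=
  decide (x.1 * (y.2.2 + 1) + y.2.1 * (x.2.2 + 1) < y.1 * (x.2.2 + 1) + x.2.1 * (y.2.2 + 1))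

def max (x y : NQ) : NQ := if le x y then y else x

def min (x y : NQ) : NQ := if le x y then x else y

def abs (x : NQ) : NQ := if x.2.1 ≤ x.1 then x else neg x

/-- inverse; correct when the value is positive (junk `0` otherwise) -/
def inv (x : NQ) : NQ := if x.2.1 < x.1 then (x.2.2 + 1, 0, x.1 - x.2.1 - 1) else (0, 0, 0)

theorem nqVal_add (x y : NQ) : nqVal (add x y) = nqVal x + nqVal y := by
  obtain ⟨p, m, d⟩ := x; obtain ⟨p', m', d'⟩ := y
  simp only [nqVal, add]
  have h : ((d + 1) * (d' + 1) - 1 : ℕ) + 1 = (d + 1) * (d' + 1) := by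
    have : 0 < (d + 1) * (d' + 1) := by positivity
    omega
  have h' : (((d + 1) * (d' + 1) - 1 : ℕ) : ℚ) + 1 = ((d : ℚ) + 1) * ((d' : ℚ) + 1) := by
    exact_mod_cast h
  rw [h']; push_cast; field_simp; ring

theorem nqVal_neg (x : NQ) : nqVal (neg x) = - nqVal x := by
  obtain ⟨p, m, d⟩ := x
  simp only [nqVal, neg]; ring

theorem nqVal_sub (x y : NQ) : nqVal (sub x y) = nqVal x - nqVal y := by
  simp [sub, nqVal_add, nqVal_neg, sub_eq_add_neg]

theorem nqVal_mul (x y : NQ) : nqVal (mul x y) = nqVal x * nqVal y := by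
  obtain ⟨p, m, d⟩ := x; obtain ⟨p', m', d'⟩ := y
  simp only [nqVal, mul]
  have h : ((d + 1) * (d' + 1) - 1 : ℕ) + 1 = (d + 1) * (d' + 1) := by
    have : 0 < (d + 1) * (d' + 1) := by positivity
    omega
  have h' : (((d + 1) * (d' + 1) - 1 : ℕ) : ℚ) + 1 = ((d : ℚ) + 1) * ((d' : ℚ) + 1) := by
    exact_mod_cast h
  rw [h']; push_cast; field_simp; ring

theorem nqVal_ofNat (k : ℕ) : nqVal (ofNat k) = k := by simp [nqVal, ofNat]

theorem nqVal_invSucc (k : ℕ) : nqVal (invSucc k) = 1 / ((k : ℚ) + 1) := by simp [nqVal, invSucc]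

theorem le_iff (x y : NQ) : le x y = true ↔ nqVal x ≤ nqVal y := by
  obtain ⟨p, m, d⟩ := x; obtain ⟨p', m', d'⟩ := y
  simp only [nqVal, le, decide_eq_true_eq]
  have hd : (0 : ℚ) < (d : ℚ) + 1 := by positivity
  have hd' : (0 : ℚ) < (d' : ℚ) + 1 := by positivity
  rw [div_le_div_iff₀ hd hd']
  constructor
  · intro h
    have : ((p * (d' + 1) + m' * (d + 1) : ℕ) : ℚ) ≤ ((p' * (d + 1) + m * (d' + 1) : ℕ) : ℚ) := by
      exact_mod_cast h
    push_cast at this; linarith
  · intro h
    have : ((p * (d' + 1) + m' * (d + 1) : ℕ) : ℚ) ≤ ((p' * (d + 1) + m * (d' + 1) : ℕ) : ℚ) := by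
      push_cast; linarith
    exact_mod_cast this

theorem lt_iff (x y : NQ) : lt x y = true ↔ nqVal x < nqVal y := by
  obtain ⟨p, m, d⟩ := x; obtain ⟨p', m', d'⟩ := y
  simp only [nqVal, lt, decide_eq_true_eq]
  have hd : (0 : ℚ) < (d : ℚ) + 1 := by positivity
  have hd' : (0 : ℚ) < (d' : ℚ) + 1 := by positivity
  rw [div_lt_div_iff₀ hd hd']
  constructor
  · intro h
    have : ((p * (d' + 1) + m' * (d + 1) : ℕ) : ℚ) < ((p' * (d + 1) + m * (d' + 1) : ℕ) : ℚ) := by
      exact_mod_cast h
    push_cast at this; linarith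
  · intro h
    have : ((p * (d' + 1) + m' * (d + 1) : ℕ) : ℚ) < ((p' * (d + 1) + m * (d' + 1) : ℕ) : ℚ) := by
      push_cast; linarith
    exact_mod_cast this

theorem nqVal_max (x y : NQ) : nqVal (max x y) = Max.max (nqVal x) (nqVal y) := by
  unfold max
  by_cases h : le x y = true
  · rw [if_pos h]; exact (max_eq_right ((le_iff x y).1 h)).symm
  · rw [if_neg h]
    have : ¬ nqVal x ≤ nqVal y := fun h' => h ((le_iff x y).2 h')
    exact (max_eq_left (le_of_lt (not_le.1 this))).symm

theorem nqVal_min (x y : NQ) : nqVal (min x y) = Min.min (nqVal x) (nqVal y) := by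
  unfold min
  by_cases h : le x y = true
  · rw [if_pos h]; exact (min_eq_left ((le_iff x y).1 h)).symm
  · rw [if_neg h]
    have : ¬ nqVal x ≤ nqVal y := fun h' => h ((le_iff x y).2 h')
    exact (min_eq_right (le_of_lt (not_le.1 this))).symm

theorem nqVal_abs (x : NQ) : nqVal (abs x) = |nqVal x| := by
  obtain ⟨p, m, d⟩ := x
  have hd : (0 : ℚ) < (d : ℚ) + 1 := by positivity
  unfold abs
  by_cases h : m ≤ p
  · rw [if_pos h]
    have : 0 ≤ nqVal (p, m, d) := by
      simp only [nqVal]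
      have : (m : ℚ) ≤ p := by exact_mod_cast h
      exact div_nonneg (by linarith) hd.le
    rw [abs_of_nonneg this]
  · rw [if_neg h, nqVal_neg]
    have : nqVal (p, m, d) ≤ 0 := by
      simp only [nqVal]
      have : (p : ℚ) ≤ m := by exact_mod_cast (not_le.1 h).le
      exact div_nonpos_of_nonpos_of_nonneg (by linarith) hd.le
    rw [abs_of_nonpos this]

theorem nqVal_inv (x : NQ) (hx : 0 < nqVal x) : nqVal (inv x) = (nqVal x)⁻¹ := by
  obtain ⟨p, m, d⟩ := x
  have hd : (0 : ℚ) < (d : ℚ) + 1 := by positivity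
  have hpm : m < p := by
    by_contra h
    have : (p : ℚ) ≤ m := by exact_mod_cast (not_lt.1 h)
    have : nqVal (p, m, d) ≤ 0 := by
      simp only [nqVal]
      exact div_nonpos_of_nonpos_of_nonneg (by linarith) hd.le
    linarith
  unfold inv
  rw [if_pos hpm]
  simp only [nqVal]
  have h1 : ((p - m - 1 : ℕ) : ℚ) + 1 = (p : ℚ) - m := by
    have : (p - m - 1 : ℕ) + 1 = p - m := by omega
    have h2 : (((p - m - 1 : ℕ) + 1 : ℕ) : ℚ) = ((p - m : ℕ) : ℚ) := by rw [this]
    rw [Nat.cast_sub hpm.le] at h2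
    push_cast at h2 ⊢
    linarith
  rw [h1]
  have : (p : ℚ) - m ≠ 0 := by
    have : (m : ℚ) < p := by exact_mod_cast hpm
    linarith
  push_cast
  field_simp
  ring

/-- every rational has a code -/
theorem exists_nqVal_eq (q : ℚ) : ∃ r : NQ, nqVal r = q := by
  refine ⟨(q.num.toNat, (-q.num).toNat, q.den - 1), ?_⟩
  simp only [nqVal]
  have hden : ((q.den - 1 : ℕ) : ℚ) + 1 = q.den := by
    have : (q.den - 1 : ℕ) + 1 = q.den := Nat.sub_add_cancel q.pos
    exact_mod_cast this
  rw [hden]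
  have hnum : ((q.num.toNat : ℚ) - ((-q.num).toNat : ℚ)) = q.num := by
    have := Int.toNat_sub_toNat_neg q.num
    have h2 : ((q.num.toNat : ℤ) - ((-q.num).toNat : ℤ) : ℤ) = q.num := this
    have h3 : (((q.num.toNat : ℤ) - ((-q.num).toNat : ℤ) : ℤ) : ℚ) = (q.num : ℚ) := by rw [h2]
    push_cast at h3
    exact h3
  rw [hnum]
  exact Rat.num_div_den q

/-! ### primitive recursiveness -/

section prim
variable {α : Type*} [Primcodable α]

theorem primrec_add' {f g : α → NQ} (hf : Primrec f) (hg : Primrec g) :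
    Primrec fun a => add (f a) (g a) := by
  have f1 : Primrec fun a => (f a).1 := Primrec.fst.comp hf
  have f2 : Primrec fun a => (f a).2.1 := Primrec.fst.comp (Primrec.snd.comp hf)
  have f3 : Primrec fun a => (f a).2.2 + 1 := Primrec.succ.comp (Primrec.snd.comp (Primrec.snd.comp hf))
  have g1 : Primrec fun a => (g a).1 := Primrec.fst.comp hg
  have g2 : Primrec fun a => (g a).2.1 := Primrec.fst.comp (Primrec.snd.comp hg)
  have g3 : Primrec fun a => (g a).2.2 + 1 := Primrec.succ.comp (Primrec.snd.comp (Primrec.snd.comp hg))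
  unfold add
  exact Primrec.pair (Primrec.nat_add.comp (Primrec.nat_mul.comp f1 g3) (Primrec.nat_mul.comp g1 f3))
    (Primrec.pair (Primrec.nat_add.comp (Primrec.nat_mul.comp f2 g3) (Primrec.nat_mul.comp g2 f3))
      (Primrec.nat_sub.comp (Primrec.nat_mul.comp f3 g3) (Primrec.const 1)))

theorem primrec_neg' {f : α → NQ} (hf : Primrec f) : Primrec fun a => neg (f a) := by
  unfold neg
  exact Primrec.pair (Primrec.fst.comp (Primrec.snd.comp hf))
    (Primrec.pair (Primrec.fst.comp hf) (Primrec.snd.comp (Primrec.snd.comp hf)))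

theorem primrec_sub' {f g : α → NQ} (hf : Primrec f) (hg : Primrec g) :
    Primrec fun a => sub (f a) (g a) := by
  unfold sub
  exact primrec_add' hf (primrec_neg' hg)

theorem primrec_mul' {f g : α → NQ} (hf : Primrec f) (hg : Primrec g) :
    Primrec fun a => mul (f a) (g a) := by
  have f1 : Primrec fun a => (f a).1 := Primrec.fst.comp hf
  have f2 : Primrec fun a => (f a).2.1 := Primrec.fst.comp (Primrec.snd.comp hf)
  have f3 : Primrec fun a => (f a).2.2 + 1 := Primrec.succ.comp (Primrec.snd.comp (Primrec.snd.comp hf))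
  have g1 : Primrec fun a => (g a).1 := Primrec.fst.comp hg
  have g2 : Primrec fun a => (g a).2.1 := Primrec.fst.comp (Primrec.snd.comp hg)
  have g3 : Primrec fun a => (g a).2.2 + 1 := Primrec.succ.comp (Primrec.snd.comp (Primrec.snd.comp hg))
  unfold mul
  exact Primrec.pair (Primrec.nat_add.comp (Primrec.nat_mul.comp f1 g1) (Primrec.nat_mul.comp f2 g2))
    (Primrec.pair (Primrec.nat_add.comp (Primrec.nat_mul.comp f1 g2) (Primrec.nat_mul.comp f2 g1))
      (Primrec.nat_sub.comp (Primrec.nat_mul.comp f3 g3) (Primrec.const 1)))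

theorem primrec_ofNat' {f : α → ℕ} (hf : Primrec f) : Primrec fun a => ofNat (f a) := by
  unfold ofNat
  exact Primrec.pair hf (Primrec.const (0, 0))

theorem primrec_invSucc' {f : α → ℕ} (hf : Primrec f) : Primrec fun a => invSucc (f a) := by
  unfold invSucc
  exact Primrec.pair (Primrec.const 1) (Primrec.pair (Primrec.const 0) hf)

theorem primrec_le' {f g : α → NQ} (hf : Primrec f) (hg : Primrec g) :
    Primrec fun a => le (f a) (g a) := by
  have f1 : Primrec fun a => (f a).1 := Primrec.fst.comp hf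
  have f2 : Primrec fun a => (f a).2.1 := Primrec.fst.comp (Primrec.snd.comp hf)
  have f3 : Primrec fun a => (f a).2.2 + 1 := Primrec.succ.comp (Primrec.snd.comp (Primrec.snd.comp hf))
  have g1 : Primrec fun a => (g a).1 := Primrec.fst.comp hg
  have g2 : Primrec fun a => (g a).2.1 := Primrec.fst.comp (Primrec.snd.comp hg)
  have g3 : Primrec fun a => (g a).2.2 + 1 := Primrec.succ.comp (Primrec.snd.comp (Primrec.snd.comp hg))
  unfold le
  exact (Primrec.nat_le.comp (Primrec.nat_add.comp (Primrec.nat_mul.comp f1 g3) (Primrec.nat_mul.comp g2 f3))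
    (Primrec.nat_add.comp (Primrec.nat_mul.comp g1 f3) (Primrec.nat_mul.comp f2 g3))).decide

theorem primrec_lt' {f g : α → NQ} (hf : Primrec f) (hg : Primrec g) :
    Primrec fun a => lt (f a) (g a) := by
  have f1 : Primrec fun a => (f a).1 := Primrec.fst.comp hf
  have f2 : Primrec fun a => (f a).2.1 := Primrec.fst.comp (Primrec.snd.comp hf)
  have f3 : Primrec fun a => (f a).2.2 + 1 := Primrec.succ.comp (Primrec.snd.comp (Primrec.snd.comp hf))
  have g1 : Primrec fun a => (g a).1 := Primrec.fst.comp hg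
  have g2 : Primrec fun a => (g a).2.1 := Primrec.fst.comp (Primrec.snd.comp hg)
  have g3 : Primrec fun a => (g a).2.2 + 1 := Primrec.succ.comp (Primrec.snd.comp (Primrec.snd.comp hg))
  unfold lt
  exact (Primrec.nat_lt.comp (Primrec.nat_add.comp (Primrec.nat_mul.comp f1 g3) (Primrec.nat_mul.comp g2 f3))
    (Primrec.nat_add.comp (Primrec.nat_mul.comp g1 f3) (Primrec.nat_mul.comp f2 g3))).decide

theorem primrec_max' {f g : α → NQ} (hf : Primrec f) (hg : Primrec g) :
    Primrec fun a => max (f a) (g a) := by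
  unfold max
  exact Primrec.ite (Primrec.eq.comp (primrec_le' hf hg) (Primrec.const true)) hg hf

theorem primrec_min' {f g : α → NQ} (hf : Primrec f) (hg : Primrec g) :
    Primrec fun a => min (f a) (g a) := by
  unfold min
  exact Primrec.ite (Primrec.eq.comp (primrec_le' hf hg) (Primrec.const true)) hf hg

theorem primrec_abs' {f : α → NQ} (hf : Primrec f) : Primrec fun a => abs (f a) := by
  unfold abs
  exact Primrec.ite (Primrec.nat_le.comp (Primrec.fst.comp (Primrec.snd.comp hf)) (Primrec.fst.comp hf))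
    hf (primrec_neg' hf)

theorem primrec_inv' {f : α → NQ} (hf : Primrec f) : Primrec fun a => inv (f a) := by
  have f1 : Primrec fun a => (f a).1 := Primrec.fst.comp hf
  have f2 : Primrec fun a => (f a).2.1 := Primrec.fst.comp (Primrec.snd.comp hf)
  have f3 : Primrec fun a => (f a).2.2 + 1 := Primrec.succ.comp (Primrec.snd.comp (Primrec.snd.comp hf))
  unfold inv
  exact Primrec.ite (Primrec.nat_lt.comp f2 f1)
    (Primrec.pair f3 (Primrec.pair (Primrec.const 0)
      (Primrec.nat_sub.comp (Primrec.nat_sub.comp f1 f2) (Primrec.const 1))))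
    (Primrec.const (0, 0, 0))

end prim

theorem primrec_add : Primrec₂ add := primrec_add' Primrec.fst Primrec.snd
theorem primrec_neg : Primrec neg := primrec_neg' Primrec.id
theorem primrec_sub : Primrec₂ sub := primrec_sub' Primrec.fst Primrec.snd
theorem primrec_mul : Primrec₂ mul := primrec_mul' Primrec.fst Primrec.snd
theorem primrec_ofNat : Primrec ofNat := primrec_ofNat' Primrec.id
theorem primrec_invSucc : Primrec invSucc := primrec_invSucc' Primrec.id
theorem primrec_le : Primrec₂ le := primrec_le' Primrec.fst Primrec.snd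
theorem primrec_lt : Primrec₂ lt := primrec_lt' Primrec.fst Primrec.snd
theorem primrec_max : Primrec₂ max := primrec_max' Primrec.fst Primrec.snd
theorem primrec_min : Primrec₂ min := primrec_min' Primrec.fst Primrec.snd
theorem primrec_abs : Primrec abs := primrec_abs' Primrec.id
theorem primrec_inv : Primrec inv := primrec_inv' Primrec.id

end NQ

end Crest.Agent.S0170
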