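import Crest.Agent.S0170.NQ

/-!
Module A: computability of the conversions between Mathlib's `ℚ` (with its `Primcodable`
instance `Primcodable.ofDenumerable ℚ`) and coded rationals `ℕ × ℕ × ℕ`.
Auxiliary declarations go into `namespace Crest.Agent.S0170.RatCode`.
-/

set_option autoImplicit false

namespace Crest.Agent.S0170

namespace RatCode

open Encodable Denumerable

/-! ### `Nat.gcd` is primitive recursive -/

theorem gcd_eq_findGreatest (a b : ℕ) :
    Nat.findGreatest (fun k => k ∣ a ∧ k ∣ b) (a + b) = Nat.gcd a b := by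
  rw [Nat.findGreatest_eq_iff]
  refine ⟨?_, fun _ => ⟨Nat.gcd_dvd_left a b, Nat.gcd_dvd_right a b⟩, ?_⟩
  · rcases Nat.eq_zero_or_pos a with rfl | ha
    · simp
    · exact (Nat.gcd_le_left b ha).trans (Nat.le_add_right a b)
  · rintro n hn hnk ⟨h1, h2⟩
    have hdvd : n ∣ Nat.gcd a b := Nat.dvd_gcd h1 h2
    rcases Nat.eq_zero_or_pos (Nat.gcd a b) with h0 | hpos
    · have ha : a = 0 := Nat.eq_zero_of_gcd_eq_zero_left h0
      have hb : b = 0 := Nat.eq_zero_of_gcd_eq_zero_right h0
      subst ha hb; omega
    · exact absurd (Nat.le_of_dvd hpos hdvd) (not_le.2 hn)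

theorem primrec_gcd : Primrec₂ Nat.gcd := by
  have hrel : PrimrecRel (fun (x : ℕ × ℕ) (k : ℕ) => k ∣ x.1 ∧ k ∣ x.2) := by
    have h : PrimrecRel (fun (x : ℕ × ℕ) (k : ℕ) => x.1 % k = 0 ∧ x.2 % k = 0) :=
      PrimrecPred.and
        (Primrec.eq.comp (Primrec.nat_mod.comp (Primrec.fst.comp Primrec.fst) Primrec.snd)
          (Primrec.const 0))
        (Primrec.eq.comp (Primrec.nat_mod.comp (Primrec.snd.comp Primrec.fst) Primrec.snd)
          (Primrec.const 0))
    exact h.of_eq (fun x k => by simp [Nat.dvd_iff_mod_eq_zero])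
  have := Primrec.nat_findGreatest (f := fun x : ℕ × ℕ => x.1 + x.2)
    (p := fun x k => k ∣ x.1 ∧ k ∣ x.2) (Primrec.nat_add.comp Primrec.fst Primrec.snd) hrel
  exact this.of_eq (fun x => gcd_eq_findGreatest x.1 x.2)

/-! ### raw codes -/

/-- raw code of a rational (Mathlib's `Rat.instEncodable`) -/
def raw (q : ℚ) : ℕ := @Encodable.encode ℚ Rat.instEncodable q

theorem raw_eq (q : ℚ) : raw q = Nat.pair (Encodable.encode q.num) q.den := rfl

theorem encode_int_ofNat (n : ℕ) : Encodable.encode (Int.ofNat n) = 2 * n := rfl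

theorem encode_int_negSucc (n : ℕ) : Encodable.encode (Int.negSucc n) = 2 * n + 1 := rfl

/-- the set of raw codes -/
abbrev S : Set ℕ := Set.range (@Encodable.encode ℚ Rat.instEncodable)

instance instDecS : DecidablePred (· ∈ S) := Encodable.decidableRangeEncode ℚ

instance instInfS : Infinite S :=
  Infinite.of_injective _
    (Equiv.ofInjective _ (@Encodable.encode_injective ℚ Rat.instEncodable)).injective

/-- the enumeration of raw codes in increasing order -/
def g (n : ℕ) : ℕ := (Nat.Subtype.ofNat S n : ℕ)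

/-- the dense code of a rational (the one used by `Primcodable ℚ`) -/
def enc (q : ℚ) : ℕ := @Encodable.encode ℚ (Primcodable.ofDenumerable ℚ).toEncodable q

theorem ofNat_eq (n : ℕ) :
    Denumerable.ofNat ℚ n = (Encodable.equivRangeEncode ℚ).symm (Nat.Subtype.ofNat S n) := rfl

theorem raw_ofNat (n : ℕ) : raw (Denumerable.ofNat ℚ n) = g n := by
  rw [ofNat_eq]
  have := (Encodable.equivRangeEncode ℚ).apply_symm_apply (Nat.Subtype.ofNat S n)
  exact congrArg Subtype.val this

theorem g_mem (n : ℕ) : g n ∈ S := (Nat.Subtype.ofNat S n).2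

theorem enc_eq (q : ℚ) : enc q = (List.range (raw q)).countP (· ∈ S) := rfl

theorem enc_ofNat (n : ℕ) : enc (Denumerable.ofNat ℚ n) = n := Denumerable.encode_ofNat n

theorem ofNat_enc (q : ℚ) : Denumerable.ofNat ℚ (enc q) = q := Denumerable.ofNat_encode q

theorem g_enc (q : ℚ) : g (enc q) = raw q := by
  rw [← raw_ofNat, ofNat_enc]

/-! ### membership in the set of raw codes is primitive recursive -/

/-- absolute value of the integer coded by `z` -/
def absOf (z : ℕ) : ℕ := if z % 2 = 0 then z / 2 else z / 2 + 1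

/-- Boolean membership test for the set of raw codes -/
def inSb (m : ℕ) : Bool :=
  decide (0 < (Nat.unpair m).2 ∧ Nat.gcd (absOf (Nat.unpair m).1) (Nat.unpair m).2 = 1)

theorem absOf_encode (z : ℤ) : absOf (Encodable.encode z) = z.natAbs := by
  cases z with
  | ofNat n =>
    rw [encode_int_ofNat]; unfold absOf
    have : 2 * n % 2 = 0 := by omega
    rw [if_pos this]; simp
  | negSucc n =>
    rw [encode_int_negSucc]; unfold absOf
    have : ¬ ((2 * n + 1) % 2 = 0) := by omega
    rw [if_neg this]
    have : (2 * n + 1) / 2 = n := by omega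
    rw [this]; rfl

theorem inSb_iff (m : ℕ) : inSb m = true ↔ m ∈ S := by
  unfold inSb
  rw [decide_eq_true_eq]
  constructor
  · rintro ⟨hd, hg⟩
    set z := (Nat.unpair m).1 with hz
    set d := (Nat.unpair m).2 with hd'
    obtain ⟨num, hnum⟩ : ∃ num : ℤ, Encodable.encode num = z := by
      rcases Nat.mod_two_eq_zero_or_one z with h | h
      · exact ⟨Int.ofNat (z / 2), by rw [encode_int_ofNat]; omega⟩
      · exact ⟨Int.negSucc (z / 2), by rw [encode_int_negSucc]; omega⟩
    have hcop : num.natAbs.Coprime d := by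
      rw [← absOf_encode, hnum]; exact hg
    refine ⟨⟨num, d, hd.ne', hcop⟩, ?_⟩
    show Nat.pair (Encodable.encode num) d = m
    rw [hnum, hz, hd', Nat.pair_unpair]
  · rintro ⟨q, rfl⟩
    show 0 < (Nat.unpair (Nat.pair (Encodable.encode q.num) q.den)).2 ∧
      Nat.gcd (absOf (Nat.unpair (Nat.pair (Encodable.encode q.num) q.den)).1)
        (Nat.unpair (Nat.pair (Encodable.encode q.num) q.den)).2 = 1
    rw [Nat.unpair_pair]
    exact ⟨q.pos, by rw [absOf_encode]; exact q.reduced⟩

theorem primrec_absOf : Primrec absOf := by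
  unfold absOf
  exact Primrec.ite
    (Primrec.eq.comp (Primrec.nat_mod.comp Primrec.id (Primrec.const 2)) (Primrec.const 0))
    (Primrec.nat_div.comp Primrec.id (Primrec.const 2))
    (Primrec.succ.comp (Primrec.nat_div.comp Primrec.id (Primrec.const 2)))

theorem primrec_inSb : Primrec inSb := by
  have h1 : Primrec fun m : ℕ => (Nat.unpair m).1 := Primrec.fst.comp Primrec.unpair
  have h2 : Primrec fun m : ℕ => (Nat.unpair m).2 := Primrec.snd.comp Primrec.unpair
  have hp : PrimrecPred fun m : ℕ =>
      0 < (Nat.unpair m).2 ∧ Nat.gcd (absOf (Nat.unpair m).1) (Nat.unpair m).2 = 1 :=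
    PrimrecPred.and (Primrec.nat_lt.comp (Primrec.const 0) h2)
      (Primrec.eq.comp (primrec_gcd.comp (primrec_absOf.comp h1) h2) (Primrec.const 1))
  exact hp.decide

/-- number of raw codes below `m` -/
def cnt (m : ℕ) : ℕ := ((List.range m).filter fun k => inSb k).length

theorem primrec_cnt : Primrec cnt := by
  unfold cnt
  have hp : PrimrecPred fun k : ℕ => inSb k = true :=
    Primrec.eq.comp primrec_inSb (Primrec.const true)
  have := Primrec.list_length.comp ((Primrec.listFilter hp).comp Primrec.list_range)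
  exact this.of_eq (fun m => by simp)

theorem cnt_raw (q : ℚ) : cnt (raw q) = enc q := by
  rw [enc_eq, cnt, List.countP_eq_length_filter]
  congr 1
  apply List.filter_congr
  intro k _
  by_cases h : k ∈ S
  · simp [h, (inSb_iff k).2 h]
  · have : inSb k = false := by
      cases hb : inSb k with
      | false => rfl
      | true => exact absurd ((inSb_iff k).1 hb) h
    simp [h, this]

theorem cnt_g (n : ℕ) : cnt (g n) = n := by
  rw [← raw_ofNat, cnt_raw, enc_ofNat]

theorem cnt_mono {a b : ℕ} (h : a ≤ b) : cnt a ≤ cnt b := by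
  unfold cnt
  exact ((List.range_sublist.2 h).filter _).length_le

theorem cnt_g_succ (n : ℕ) : cnt (g n + 1) = n + 1 := by
  have h := cnt_g n
  unfold cnt at h ⊢
  rw [List.range_succ, List.filter_append, List.length_append, h]
  have : inSb (g n) = true := (inSb_iff _).2 (g_mem n)
  simp [this]

theorem computable_g : Computable g := by
  have hp : Primrec₂ fun (n m : ℕ) => decide (cnt (m + 1) = n + 1) :=
    (Primrec.eq.comp (primrec_cnt.comp (Primrec.succ.comp Primrec.snd))
      (Primrec.succ.comp Primrec.fst)).decide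
  have hr := Partrec.rfind (p := fun (n m : ℕ) => Part.some (decide (cnt (m + 1) = n + 1)))
    hp.to_comp.partrec₂
  refine hr.of_eq_tot (fun n => ?_)
  refine Nat.mem_rfind.2 ⟨?_, ?_⟩
  · simp [cnt_g_succ]
  · intro m hm
    have : cnt (m + 1) ≤ n := (cnt_mono (Nat.succ_le_of_lt hm)).trans_eq (cnt_g n)
    have : cnt (m + 1) ≠ n + 1 := by omega
    simp [this]

/-! ### decoding a raw code into a triple -/

/-- the triple coding the rational with raw code `m` -/
def tripleOf (m : ℕ) : NQ :=
  if (Nat.unpair m).1 % 2 = 0 then ((Nat.unpair m).1 / 2, 0, (Nat.unpair m).2 - 1)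
  else (0, (Nat.unpair m).1 / 2 + 1, (Nat.unpair m).2 - 1)

theorem primrec_tripleOf : Primrec tripleOf := by
  have h1 : Primrec fun m : ℕ => (Nat.unpair m).1 := Primrec.fst.comp Primrec.unpair
  have h2 : Primrec fun m : ℕ => (Nat.unpair m).2 - 1 :=
    Primrec.nat_sub.comp (Primrec.snd.comp Primrec.unpair) (Primrec.const 1)
  have h3 : Primrec fun m : ℕ => (Nat.unpair m).1 / 2 := Primrec.nat_div.comp h1 (Primrec.const 2)
  unfold tripleOf
  exact Primrec.ite
    (Primrec.eq.comp (Primrec.nat_mod.comp h1 (Primrec.const 2)) (Primrec.const 0))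
    (Primrec.pair h3 (Primrec.pair (Primrec.const 0) h2))
    (Primrec.pair (Primrec.const 0) (Primrec.pair (Primrec.succ.comp h3) h2))

theorem nqVal_tripleOf_raw (q : ℚ) : nqVal (tripleOf (raw q)) = q := by
  have hden : ((q.den - 1 : ℕ) : ℚ) + 1 = q.den := by
    have : (q.den - 1 : ℕ) + 1 = q.den := Nat.sub_add_cancel q.pos
    exact_mod_cast this
  refine Eq.trans ?_ (Rat.num_div_den q)
  rw [raw_eq]
  unfold tripleOf
  rw [Nat.unpair_pair]
  cases hnum : q.num with
  | ofNat n =>
    rw [encode_int_ofNat]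
    have h0 : 2 * n % 2 = 0 := by omega
    have h1 : 2 * n / 2 = n := by omega
    rw [if_pos h0, h1]
    simp only [nqVal]
    rw [hden]
    simp
  | negSucc n =>
    rw [encode_int_negSucc]
    have h0 : ¬ ((2 * n + 1) % 2 = 0) := by omega
    have h1 : (2 * n + 1) / 2 = n := by omega
    rw [if_neg h0, h1]
    simp only [nqVal]
    rw [hden]
    simp [Int.cast_negSucc]

/-- the conversion `ℚ → NQ` -/
def fromQ (q : ℚ) : NQ := tripleOf (raw q)

theorem computable_enc : Computable enc :=
  (Computable.encode : Computable (@Encodable.encode ℚ (Primcodable.ofDenumerable ℚ).toEncodable))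

theorem computable_fromQ : Computable fromQ := by
  have h : Computable fun q : ℚ => tripleOf (g (enc q)) :=
    primrec_tripleOf.to_comp.comp (computable_g.comp computable_enc)
  exact h.of_eq (fun q => by
    show tripleOf (g (enc q)) = tripleOf (raw q)
    rw [g_enc])

/-- Boolean equality test of values -/
def eqb (x y : NQ) : Bool := NQ.le x y && NQ.le y x

theorem eqb_iff (x y : NQ) : eqb x y = true ↔ nqVal x = nqVal y := by
  unfold eqb
  rw [Bool.and_eq_true, NQ.le_iff, NQ.le_iff]
  exact ⟨fun h => le_antisymm h.1 h.2, fun h => ⟨h.le, h.ge⟩⟩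

theorem primrec_eqb : Primrec₂ eqb := by
  unfold eqb
  exact Primrec.and.comp (NQ.primrec_le' Primrec.fst Primrec.snd)
    (NQ.primrec_le' Primrec.snd Primrec.fst)

theorem nqVal_tripleOf_g (k : ℕ) : nqVal (tripleOf (g k)) = Denumerable.ofNat ℚ k := by
  rw [← raw_ofNat, nqVal_tripleOf_raw]

theorem computable_enc_nqVal : Computable fun x : NQ => enc (nqVal x) := by
  have hc : Computable₂ fun (x : NQ) (k : ℕ) => eqb (tripleOf (g k)) x :=
    (primrec_eqb.to_comp.comp
      (primrec_tripleOf.to_comp.comp (computable_g.comp Computable.snd)) Computable.fst).to₂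
  have hr := Partrec.rfind (p := fun (x : NQ) (k : ℕ) => Part.some (eqb (tripleOf (g k)) x))
    hc.partrec₂
  refine hr.of_eq_tot (fun x => ?_)
  refine Nat.mem_rfind.2 ⟨?_, ?_⟩
  · have : eqb (tripleOf (g (enc (nqVal x)))) x = true := by
      rw [eqb_iff, nqVal_tripleOf_g, ofNat_enc]
    simp [this]
  · intro m hm
    have : eqb (tripleOf (g m)) x ≠ true := by
      rw [Ne, eqb_iff, nqVal_tripleOf_g]
      intro h
      have : enc (Denumerable.ofNat ℚ m) = enc (nqVal x) := by rw [h]
      rw [enc_ofNat] at this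
      omega
    simp [this]

end RatCode

/-- There is a computable map sending a rational to a code of it. -/
theorem exists_computable_fromQ :
    ∃ f : ℚ → ℕ × ℕ × ℕ, Computable f ∧ ∀ q : ℚ, nqVal (f q) = q :=
  ⟨RatCode.fromQ, RatCode.computable_fromQ, RatCode.nqVal_tripleOf_raw⟩

/-- The value map from codes to rationals is computable. -/
theorem computable_nqVal : Computable nqVal :=
  Computable.encode_iff.1 RatCode.computable_enc_nqVal

end Crest.Agent.S0170
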