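import Crest.Agent.S0170.Defs

/-!
Module D0: Fréchet derivatives of pure tensor fields in the coordinate directions.
Auxiliary declarations go into `namespace Crest.Agent.S0170.TensDerivAux`.
-/

set_option autoImplicit false
open scoped ContDiff
open Crest.AnalysisR.BoxFlow

namespace Crest.Agent.S0170

namespace TensDerivAux

/-- the scalar coefficient of a pure tensor field is smooth -/
theorem contDiff_coeff {g₀ : ℝ → ℝ} {g : Fin 3 → ℝ → ℝ}
    (h₀ : ContDiff ℝ ∞ g₀) (h : ∀ k, ContDiff ℝ ∞ (g k)) :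
    ContDiff ℝ ∞ (fun p : ℝ × (Fin 3 → ℝ) => g₀ p.1 * ∏ k : Fin 3, g k (p.2 k)) := by
  apply ContDiff.mul
  · exact h₀.comp contDiff_fst
  · apply contDiff_prod
    intro k _
    exact (h k).comp ((contDiff_apply ℝ ℝ k).comp contDiff_snd)

/-- product over `Fin 3` with one factor and one argument updated -/
theorem prod_update (g : Fin 3 → ℝ → ℝ) (x : Fin 3 → ℝ) (l : Fin 3) (φ : ℝ → ℝ) (y : ℝ) :
    ∏ k, (Function.update g l φ) k (Function.update x l y k)
      = φ y * ∏ k ∈ Finset.univ \ {l}, g k (x k) := by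
  have e : (fun k => (Function.update g l φ) k (Function.update x l y k))
      = Function.update (fun k => g k (x k)) l (φ y) := by
    funext k
    by_cases hk : k = l
    · subst hk; simp
    · simp [Function.update_of_ne hk]
  rw [e, Finset.prod_update_of_mem (Finset.mem_univ l)]

/-- a function into `Fin 3 → ℝ` of the form `Pi.single i ∘ φ` has derivative `Pi.single i φ'` -/
theorem hasDerivAt_single (i : Fin 3) {φ : ℝ → ℝ} {φ' s : ℝ} (hφ : HasDerivAt φ φ' s) :
    HasDerivAt (fun s => (Pi.single i (φ s) : Fin 3 → ℝ)) (Pi.single i φ') s := by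
  rw [hasDerivAt_pi]
  intro j
  by_cases hj : j = i
  · subst hj; simpa using hφ
  · simpa [Pi.single_eq_of_ne hj] using hasDerivAt_const s (0:ℝ)

end TensDerivAux

open TensDerivAux

theorem contDiff_tensF {g₀ : ℝ → ℝ} {g : Fin 3 → ℝ → ℝ} (i : Fin 3)
    (h₀ : ContDiff ℝ ∞ g₀) (h : ∀ k, ContDiff ℝ ∞ (g k)) : ContDiff ℝ ∞ (tensF g₀ g i) := by
  unfold tensF
  rw [contDiff_pi]
  intro j
  by_cases hj : j = i
  · subst hj
    simpa using contDiff_coeff h₀ h
  · simpa [Pi.single_eq_of_ne hj] using (contDiff_const : ContDiff ℝ ∞ (fun _ : ℝ × (Fin 3 → ℝ) => (0:ℝ)))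

/-- derivative of a pure tensor field in the time direction -/
theorem fderiv_tensF_time {g₀ : ℝ → ℝ} {g : Fin 3 → ℝ → ℝ} (i : Fin 3)
    (h₀ : ContDiff ℝ ∞ g₀) (h : ∀ k, ContDiff ℝ ∞ (g k)) (p : ℝ × (Fin 3 → ℝ)) :
    fderiv ℝ (tensF g₀ g i) p ((1 : ℝ), (0 : Fin 3 → ℝ)) = tensF (deriv g₀) g i p := by
  have hdiff : DifferentiableAt ℝ (tensF g₀ g i) p :=
    ((contDiff_tensF i h₀ h).differentiable (by simp)) p
  -- the curve `s ↦ (p.1 + s, p.2)`
  have hc : HasDerivAt (fun s : ℝ => ((p.1 + s, p.2) : ℝ × (Fin 3 → ℝ))) ((1:ℝ), (0 : Fin 3 → ℝ)) 0 :=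
    ((hasDerivAt_id (0:ℝ)).const_add p.1).prodMk (hasDerivAt_const (0:ℝ) p.2)
  have hF : HasFDerivAt (tensF g₀ g i) (fderiv ℝ (tensF g₀ g i) p)
      ((fun s : ℝ => ((p.1 + s, p.2) : ℝ × (Fin 3 → ℝ))) 0) := by
    simpa using hdiff.hasFDerivAt
  have h1 := hF.comp_hasDerivAt (0:ℝ) hc
  -- direct computation
  have hg : HasDerivAt (fun s : ℝ => g₀ (p.1 + s) * ∏ k : Fin 3, g k (p.2 k))
      (deriv g₀ p.1 * ∏ k : Fin 3, g k (p.2 k)) 0 := by
    have hd : HasDerivAt g₀ (deriv g₀ p.1) (p.1 + 0) := by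
      simpa using ((h₀.differentiable (by simp)) p.1).hasDerivAt
    exact (hd.comp_const_add p.1 0).mul_const _
  have h2 : HasDerivAt ((tensF g₀ g i) ∘ (fun s : ℝ => ((p.1 + s, p.2) : ℝ × (Fin 3 → ℝ))))
      (Pi.single i (deriv g₀ p.1 * ∏ k : Fin 3, g k (p.2 k))) 0 :=
    hasDerivAt_single i hg
  exact h1.unique h2

/-- derivative of a pure tensor field in the `l`-th space direction -/
theorem fderiv_tensF_space {g₀ : ℝ → ℝ} {g : Fin 3 → ℝ → ℝ} (i : Fin 3)
    (h₀ : ContDiff ℝ ∞ g₀) (h : ∀ k, ContDiff ℝ ∞ (g k)) (l : Fin 3) (p : ℝ × (Fin 3 → ℝ)) :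
    fderiv ℝ (tensF g₀ g i) p ((0 : ℝ), (Pi.single l (1 : ℝ) : Fin 3 → ℝ)) =
      tensF g₀ (Function.update g l (deriv (g l))) i p := by
  have hdiff : DifferentiableAt ℝ (tensF g₀ g i) p :=
    ((contDiff_tensF i h₀ h).differentiable (by simp)) p
  -- the curve `s ↦ (p.1, p.2 with l-th coordinate shifted by s)`
  have hc2 : HasDerivAt (fun s : ℝ => Function.update p.2 l (p.2 l + s))
      (Pi.single l (1 : ℝ) : Fin 3 → ℝ) 0 := by
    rw [hasDerivAt_pi]
    intro j
    by_cases hj : j = l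
    · subst hj
      simpa using (hasDerivAt_id (0:ℝ)).const_add (p.2 j)
    · simpa [Function.update_of_ne hj, Pi.single_eq_of_ne hj] using hasDerivAt_const (0:ℝ) (p.2 j)
  have hc : HasDerivAt (fun s : ℝ => ((p.1, Function.update p.2 l (p.2 l + s)) : ℝ × (Fin 3 → ℝ)))
      ((0:ℝ), (Pi.single l (1 : ℝ) : Fin 3 → ℝ)) 0 :=
    (hasDerivAt_const (0:ℝ) p.1).prodMk hc2
  have hF : HasFDerivAt (tensF g₀ g i) (fderiv ℝ (tensF g₀ g i) p)
      ((fun s : ℝ => ((p.1, Function.update p.2 l (p.2 l + s)) : ℝ × (Fin 3 → ℝ))) 0) := by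
    simpa using hdiff.hasFDerivAt
  have h1 := hF.comp_hasDerivAt (0:ℝ) hc
  -- direct computation
  set R : ℝ := ∏ k ∈ Finset.univ \ {l}, g k (p.2 k) with hR
  have hprod : ∀ (φ : ℝ → ℝ) (y : ℝ),
      ∏ k, (Function.update g l φ) k (Function.update p.2 l y k) = φ y * R :=
    fun φ y => prod_update g p.2 l φ y
  have hg : HasDerivAt (fun s : ℝ => g₀ p.1 * (g l (p.2 l + s) * R))
      (g₀ p.1 * (deriv (g l) (p.2 l) * R)) 0 := by
    have hd : HasDerivAt (g l) (deriv (g l) (p.2 l)) (p.2 l + 0) := by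
      simpa using (((h l).differentiable (by simp)) (p.2 l)).hasDerivAt
    exact ((hd.comp_const_add (p.2 l) 0).mul_const R).const_mul (g₀ p.1)
  have h2 : HasDerivAt ((tensF g₀ g i) ∘
      (fun s : ℝ => ((p.1, Function.update p.2 l (p.2 l + s)) : ℝ × (Fin 3 → ℝ))))
      (Pi.single i (g₀ p.1 * (deriv (g l) (p.2 l) * R))) 0 := by
    have e : ((tensF g₀ g i) ∘
        (fun s : ℝ => ((p.1, Function.update p.2 l (p.2 l + s)) : ℝ × (Fin 3 → ℝ))))
        = fun s : ℝ => (Pi.single i (g₀ p.1 * (g l (p.2 l + s) * R)) : Fin 3 → ℝ) := by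
      funext s
      have := hprod (g l) (p.2 l + s)
      rw [Function.update_eq_self] at this
      simp only [Function.comp_apply, tensF]
      rw [this]
    rw [e]
    exact hasDerivAt_single i hg
  rw [h1.unique h2]
  have := hprod (deriv (g l)) (p.2 l)
  rw [Function.update_eq_self] at this
  simp only [tensF]
  rw [this]

end Crest.Agent.S0170
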