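import Crest.Agent.S0170.TensDeriv
import Crest.Agent.S0170.RatCode
import Crest.Agent.S0170.EffUniLemmas

/-!
Module C: fields that are finite sums of pure tensors with effective univariate factors are smooth
and `Effective`. Auxiliary declarations go into `namespace Crest.Agent.S0170.TensorAux`.
-/

set_option autoImplicit false
open scoped ContDiff
open Crest.AnalysisR.BoxFlow

namespace Crest.Agent.S0170

namespace TensorAux

/-! ### basic facts on `mixedDeriv` -/

theorem mixedDeriv_cons (d : Fin 4) (ds : List (Fin 4)) (U : Field) :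
    mixedDeriv (d :: ds) U = fun p => fderiv ℝ (mixedDeriv ds U) p (direction d) := rfl

theorem direction_zero : direction 0 = ((1 : ℝ), (0 : Fin 3 → ℝ)) := by
  simp [direction]

theorem direction_succ (k : Fin 3) :
    direction k.succ = ((0 : ℝ), (Pi.single k (1 : ℝ) : Fin 3 → ℝ)) := by
  simp [direction, Fin.succ_ne_zero]

theorem contDiff_mixedDeriv {U : Field} (hU : ContDiff ℝ ∞ U) (ds : List (Fin 4)) :
    ContDiff ℝ ∞ (mixedDeriv ds U) := by
  induction ds with
  | nil => exact hU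
  | cons d ds ih =>
    rw [mixedDeriv_cons]
    exact (ih.fderiv_right (m := ∞) (by simp)).clm_apply contDiff_const

theorem mixedDeriv_zero (ds : List (Fin 4)) :
    mixedDeriv ds (fun _ => (0 : Fin 3 → ℝ)) = fun _ => 0 := by
  induction ds with
  | nil => rfl
  | cons d ds ih =>
    rw [mixedDeriv_cons, ih]
    funext p
    simp

theorem mixedDeriv_add {U V : Field} (hU : ContDiff ℝ ∞ U) (hV : ContDiff ℝ ∞ V)
    (ds : List (Fin 4)) :
    mixedDeriv ds (fun p => U p + V p) = fun p => mixedDeriv ds U p + mixedDeriv ds V p := by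
  induction ds with
  | nil => rfl
  | cons d ds ih =>
    rw [mixedDeriv_cons, mixedDeriv_cons, mixedDeriv_cons, ih]
    funext p
    have h1 : DifferentiableAt ℝ (mixedDeriv ds U) p :=
      ((contDiff_mixedDeriv hU ds).differentiable (by simp)).differentiableAt
    have h2 : DifferentiableAt ℝ (mixedDeriv ds V) p :=
      ((contDiff_mixedDeriv hV ds).differentiable (by simp)).differentiableAt
    have := fderiv_add h1 h2
    rw [show (fun p => mixedDeriv ds U p + mixedDeriv ds V p)
        = (mixedDeriv ds U + mixedDeriv ds V) from rfl, this]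
    rfl

theorem contDiff_iteratedDeriv {g : ℝ → ℝ} (hg : ContDiff ℝ ∞ g) (a : ℕ) :
    ContDiff ℝ ∞ (iteratedDeriv a g) := by
  rw [iteratedDeriv_eq_iterate]
  exact hg.iterate_deriv a

theorem mixedDeriv_tensF {g₀ : ℝ → ℝ} {g : Fin 3 → ℝ → ℝ} (i : Fin 3)
    (h₀ : ContDiff ℝ ∞ g₀) (h : ∀ k, ContDiff ℝ ∞ (g k)) (ds : List (Fin 4)) :
    mixedDeriv ds (tensF g₀ g i) =
      tensF (iteratedDeriv (ds.count 0) g₀)
        (fun k => iteratedDeriv (ds.count k.succ) (g k)) i := by
  induction ds with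
  | nil =>
    simp only [List.count_nil, iteratedDeriv_zero]
    rfl
  | cons d ds ih =>
    rw [mixedDeriv_cons, ih]
    funext p
    have c₀ : ContDiff ℝ ∞ (iteratedDeriv (ds.count 0) g₀) := contDiff_iteratedDeriv h₀ _
    have c : ∀ k : Fin 3, ContDiff ℝ ∞ (iteratedDeriv (ds.count k.succ) (g k)) :=
      fun k => contDiff_iteratedDeriv (h k) _
    rcases Fin.eq_zero_or_eq_succ d with rfl | ⟨l, rfl⟩
    · rw [direction_zero, fderiv_tensF_time i c₀ c p]
      have e1 : (0 :: ds).count (0 : Fin 4) = ds.count 0 + 1 := by simp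
      have e2 : ∀ k : Fin 3, (0 :: ds).count k.succ = ds.count k.succ := by
        intro k
        rw [List.count_cons_of_ne (Fin.succ_ne_zero k).symm]
      rw [e1, iteratedDeriv_succ]
      simp only [e2]
    · rw [direction_succ, fderiv_tensF_space i c₀ c l p]
      have e1 : (l.succ :: ds).count (0 : Fin 4) = ds.count 0 := by
        rw [List.count_cons_of_ne (Fin.succ_ne_zero l)]
      have e2 : (fun k : Fin 3 => iteratedDeriv ((l.succ :: ds).count k.succ) (g k)) =
          Function.update (fun k : Fin 3 => iteratedDeriv (ds.count k.succ) (g k)) l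
            (deriv (iteratedDeriv (ds.count l.succ) (g l))) := by
        funext k
        by_cases hk : k = l
        · subst hk
          rw [Function.update_self, List.count_cons_self, iteratedDeriv_succ]
        · rw [Function.update_of_ne hk]
          have : l.succ ≠ k.succ := fun h' => hk (Fin.succ_injective _ h').symm
          rw [List.count_cons_of_ne this]
      rw [e1, e2]

end TensorAux

theorem EffField.contDiff {U : Field} (h : EffField U) : ContDiff ℝ ∞ U := by
  induction h with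
  | zero => exact contDiff_const
  | tens g₀ g i h₀ h => exact contDiff_tensF i h₀.contDiff (fun k => (h k).contDiff)
  | add U V _ _ ihU ihV => exact ihU.add ihV

namespace TensorAux

/-! ### computability helpers -/

theorem computable_fin_lam {α σ : Type*} [Primcodable α] [Primcodable σ] {n : ℕ}
    {f : α → Fin n → σ} (hf : ∀ j, Computable (fun a => f a j)) : Computable f :=
  (Primrec.vector_get'.to_comp.comp (Computable.vector_ofFn hf)).of_eq fun a => by
    funext j; simp

theorem primrec_count (d : Fin 4) : Primrec (fun ds : List (Fin 4) => ds.count d) := by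
  have h : Primrec (fun ds : List (Fin 4) => (ds.filter (fun x => decide (x = d))).length) :=
    Primrec.list_length.comp (Primrec.listFilter (Primrec.eq.comp Primrec.id (Primrec.const d)))
  refine h.of_eq fun ds => ?_
  rw [List.count_eq_countP, List.countP_eq_length_filter]
  congr 2

theorem primrec_factorial : Primrec Nat.factorial := by
  have h : Primrec₂ (fun (n ih : ℕ) => (n + 1) * ih) :=
    Primrec.nat_mul.comp (Primrec.succ.comp Primrec.fst) Primrec.snd
  refine (Primrec.nat_rec₁ 1 h).of_eq fun n => ?_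
  induction n with
  | zero => rfl
  | succ n ih => simp only [Nat.factorial_succ, ← ih]

theorem primrec_pow : Primrec₂ ((· ^ ·) : ℕ → ℕ → ℕ) :=
  Primrec₂.unpaired'.1 Nat.Primrec.pow

/-- growth function of Gevrey-2 bounds -/
def gB (C K L : ℕ) : ℕ := C * K ^ L * L.factorial ^ 2

theorem primrec_gB (C K : ℕ) : Primrec (gB C K) := by
  unfold gB
  exact Primrec.nat_mul.comp
    (Primrec.nat_mul.comp (Primrec.const C) (primrec_pow.comp (Primrec.const K) Primrec.id))
    (primrec_pow.comp primrec_factorial (Primrec.const 2))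

theorem gev_le_gB {f : ℝ → ℝ} {C K Cm Km : ℕ}
    (hf : ∀ (a : ℕ) (x : ℝ),
      |iteratedDeriv a f x| ≤ (C : ℝ) * (K : ℝ) ^ a * (a.factorial : ℝ) ^ 2)
    (hC : C ≤ Cm) (hK : K ≤ Km) (hKm : 1 ≤ Km) {L a : ℕ} (haL : a ≤ L) (x : ℝ) :
    |iteratedDeriv a f x| ≤ (gB Cm Km L : ℝ) := by
  refine (hf a x).trans ?_
  have h : C * K ^ a * a.factorial ^ 2 ≤ gB Cm Km L := by
    unfold gB
    have h1 : K ^ a ≤ Km ^ L := (Nat.pow_le_pow_left hK a).trans (Nat.pow_le_pow_right hKm haL)
    have h2 : a.factorial ≤ L.factorial := Nat.factorial_le haL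
    exact Nat.mul_le_mul (Nat.mul_le_mul hC h1) (Nat.pow_le_pow_left h2 2)
  exact_mod_cast h

/-! ### products of four approximations -/

theorem abs_mul4_le {a b c d x y z t : ℝ} (ha : |a| ≤ x) (hb : |b| ≤ y) (hc : |c| ≤ z)
    (hd : |d| ≤ t) : |a * b * c * d| ≤ x * y * z * t := by
  have hx : 0 ≤ x := (abs_nonneg a).trans ha
  have hy : 0 ≤ y := (abs_nonneg b).trans hb
  have hz : 0 ≤ z := (abs_nonneg c).trans hc
  rw [abs_mul, abs_mul, abs_mul]
  exact mul_le_mul (mul_le_mul (mul_le_mul ha hb (abs_nonneg _) hx) hc (abs_nonneg _)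
    (mul_nonneg hx hy)) hd (abs_nonneg _) (mul_nonneg (mul_nonneg hx hy) hz)

theorem prod4_approx {v₀ v₁ v₂ v₃ w₀ w₁ w₂ w₃ B e : ℝ} (he : e ≤ 1)
    (b₀ : |v₀| ≤ B) (b₁ : |v₁| ≤ B) (b₂ : |v₂| ≤ B) (b₃ : |v₃| ≤ B)
    (a₀ : |v₀ - w₀| ≤ e) (a₁ : |v₁ - w₁| ≤ e) (a₂ : |v₂ - w₂| ≤ e) (a₃ : |v₃ - w₃| ≤ e) :
    |v₀ * (v₁ * v₂ * v₃) - w₀ * w₁ * (w₂ * w₃)| ≤ 4 * (B + 1) ^ 3 * e := by
  have he0 : 0 ≤ e := (abs_nonneg _).trans a₀
  have hB : 0 ≤ B := (abs_nonneg _).trans b₀
  have hw : ∀ {v w : ℝ}, |v| ≤ B → |v - w| ≤ e → |w| ≤ B + 1 := by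
    intro v w hv hvw
    have : w = v - (v - w) := by ring
    rw [this]
    exact (abs_sub _ _).trans (by linarith)
  have hv : ∀ {v : ℝ}, |v| ≤ B → |v| ≤ B + 1 := fun h => h.trans (by linarith)
  have key : v₀ * (v₁ * v₂ * v₃) - w₀ * w₁ * (w₂ * w₃) =
      (v₀ - w₀) * v₁ * v₂ * v₃ + w₀ * (v₁ - w₁) * v₂ * v₃ + w₀ * w₁ * (v₂ - w₂) * v₃
        + w₀ * w₁ * w₂ * (v₃ - w₃) := by ring
  rw [key]
  have t1 := abs_mul4_le a₀ (hv b₁) (hv b₂) (hv b₃)
  have t2 := abs_mul4_le (hw b₀ a₀) a₁ (hv b₂) (hv b₃)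
  have t3 := abs_mul4_le (hw b₀ a₀) (hw b₁ a₁) a₂ (hv b₃)
  have t4 := abs_mul4_le (hw b₀ a₀) (hw b₁ a₁) (hw b₂ a₂) a₃
  have tri : ∀ a b c d : ℝ, |a + b + c + d| ≤ |a| + |b| + |c| + |d| := by
    intro a b c d
    have h1 := abs_add_le (a + b + c) d
    have h2 := abs_add_le (a + b) c
    have h3 := abs_add_le a b
    linarith
  refine (tri _ _ _ _).trans ?_
  have e1 : e * (B + 1) * (B + 1) * (B + 1) = (B + 1) ^ 3 * e := by ring
  have e2 : (B + 1) * e * (B + 1) * (B + 1) = (B + 1) ^ 3 * e := by ring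
  have e3 : (B + 1) * (B + 1) * e * (B + 1) = (B + 1) ^ 3 * e := by ring
  have e4 : (B + 1) * (B + 1) * (B + 1) * e = (B + 1) ^ 3 * e := by ring
  rw [e1] at t1
  rw [e2] at t2
  rw [e3] at t3
  rw [e4] at t4
  linarith

/-! ### the intermediate effectivity predicate, on coded rationals -/

/-- the space-time point with coded rational coordinates -/
noncomputable def pt (r : NQ) (q : Fin 3 → NQ) : ℝ × (Fin 3 → ℝ) :=
  (((nqVal r : ℚ) : ℝ), fun k => ((nqVal (q k) : ℚ) : ℝ))

/-- effectivity on coded rationals, with primitive recursive witnesses -/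
def EffAux (U : Field) : Prop :=
  ∃ (E : List (Fin 4) × (NQ × (Fin 3 → NQ)) × ℕ → (Fin 3 → NQ)) (b : ℕ → ℕ),
    Primrec E ∧ Primrec b ∧
    (∀ (ds : List (Fin 4)) (r : NQ) (q : Fin 3 → NQ) (n : ℕ) (j : Fin 3),
      |mixedDeriv ds U (pt r q) j - ((nqVal (E (ds, (r, q), n) j) : ℚ) : ℝ)|
        ≤ 1 / ((n : ℝ) + 1)) ∧
    (∀ (ds : List (Fin 4)) (p : ℝ × (Fin 3 → ℝ)) (j : Fin 3),
      |mixedDeriv ds U p j| ≤ (b ds.length : ℝ))

theorem effAux_zero : EffAux (fun _ => 0) := by
  refine ⟨fun _ _ => (0, 0, 0), fun _ => 0, Primrec.const _, Primrec.const _, ?_, ?_⟩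
  · intro ds r q n j
    rw [mixedDeriv_zero]
    simp only [nqVal, Pi.zero_apply]
    norm_num
    positivity
  · intro ds p j
    rw [mixedDeriv_zero]
    simp

theorem effAux_add {U V : Field} (cU : ContDiff ℝ ∞ U) (cV : ContDiff ℝ ∞ V)
    (hU : EffAux U) (hV : EffAux V) : EffAux (fun p => U p + V p) := by
  obtain ⟨EU, bU, pEU, pbU, aU, boU⟩ := hU
  obtain ⟨EV, bV, pEV, pbV, aV, boV⟩ := hV
  refine ⟨fun x j => NQ.add (EU (x.1, x.2.1, 2 * x.2.2 + 1) j) (EV (x.1, x.2.1, 2 * x.2.2 + 1) j),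
    fun L => bU L + bV L, ?_, Primrec.nat_add.comp pbU pbV, ?_, ?_⟩
  · refine Primrec.fin_curry.2 ?_
    have hx : Primrec (fun y : (List (Fin 4) × (NQ × (Fin 3 → NQ)) × ℕ) × Fin 3 =>
        (y.1.1, y.1.2.1, 2 * y.1.2.2 + 1)) :=
      Primrec.pair (Primrec.fst.comp Primrec.fst)
        (Primrec.pair (Primrec.fst.comp (Primrec.snd.comp Primrec.fst))
          (Primrec.nat_double_succ.comp (Primrec.snd.comp (Primrec.snd.comp Primrec.fst))))
    exact NQ.primrec_add' (Primrec.fin_app.comp (pEU.comp hx) Primrec.snd)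
      (Primrec.fin_app.comp (pEV.comp hx) Primrec.snd)
  · intro ds r q n j
    rw [mixedDeriv_add cU cV]
    have h1 := aU ds r q (2 * n + 1) j
    have h2 := aV ds r q (2 * n + 1) j
    simp only [Pi.add_apply, NQ.nqVal_add]
    push_cast at h1 h2 ⊢
    have e : (1 : ℝ) / (2 * (n : ℝ) + 1 + 1) + 1 / (2 * (n : ℝ) + 1 + 1) = 1 / ((n : ℝ) + 1) := by
      have : (0 : ℝ) < (n : ℝ) + 1 := by positivity
      field_simp
      ring
    rw [← e]
    refine le_trans ?_ (add_le_add h1 h2)
    rw [show ∀ a b c d : ℝ, a + b - (c + d) = (a - c) + (b - d) from fun a b c d => by ring]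
    exact abs_add_le _ _
  · intro ds p j
    rw [mixedDeriv_add cU cV]
    push_cast
    exact (abs_add_le _ _).trans (add_le_add (boU ds p j) (boV ds p j))

theorem effAux_tens (g₀ : ℝ → ℝ) (g : Fin 3 → ℝ → ℝ) (i : Fin 3) (h₀ : EffUni g₀)
    (h : ∀ k, EffUni (g k)) : EffAux (tensF g₀ g i) := by
  obtain ⟨C₀, K₀, hb₀⟩ := h₀.gev.2
  choose C K hb using fun k => (h k).gev.2
  obtain ⟨A₀, pA₀, hA₀⟩ := h₀.apxAll
  choose A pA hA using fun k => (h k).apxAll
  obtain ⟨Cm, hCm⟩ : ∃ Cm : ℕ, Cm = C₀ + C 0 + C 1 + C 2 := ⟨_, rfl⟩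
  obtain ⟨Km, hKm⟩ : ∃ Km : ℕ, Km = K₀ + K 0 + K 1 + K 2 + 1 := ⟨_, rfl⟩
  have hCk : ∀ k : Fin 3, C k ≤ Cm := by
    have h0 : C 0 ≤ Cm := by omega
    have h1 : C 1 ≤ Cm := by omega
    have h2 : C 2 ≤ Cm := by omega
    intro k
    match k with
    | 0 => exact h0
    | 1 => exact h1
    | 2 => exact h2
  have hKk : ∀ k : Fin 3, K k ≤ Km := by
    have h0 : K 0 ≤ Km := by omega
    have h1 : K 1 ≤ Km := by omega
    have h2 : K 2 ≤ Km := by omega
    intro k
    match k with
    | 0 => exact h0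
    | 1 => exact h1
    | 2 => exact h2
  have hKm1 : 1 ≤ Km := by omega
  have ub₀ : ∀ (L a : ℕ) (x : ℝ), a ≤ L → |iteratedDeriv a g₀ x| ≤ (gB Cm Km L : ℝ) :=
    fun L a x haL => gev_le_gB hb₀ (by omega) (by omega) hKm1 haL x
  have ub : ∀ (k : Fin 3) (L a : ℕ) (x : ℝ), a ≤ L →
      |iteratedDeriv a (g k) x| ≤ (gB Cm Km L : ℝ) :=
    fun k L a x haL => gev_le_gB (hb k) (hCk k) (hKk k) hKm1 haL x
  -- the precision requested from the univariate approximators
  obtain ⟨M, hM⟩ : ∃ M : List (Fin 4) × (NQ × (Fin 3 → NQ)) × ℕ → ℕ,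
      M = fun x => 4 * (gB Cm Km x.1.length + 1) ^ 3 * (x.2.2 + 1) := ⟨_, rfl⟩
  have pM : Primrec M := by
    rw [hM]
    exact Primrec.nat_mul.comp
      (Primrec.nat_mul.comp (Primrec.const 4)
        (primrec_pow.comp
          (Primrec.succ.comp ((primrec_gB Cm Km).comp (Primrec.list_length.comp Primrec.fst)))
          (Primrec.const 3)))
      (Primrec.succ.comp (Primrec.snd.comp Primrec.snd))
  obtain ⟨F, hF⟩ : ∃ F : List (Fin 4) × (NQ × (Fin 3 → NQ)) × ℕ → NQ,
      F = fun x => NQ.mul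
        (NQ.mul (A₀ (x.1.count 0, x.2.1.1, M x)) (A 0 (x.1.count (Fin.succ 0), x.2.1.2 0, M x)))
        (NQ.mul (A 1 (x.1.count (Fin.succ 1), x.2.1.2 1, M x))
          (A 2 (x.1.count (Fin.succ 2), x.2.1.2 2, M x))) := ⟨_, rfl⟩
  have pF : Primrec F := by
    rw [hF]
    have hr : Primrec (fun x : List (Fin 4) × (NQ × (Fin 3 → NQ)) × ℕ => x.2.1.1) :=
      Primrec.fst.comp (Primrec.fst.comp Primrec.snd)
    have hq : ∀ k : Fin 3,
        Primrec (fun x : List (Fin 4) × (NQ × (Fin 3 → NQ)) × ℕ => x.2.1.2 k) :=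
      fun k => Primrec.fin_app.comp (Primrec.snd.comp (Primrec.fst.comp Primrec.snd))
        (Primrec.const k)
    have hc : ∀ d : Fin 4,
        Primrec (fun x : List (Fin 4) × (NQ × (Fin 3 → NQ)) × ℕ => x.1.count d) :=
      fun d => (primrec_count d).comp Primrec.fst
    exact NQ.primrec_mul'
      (NQ.primrec_mul' (pA₀.comp (Primrec.pair (hc 0) (Primrec.pair hr pM)))
        ((pA 0).comp (Primrec.pair (hc _) (Primrec.pair (hq 0) pM))))
      (NQ.primrec_mul' ((pA 1).comp (Primrec.pair (hc _) (Primrec.pair (hq 1) pM)))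
        ((pA 2).comp (Primrec.pair (hc _) (Primrec.pair (hq 2) pM))))
  refine ⟨fun x j => if j = i then F x else (0, 0, 0), fun L => gB Cm Km L ^ 4, ?_, ?_, ?_, ?_⟩
  · refine Primrec.fin_curry.2 ?_
    exact Primrec.ite (Primrec.eq.comp Primrec.snd (Primrec.const i))
      (pF.comp Primrec.fst) (Primrec.const _)
  · exact primrec_pow.comp (primrec_gB Cm Km) (Primrec.const 4)
  · intro ds r q n j
    rw [mixedDeriv_tensF i h₀.contDiff (fun k => (h k).contDiff)]
    simp only [tensF, pt, Fin.prod_univ_three]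
    by_cases hj : j = i
    · subst hj
      rw [if_pos rfl, Pi.single_eq_same, hF]
      simp only [NQ.nqVal_mul]
      push_cast
      have hM1 : (1 : ℝ) / ((M (ds, (r, q), n) : ℝ) + 1) ≤ 1 := by
        rw [div_le_one (by positivity)]
        have : (0 : ℝ) ≤ (M (ds, (r, q), n) : ℝ) := Nat.cast_nonneg _
        linarith
      have key := prod4_approx hM1
        (ub₀ ds.length (ds.count 0) ((nqVal r : ℚ) : ℝ) List.count_le_length)
        (ub 0 ds.length (ds.count (Fin.succ 0)) ((nqVal (q 0) : ℚ) : ℝ) List.count_le_length)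
        (ub 1 ds.length (ds.count (Fin.succ 1)) ((nqVal (q 1) : ℚ) : ℝ) List.count_le_length)
        (ub 2 ds.length (ds.count (Fin.succ 2)) ((nqVal (q 2) : ℚ) : ℝ) List.count_le_length)
        (hA₀ (ds.count 0) r (M (ds, (r, q), n)))
        (hA 0 (ds.count (Fin.succ 0)) (q 0) (M (ds, (r, q), n)))
        (hA 1 (ds.count (Fin.succ 1)) (q 1) (M (ds, (r, q), n)))
        (hA 2 (ds.count (Fin.succ 2)) (q 2) (M (ds, (r, q), n)))
      refine key.trans ?_
      have hMv : (M (ds, (r, q), n) : ℝ) = 4 * ((gB Cm Km ds.length : ℝ) + 1) ^ 3 * ((n : ℝ) + 1) := by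
        rw [hM]
        push_cast
        ring
      rw [hMv]
      have hn : (0 : ℝ) < (n : ℝ) + 1 := by positivity
      have hB : (0 : ℝ) ≤ (gB Cm Km ds.length : ℝ) := Nat.cast_nonneg _
      have hP : (0 : ℝ) < 4 * ((gB Cm Km ds.length : ℝ) + 1) ^ 3 := by positivity
      rw [mul_one_div, div_le_div_iff₀ (by positivity) hn]
      nlinarith
    · rw [if_neg hj, Pi.single_eq_of_ne hj]
      simp only [nqVal]
      norm_num
      positivity
  · intro ds p j
    rw [mixedDeriv_tensF i h₀.contDiff (fun k => (h k).contDiff)]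
    simp only [tensF, Fin.prod_univ_three]
    by_cases hj : j = i
    · subst hj
      rw [Pi.single_eq_same]
      have t := abs_mul4_le
        (ub₀ ds.length (ds.count 0) p.1 List.count_le_length)
        (ub 0 ds.length (ds.count (Fin.succ 0)) (p.2 0) List.count_le_length)
        (ub 1 ds.length (ds.count (Fin.succ 1)) (p.2 1) List.count_le_length)
        (ub 2 ds.length (ds.count (Fin.succ 2)) (p.2 2) List.count_le_length)
      push_cast
      have e : ∀ a b c d : ℝ, a * (b * c * d) = a * b * c * d := fun a b c d => by ring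
      rw [e]
      refine t.trans (le_of_eq ?_)
      ring
    · rw [Pi.single_eq_of_ne hj]
      simp

theorem effAux_of_effField {U : Field} (h : EffField U) : EffAux U := by
  induction h with
  | zero => exact effAux_zero
  | tens g₀ g i h₀ h => exact effAux_tens g₀ g i h₀ h
  | add U V hU hV ihU ihV => exact effAux_add hU.contDiff hV.contDiff ihU ihV

theorem effAux_effective {U : Field} (hU : EffAux U) : Effective U := by
  obtain ⟨E', b, pE, pb, hE, hb⟩ := hU
  obtain ⟨fromQ, cf, hf⟩ := exists_computable_fromQ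
  refine ⟨fun x j => nqVal (E' (x.1, (fromQ x.2.1.1, fun k => fromQ (x.2.1.2 k)), x.2.2) j),
    fun ds => b ds.length, ?_, ?_, ?_, ?_⟩
  · apply computable_fin_lam
    intro j
    have inner : Computable (fun x : List (Fin 4) × (ℚ × (Fin 3 → ℚ)) × ℕ =>
        (x.1, (fromQ x.2.1.1, fun k => fromQ (x.2.1.2 k)), x.2.2)) := by
      refine Computable.pair Computable.fst (Computable.pair (Computable.pair
        (cf.comp (Computable.fst.comp (Computable.fst.comp Computable.snd))) ?_)
        (Computable.snd.comp Computable.snd))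
      apply computable_fin_lam
      intro k
      exact cf.comp (Computable.fin_app.comp
        (Computable.snd.comp (Computable.fst.comp Computable.snd)) (Computable.const k))
    exact computable_nqVal.comp
      (Computable.fin_app.comp (pE.to_comp.comp inner) (Computable.const j))
  · exact (pb.comp Primrec.list_length).to_comp
  · intro ds t q n j
    have := hE ds (fromQ t) (fun k => fromQ (q k)) n j
    simp only [pt, hf] at this
    exact this
  · exact hb

end TensorAux

theorem EffField.effective {U : Field} (h : EffField U) : Effective U :=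
  TensorAux.effAux_effective (TensorAux.effAux_of_effField h)

end Crest.Agent.S0170
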